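import Mathlib

/-!
# Bordered diagonal matrices: even moments grow with the border
-/

namespace Vale.Agent.P078.Mss2


open Matrix Finset Polynomial

variable {n : Type*} [Fintype n] [DecidableEq n]

lemma diag_pow_le (j : ℕ) : ∀ (S : Matrix n n ℝ), Sᵀ = S → ∀ e : n,
    S e e ^ (2 ^ j) ≤ (S ^ (2 ^ j)) e e := by
  induction j with
  | zero => intro S _ e; simp
  | succ j ih =>
    intro S hS e
    have h2 : (S * S)ᵀ = S * S := by rw [Matrix.transpose_mul, hS]
    have h1 : S e e ^ 2 ≤ (S * S) e e := by
      rw [Matrix.mul_apply]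
      refine le_trans (le_of_eq (sq _)) (Finset.single_le_sum (f := fun l => S e l * S l e)
        (fun l _ => ?_) (Finset.mem_univ e))
      have : S l e = S e l := congrFun (congrFun hS e) l
      rw [this]
      exact mul_self_nonneg _
    rw [pow_succ', pow_mul, pow_mul, sq S]
    exact (pow_le_pow_left₀ (sq_nonneg _) h1 _).trans (ih _ h2 e)

lemma trace_conj_pow {P Q : Matrix n n ℝ} (h : Q * P = 1) (S : Matrix n n ℝ) (N : ℕ) :
    ((P * S * Q) ^ N).trace = (S ^ N).trace := by
  have e : (P * S * Q) ^ N = P * S ^ N * Q := by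
    induction N with
    | zero => rw [pow_zero, pow_zero, mul_one]; exact (mul_eq_one_comm.1 h).symm
    | succ N ih =>
      rw [pow_succ, ih, pow_succ]
      calc P * S ^ N * Q * (P * S * Q) = P * S ^ N * (Q * P) * S * Q := by
            simp only [mul_assoc]
        _ = P * (S ^ N * S) * Q := by rw [h, mul_one]; simp only [mul_assoc]
  rw [e, Matrix.trace_mul_cycle, h, Matrix.one_mul]

/-- Averaging with a conjugate lowers even moments. -/
lemma trace_pow_avg_le {T U : Matrix n n ℝ} (hT : Tᵀ = T) (hU : Uᵀ = U) (hUU : U * U = 1)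
    {l : ℝ} (hl0 : 0 ≤ l) (hl1 : l ≤ 1) {j : ℕ} (hj : 1 ≤ j) :
    ((l • T + (1 - l) • (U * T * U)) ^ (2 ^ j)).trace ≤ (T ^ (2 ^ j)).trace := by
  set N := 2 ^ j with hN
  set Y := l • T + (1 - l) • (U * T * U) with hY
  have hY' : Y.IsHermitian := by
    change Yᴴ = Y
    rw [Matrix.conjTranspose_eq_transpose_of_trivial, hY, Matrix.transpose_add,
      Matrix.transpose_smul, Matrix.transpose_smul, Matrix.transpose_mul, Matrix.transpose_mul,
      hT, hU, Matrix.mul_assoc]
  set E : Matrix n n ℝ := (hY'.eigenvectorUnitary : Matrix n n ℝ) with hE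
  have hEE : star E * E = 1 := Unitary.coe_star_mul_self _
  have hEE' : E * star E = 1 := Unitary.coe_mul_star_self _
  have hdiag : star E * Y * E = Matrix.diagonal hY'.eigenvalues := by
    have h := congrArg (fun Z => star E * Z * E) hY'.spectral_theorem
    simp only [Unitary.conjStarAlgAut_apply] at h
    rw [h, ← hE]
    simp only [← Matrix.mul_assoc, hEE, Matrix.one_mul]
    rw [Matrix.mul_assoc, hEE, Matrix.mul_one]
    congr 1
  have hstar : star E = Eᵀ := by
    rw [Matrix.star_eq_conjTranspose, Matrix.conjTranspose_eq_transpose_of_trivial]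
  set A := star E * T * E with hA
  set B := star E * (U * T * U) * E with hB
  have hAt : Aᵀ = A := by
    rw [hA, hstar, Matrix.transpose_mul, Matrix.transpose_mul, Matrix.transpose_transpose, hT,
      Matrix.mul_assoc]
  have hBt : Bᵀ = B := by
    rw [hB, hstar, Matrix.transpose_mul, Matrix.transpose_mul, Matrix.transpose_transpose,
      Matrix.transpose_mul, Matrix.transpose_mul, hT, hU, Matrix.mul_assoc, Matrix.mul_assoc]
    simp only [Matrix.mul_assoc]
  have hAN : (A ^ N).trace = (T ^ N).trace := trace_conj_pow hEE' T N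
  have hBN : (B ^ N).trace = (T ^ N).trace := by
    rw [hB, trace_conj_pow hEE' _ N, trace_conj_pow hUU T N]
  have hYN : (Y ^ N).trace = ∑ e, hY'.eigenvalues e ^ N := by
    rw [← trace_conj_pow (P := star E) (Q := E) hEE' Y N, hdiag, Matrix.diagonal_pow,
      Matrix.trace_diagonal]
    rfl
  have hμ : ∀ e, hY'.eigenvalues e = l * A e e + (1 - l) * B e e := fun e => by
    have h : (star E * (l • T + (1 - l) • (U * T * U)) * E) e e = hY'.eigenvalues e :=
      (congrFun (congrFun hdiag e) e).trans (Matrix.diagonal_apply_eq _ _)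
    rw [Matrix.mul_add, Matrix.add_mul, Matrix.mul_smul,
      Matrix.smul_mul, Matrix.mul_smul, Matrix.smul_mul] at h
    simpa [A, B] using h.symm
  have hev : Even N := (Nat.even_pow).2 ⟨even_two, by omega⟩
  have hle : ∀ e, hY'.eigenvalues e ^ N ≤ l * (A ^ N) e e + (1 - l) * (B ^ N) e e := fun e => by
    rw [hμ e]
    refine le_trans ?_ (add_le_add (mul_le_mul_of_nonneg_left (diag_pow_le j A hAt e) hl0)
      (mul_le_mul_of_nonneg_left (diag_pow_le j B hBt e) (by linarith)))
    exact hev.convexOn_pow.2 (Set.mem_univ _) (Set.mem_univ _) hl0 (by linarith) (by ring)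
  rw [hYN]
  refine (Finset.sum_le_sum fun e _ => hle e).trans (le_of_eq ?_)
  rw [Finset.sum_add_distrib, ← Finset.mul_sum, ← Finset.mul_sum,
    show ∑ e, (A ^ N) e e = (A ^ N).trace from rfl, show ∑ e, (B ^ N) e e = (B ^ N).trace from rfl,
    hAN, hBN]
  ring

variable {ι : Type*} [Fintype ι] [DecidableEq ι]

/-- The bordered diagonal matrix. -/
def arrow (a v : ι → ℝ) : Matrix (Unit ⊕ ι) (Unit ⊕ ι) ℝ :=
  Matrix.fromBlocks 0 (Matrix.of fun _ i => v i) (Matrix.of fun i _ => v i) (Matrix.diagonal a)

lemma arrow_transpose (a v : ι → ℝ) : (arrow a v)ᵀ = arrow a v := by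
  rw [arrow, Matrix.fromBlocks_transpose]
  congr 1 <;> simp [Matrix.diagonal_transpose] <;> rfl

/-- Even moments are monotone in the sizes of the border. -/
theorem arrow_moment_le (a v v' : ι → ℝ) (h0 : ∀ i, 0 ≤ v i) (h : ∀ i, v i ≤ v' i) {j : ℕ}
    (hj : 1 ≤ j) : ((arrow a v) ^ (2 ^ j)).trace ≤ ((arrow a v') ^ (2 ^ j)).trace := by
  suffices ∀ s : Finset ι, ((arrow a fun i => if i ∈ s then v i else v' i) ^ (2 ^ j)).trace
      ≤ ((arrow a v') ^ (2 ^ j)).trace by simpa using this Finset.univ
  intro s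
  induction s using Finset.induction with
  | empty => simp
  | insert i s hi ih =>
    refine le_trans ?_ ih
    set u := fun k => if k ∈ s then v k else v' k with hu
    set U : Matrix (Unit ⊕ ι) (Unit ⊕ ι) ℝ :=
      Matrix.diagonal (Sum.elim (fun _ => 1) (fun k => if k = i then -1 else 1)) with hU
    obtain ⟨l, hl0, hl1, hl⟩ : ∃ l : ℝ, 0 ≤ l ∧ l ≤ 1 ∧ (2 * l - 1) * v' i = v i := by
      rcases eq_or_lt_of_le ((h0 i).trans (h i)) with hz | hz
      · exact ⟨1, zero_le_one, le_rfl, by linarith [h i, h0 i]⟩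
      · refine ⟨(1 + v i / v' i) / 2, ?_, ?_, by field_simp; ring⟩
        · have := div_nonneg (h0 i) hz.le; linarith
        · have := div_le_one_of_le₀ (h i) hz.le; linarith
    have e : (arrow a fun k => if k ∈ insert i s then v k else v' k)
        = l • arrow a u + (1 - l) • (U * arrow a u * U) := by
      refine Matrix.ext (fun p q => ?_)
      rw [Matrix.add_apply, Matrix.smul_apply, Matrix.smul_apply, hU, Matrix.mul_diagonal,
        Matrix.diagonal_mul]
      rcases p with ⟨⟩ | p <;> rcases q with ⟨⟩ | q <;> simp only [arrow, Matrix.fromBlocks_apply₁₁,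
        Matrix.fromBlocks_apply₁₂, Matrix.fromBlocks_apply₂₁, Matrix.fromBlocks_apply₂₂,
        Matrix.zero_apply, Matrix.of_apply, Sum.elim_inl, Sum.elim_inr, smul_eq_mul]
      · ring
      · by_cases hq : q = i
        · subst hq; simp [u, hi]; linarith
        · simp [u, hq]; split_ifs <;> ring
      · by_cases hp : p = i
        · subst hp; simp [u, hi]; linarith
        · simp [u, hp]; split_ifs <;> ring
      · by_cases hpq : p = q
        · subst hpq; split_ifs <;> ring
        · simp [Matrix.diagonal_apply_ne _ hpq]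
    rw [e]
    refine trace_pow_avg_le (arrow_transpose a u) (Matrix.diagonal_transpose _) ?_ hl0 hl1 hj
    rw [Matrix.diagonal_mul_diagonal, ← Matrix.diagonal_one]
    congr 1
    funext p
    rcases p with _ | p <;> simp
    split_ifs <;> norm_num

/-- The characteristic polynomial of the bordered matrix. -/
theorem arrow_charpoly (a v : ι → ℝ) :
    (arrow a v).charpoly = X * ∏ i, (X - C (a i))
      - ∑ i, C (v i ^ 2) * ∏ k ∈ Finset.univ.erase i, (X - C (a k)) := by
  refine Polynomial.eq_of_infinite_eval_eq _ _ (Set.Infinite.mono (s := (Set.range a)ᶜ)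
    (fun w hw => ?_) (Set.finite_range a).infinite_compl)
  have hne : ∀ i, w - a i ≠ 0 := fun i => sub_ne_zero.2 (fun h => hw ⟨i, h.symm⟩)
  simp only [Set.mem_setOf_eq, eval_sub, eval_mul, eval_prod, eval_finsetSum, eval_X, eval_C]
  rw [Matrix.charpoly, ← Polynomial.coe_evalRingHom, RingHom.map_det, RingHom.mapMatrix_apply]
  have e : (arrow a v).charmatrix.map (Polynomial.evalRingHom w)
      = Matrix.fromBlocks (Matrix.diagonal fun _ : Unit => w) (Matrix.of fun _ i => -v i)
          (Matrix.of fun i _ => -v i) (Matrix.diagonal fun i => w - a i) := by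
    refine Matrix.ext (fun p q => ?_)
    rcases p with ⟨⟩ | p <;> rcases q with ⟨⟩ | q <;>
      simp [Matrix.charmatrix_apply, arrow, Matrix.diagonal_apply, Sum.inl.injEq, Sum.inr.injEq]
    all_goals split_ifs <;> simp_all
  rw [e]
  let _ : Invertible (Matrix.diagonal fun i => w - a i) :=
    ⟨Matrix.diagonal fun i => (w - a i)⁻¹, by
      rw [Matrix.diagonal_mul_diagonal, ← Matrix.diagonal_one]; congr 1; funext i
      exact inv_mul_cancel₀ (hne i), by
      rw [Matrix.diagonal_mul_diagonal, ← Matrix.diagonal_one]; congr 1; funext i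
      exact mul_inv_cancel₀ (hne i)⟩
  rw [Matrix.det_fromBlocks₂₂, Matrix.det_diagonal, Matrix.det_unique, Matrix.sub_apply,
    Matrix.diagonal_apply_eq, Matrix.mul_apply, mul_sub, Finset.mul_sum, mul_comm _ w]
  congr 1
  refine Finset.sum_congr rfl (fun i _ => ?_)
  change (∏ k, (w - a k)) * ((Matrix.of (fun _ i => -v i)
    * Matrix.diagonal fun i => (w - a i)⁻¹) (default : Unit) i * -v i) = _
  rw [Matrix.mul_diagonal, Matrix.of_apply, ← Finset.mul_prod_erase _ _ (Finset.mem_univ i)]
  field_simp [hne i]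

end Vale.Agent.P078.Mss2
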