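import Vale.Agent.P078.Mss2.BarrierAux

/-!
# The barrier step
-/

namespace Vale.Agent.P078.Mss2

open Vale.Agent.P078.Mss

open Finset Matrix

variable {V : Type*} [Fintype V] [DecidableEq V] {r : ℕ}
variable {x : Fin r → Matrix V V ℂ} {p : V → Fin r → ℝ} {B : ℝ}

/-- The uniform colour law. -/
noncomputable def unif (V : Type*) (r : ℕ) : V → Fin r → ℝ := fun _ _ => 1 / (r : ℝ)

lemma unif_nonneg : ∀ (v : V) (c : Fin r), 0 ≤ unif V r v c := fun _ _ => by
  simp [unif]

lemma unif_sum [NeZero r] : ∀ v : V, ∑ c, unif V r v c = 1 := fun _ => by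
  simp [unif, NeZero.ne r]

/-- All vertices outside `S` and different from `v`, in every colour. -/
def rest (r : ℕ) (S : Finset V) (v : V) : Fin r → Finset V := fun _ => Finset.univ \ insert v S

/-- Positivity of all sub-configurations above `y`. -/
def Pos (x : Fin r → Matrix V V ℂ) (p : V → Fin r → ℝ) (S : Finset V) (y : V → ℝ) : Prop :=
  ∀ D : Fin r → Finset V, (∀ c, Disjoint S (D c)) → ∀ Y : Fin r → V → ℝ,
    (∀ c u, u ∈ S → Y c u = y u) → (∀ c u, y u ≤ Y c u) → 0 < (mix x p (realVars Y) S D).re

/-- The barrier bound at every unprocessed vertex. -/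
def RootBound (x : Fin r → Matrix V V ℂ) (p : V → Fin r → ℝ) (S : Finset V) (y : V → ℝ) (L : ℝ) : Prop :=
  ∀ u, u ∉ S → ∀ ρ : Fin r → ℝ, Monotone ρ →
    (∀ s : ℂ, mix x p (setAt (realVars fun _ => y) Finset.univ u s) S
        (addTo (rest r S u) Finset.univ u)
      = mix x p (realVars fun _ => y) S (rest r S u) * rootProd ρ s) →
    ∑ i, 1 / (y u - ρ i) ≤ L

lemma rootProd_real {n : ℕ} (ρ : Fin n → ℝ) (t : ℝ) :
    rootProd ρ (t : ℂ) = ((∏ i, (t - ρ i) : ℝ) : ℂ) := by
  simp [rootProd]

lemma roots_unique {n : ℕ} {ρ σ : Fin n → ℝ} (hρ : Monotone ρ) (hσ : Monotone σ)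
    (h : ∀ s : ℂ, rootProd ρ s = rootProd σ s) : ρ = σ := by
  have key : ∀ {α β : Fin n → ℝ}, Monotone α → Monotone β →
      (∀ s : ℂ, rootProd α s = rootProd β s) → ∀ i, β i ≤ α i := fun {α β} hα hβ h i =>
    le_of_above_le hα hβ (fun s hαs hβs => above_mono (c := 1) one_pos (fun w hw => by
      rw [h w, div_self (rootProd_ne_zero _ hw.ne'), Complex.ofReal_one, one_mul]; simp)
      (fun w hw => by rw [h w, div_self (rootProd_ne_zero _ hw.ne')]; simp) hαs hβs) i
  exact funext (fun i => le_antisymm (key hσ hρ (fun s => (h s).symm) i) (key hρ hσ h i))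

lemma setAt_univ_real (Y : Fin r → V → ℝ) (u : V) (t : ℝ) :
    setAt (realVars Y) Finset.univ u (t : ℂ) = realVars (fun c v => if v = u then t else Y c v) := by
  funext c v
  by_cases hv : v = u <;> simp [setAt, realVars, hv]

variable (hx : ∀ c, NumBound (x c) B) (hp : ∀ v c, 0 ≤ p v c) (hp1 : ∀ v, ∑ c, p v c = 1)
include hx hp hp1

/-- Normal form of the polynomial in the common variable of `u`. -/
lemma diag_roots [NeZero r] {S : Finset V} {y : V → ℝ} (hPos : Pos x p S y) {u : V} (hu : u ∉ S)
    {D : Fin r → Finset V} (hD : ∀ c, Disjoint S (D c)) (huD : ∀ c, u ∉ D c)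
    {Y : Fin r → V → ℝ} (hYS : ∀ c v, v ∈ S → Y c v = y v) (hY : ∀ c v, y v ≤ Y c v) :
    ∃ ρ : Fin r → ℝ, Monotone ρ ∧
      (∀ s, mix x p (setAt (realVars Y) Finset.univ u s) S (addTo D Finset.univ u)
        = mix x p (realVars Y) S D * rootProd ρ s) ∧
      (∀ i, ρ i < y u) ∧
      (∑ c, (mix x p (setVar (realVars Y) c u 0) S (adj D c u)).re)
        = -((mix x p (realVars Y) S D).re * ∑ i, ρ i) := by
  obtain ⟨P, hP1, hP2, hP3, hP4⟩ :=
    exists_diag_poly (x := x) (p := p) hp1 S u hu Finset.univ (realVars Y) D (fun c _ => huD c)
  rw [Finset.card_univ, Fintype.card_fin] at hP1 hP3 hP4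
  set A := mix x p (realVars Y) S D with hA
  have hApos : 0 < A.re := hPos D hD Y hYS hY
  have hAne : A ≠ 0 := fun h => by rw [h] at hApos; simp at hApos
  have hupper : ∀ s : ℂ, 0 < s.im → P.eval s ≠ 0 := fun s hs h => by
    have h1 := norm_addTo_ge hx hp hp1 S u hu Finset.univ (realVars Y) D hD huD
      (fun c v => by simp [realVars]) hs.le
    rw [← hP2, h, norm_zero] at h1
    have h2 : 0 < s.im ^ (Finset.univ : Finset (Fin r)).card * ‖A‖ :=
      mul_pos (pow_pos hs _) (norm_pos_iff.2 hAne)
    linarith
  have hroot : ∀ s : ℂ, P.eval s = 0 → s.im = 0 := fun s h => by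
    rcases lt_trichotomy s.im 0 with hlt | heq | hgt
    · refine absurd ?_ (hupper (starRingEnd ℂ s) (by simpa using hlt))
      rw [hP2] at h ⊢
      have h1 := congrArg (starRingEnd ℂ) h
      rw [mix_conj (fun c => (hx c).1), map_zero] at h1
      refine Eq.trans ?_ h1
      congr 1
      funext c v
      by_cases hv : v = u <;> simp [setAt, realVars, hv]
    · exact heq
    · exact absurd h (hupper s hgt)
  obtain ⟨ρ, hmono, hform⟩ := real_rooted_form hP1 (by rw [hP3]; exact hAne) hroot
  rw [hP3] at hform
  have heval : ∀ s, mix x p (setAt (realVars Y) Finset.univ u s) S (addTo D Finset.univ u)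
      = A * rootProd ρ s := fun s => by rw [← hP2, hform, eval_form]
  refine ⟨ρ, hmono, heval, fun i => ?_, ?_⟩
  · by_contra hle
    push Not at hle
    have h0 := heval (ρ i : ℂ)
    rw [rootProd_real, Finset.prod_eq_zero (Finset.mem_univ i) (sub_self _), Complex.ofReal_zero,
      mul_zero, setAt_univ_real] at h0
    have h1 := hPos (addTo D Finset.univ u) (addTo_disjoint hD hu _)
      (fun c v => if v = u then ρ i else Y c v)
      (fun c v hv => by rw [if_neg (fun h : v = u => hu (by rw [← h]; exact hv)), hYS c v hv])
      (fun c v => by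
        by_cases hv : v = u
        · rw [if_pos hv, hv]; exact hle
        · rw [if_neg hv]; exact hY c v)
    rw [h0] at h1
    simp at h1
  · have h4 := hP4 ⟨0, Finset.mem_univ _⟩
    rw [hform, coeff_pred_prod r (NeZero.pos r)] at h4
    have h5 := congrArg Complex.re h4
    rw [Complex.re_sum, Complex.mul_re, Complex.neg_re, Complex.ofReal_re, Complex.ofReal_im,
      mul_zero, sub_zero, neg_mul] at h5
    exact h5.symm

omit hp in
/-- The value after processing `v`. -/
lemma step_value {S : Finset V} {v : V} (hv : v ∉ S) {D : Fin r → Finset V} (hvD : ∀ c, v ∉ D c)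
    (Y : Fin r → V → ℝ) :
    (mix x p (realVars Y) (insert v S) D).re
      = ∑ c, p v c * (Y c v * (mix x p (realVars Y) S D).re
          + (mix x p (setVar (realVars Y) c v 0) S (adj D c v)).re) := by
  rw [mix_insert hp1 hv, Complex.re_sum]
  refine Finset.sum_congr rfl (fun c _ => ?_)
  have h := mix_affine' (x := x) (p := p) (z := realVars Y) hp1 S D c v hv (hvD c) (Y c v : ℂ)
  have e : setVar (realVars Y) c v (Y c v : ℂ) = realVars Y := by
    rw [mix_setVar_real]; simp
  rw [e] at h
  change ((p v c : ℂ) * mix x p (realVars Y) S (adj D c v)).re = _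
  rw [h, Complex.re_ofReal_mul, Complex.add_re, Complex.re_ofReal_mul]

/-- The ratio of adjoining `v` to colour `c`. -/
noncomputable def adjRatio (x : Fin r → Matrix V V ℂ) (p : V → Fin r → ℝ) (S : Finset V) (c : Fin r)
    (v : V) (D : Fin r → Finset V) (Y : Fin r → V → ℝ) : ℝ :=
  (mix x p (setVar (realVars Y) c v 0) S (adj D c v)).re / (mix x p (realVars Y) S D).re

/-- One switch: raise a variable, possibly removing its vertex. -/
lemma ratio_switch {S : Finset V} {y : V → ℝ} (hPos : Pos x p S y) {v u : V} (hv : v ∉ S)
    (huS : u ∉ S) (huv : u ≠ v) {c d : Fin r} {D : Fin r → Finset V}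
    (hD : ∀ e, Disjoint S (D e)) (hvD : v ∉ D c) (hu : u ∈ D d) {Y : Fin r → V → ℝ}
    (hYS : ∀ e w, w ∈ S → Y e w = y w) (hY : ∀ e w, y w ≤ Y e w) {t : ℝ} (ht : Y d u ≤ t) :
    adjRatio x p S c v D Y ≤ adjRatio x p S c v D (Function.update Y d (Function.update (Y d) u t))
      ∧ adjRatio x p S c v D Y ≤ adjRatio x p S c v (Function.update D d ((D d).erase u))
          (Function.update Y d (Function.update (Y d) u t)) := by
  set E := Function.update D d ((D d).erase u) with hE
  have hEadj : adj E d u = D := by
    funext d'
    by_cases h : d' = d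
    · subst h; simp [adj, E, Finset.insert_erase hu]
    · simp [adj, E, Function.update_of_ne h]
  have huE : u ∉ E d := by simp [E]
  have hvE : v ∉ E c := by
    by_cases h : c = d
    · subst h; simp [E, hvD]
    · simp [E, Function.update_of_ne h, hvD]
  have hED : ∀ d', Disjoint S (E d') := fun d' => by
    by_cases h : d' = d
    · subst h
      simp only [E, Function.update_self]
      exact (hD d').mono_right (Finset.erase_subset _ _)
    · simp only [E, Function.update_of_ne h]; exact hD d'
  set Yc := Function.update Y c (Function.update (Y c) v 0) with hYc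
  have hYc' : setVar (realVars Y) c v 0 = realVars Yc := by
    rw [show (0 : ℂ) = ((0 : ℝ) : ℂ) by simp, mix_setVar_real]
  have huadj : u ∉ adj E c v d := by
    by_cases h : d = c
    · subst h; simp [adj, huE, huv]
    · simp [adj, Function.update_of_ne h, huE]
  have hcomm : adj (adj E c v) d u = adj D c v := by
    rw [← hEadj]
    funext e
    by_cases h1 : d = c
    · subst h1
      by_cases he : e = d
      · subst he; simp [adj, Finset.insert_comm]
      · simp [adj, Function.update_of_ne he]
    · by_cases he : e = d
      · subst he; simp [adj, Function.update_of_ne h1, Function.update_of_ne (Ne.symm h1)]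
      · by_cases he' : e = c
        · subst he'; simp [adj, Function.update_of_ne he]
        · simp [adj, Function.update_of_ne he, Function.update_of_ne he']
  have hcross := cross_nonneg (x := x) (p := p) hx hp hp1 S E Yc hED (c := c) (d := d) (w := v)
    (u := u) hv hvE huS huE (fun h => huv h.2)
  rw [hEadj, hcomm] at hcross
  have hswap : ∀ s s' : ℂ, setVar (setVar (realVars Y) c v s) d u s'
      = setVar (setVar (realVars Y) d u s') c v s := by
    intro s s'
    funext e w
    simp only [setVar]
    by_cases h1 : d = c
    · subst h1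
      by_cases h2 : e = d
      · subst h2
        simp only [Function.update_self]
        rw [Function.update_comm huv.symm]
      · simp only [Function.update_of_ne h2]
    · by_cases h2 : e = d
      · subst h2
        simp only [Function.update_self, Function.update_of_ne h1]
      · by_cases h3 : e = c
        · subst h3
          simp only [Function.update_self, Function.update_of_ne h2, Function.update_of_ne (Ne.symm h1)]
        · simp only [Function.update_of_ne h2, Function.update_of_ne h3]
  have cE : mix x p (realVars Yc) S E = mix x p (realVars Y) S E := by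
    rw [← hYc']; exact mix_setVar_of_notMem S E c v hv hvE 0
  have cD : mix x p (setVar (realVars Yc) d u 0) S D
      = mix x p (setVar (realVars Y) d u 0) S D := by
    rw [← hYc', hswap]
    exact mix_setVar_of_notMem S D c v hv hvD 0
  rw [cE, cD] at hcross
  set a := (mix x p (realVars Y) S E).re
  set b := (mix x p (setVar (realVars Y) d u 0) S D).re
  set a' := (mix x p (realVars Yc) S (adj E c v)).re
  set b' := (mix x p (setVar (realVars Yc) d u 0) S (adj D c v)).re
  have hapos : 0 < a := hPos E hED Y hYS hY
  have den : ∀ s : ℝ, (mix x p (setVar (realVars Y) d u (s : ℂ)) S D).re = s * a + b := by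
    intro s
    have := mix_affine' (x := x) (p := p) (z := realVars Y) hp1 S E d u huS huE (s : ℂ)
    rw [hEadj] at this
    rw [this, Complex.add_re, Complex.re_ofReal_mul]
  have num : ∀ s : ℝ, (mix x p (setVar (setVar (realVars Y) d u (s : ℂ)) c v 0) S
      (adj D c v)).re = s * a' + b' := by
    intro s
    have := mix_affine' (x := x) (p := p) (z := realVars Yc) hp1 S (adj E c v) d u huS huadj
      (s : ℂ)
    rw [hcomm] at this
    rw [← hswap, hYc', this, Complex.add_re, Complex.re_ofReal_mul]
  have hold : setVar (realVars Y) d u ((Y d u : ℝ) : ℂ) = realVars Y := by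
    rw [mix_setVar_real]; simp
  have hnew : realVars (Function.update Y d (Function.update (Y d) u t))
      = setVar (realVars Y) d u ((t : ℝ) : ℂ) := (mix_setVar_real Y d u t).symm
  have hYS' : ∀ e w, w ∈ S → Function.update Y d (Function.update (Y d) u t) e w = y w := by
    intro e w hw
    have : w ≠ u := fun h => huS (h ▸ hw)
    by_cases he : e = d
    · subst he; simp [Function.update_of_ne this, hYS e w hw]
    · simp [Function.update_of_ne he, hYS e w hw]
  have hY' : ∀ e w, y w ≤ Function.update Y d (Function.update (Y d) u t) e w := by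
    intro e w
    by_cases he : e = d
    · subst he
      by_cases hw : w = u
      · subst hw; simpa using (hY e w).trans ht
      · simpa [Function.update_of_ne hw] using hY e w
    · simpa [Function.update_of_ne he] using hY e w
  have hRold : adjRatio x p S c v D Y = (Y d u * a' + b') / (Y d u * a + b) := by
    rw [← den, ← num, hold, adjRatio]
  have pold : 0 < Y d u * a + b := by
    rw [← den, hold]; exact hPos D hD Y hYS hY
  constructor
  · rw [hRold, adjRatio, hnew, num, den]
    refine affine_ratio_mono hcross ht pold ?_
    rw [← den, ← hnew]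
    exact hPos D hD _ hYS' hY'
  · have : adjRatio x p S c v E (Function.update Y d (Function.update (Y d) u t)) = a' / a := by
      rw [adjRatio, hnew, mix_setVar_of_notMem S E d u huS huE, ← hswap, hYc',
        mix_setVar_of_notMem S (adj E c v) d u huS huadj]
    rw [hRold, this]
    exact affine_ratio_le_top hcross hapos pold

/-- Shrinking the configuration and raising the variables increases the adjoining ratios. -/
lemma ratio_mono {S : Finset V} {y : V → ℝ} (hPos : Pos x p S y) {v : V} (hv : v ∉ S)
    {D : Fin r → Finset V} (hD : ∀ c, Disjoint S (D c)) (hvD : ∀ c, v ∉ D c)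
    {Y : Fin r → V → ℝ} (hYS : ∀ c u, u ∈ S → Y c u = y u) (hY : ∀ c u, y u ≤ Y c u) (c : Fin r) :
    adjRatio x p S c v (rest r S v) (fun _ => y) ≤ adjRatio x p S c v D Y := by
  classical
  let YT : Finset (Fin r × V) → Fin r → V → ℝ :=
    fun T d u => if (d, u) ∈ T ∧ u ≠ v then Y d u else y u
  let DT : Finset (Fin r × V) → Fin r → Finset V :=
    fun T d => (rest r S v d).filter (fun u => (d, u) ∈ T → u ∈ D d)
  have e0 : DT ∅ = rest r S v ∧ YT ∅ = fun _ => y :=
    ⟨by funext d; simp [DT], by funext d u; simp [YT]⟩
  have e2 : DT Finset.univ = D := by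
    funext d; ext u
    simp only [DT, rest, Finset.mem_filter, Finset.mem_sdiff, Finset.mem_univ, true_and,
      Finset.mem_insert, not_or, true_implies]
    exact ⟨fun h => h.2, fun h => ⟨⟨fun hu => hvD d (hu ▸ h),
      fun hu => Finset.disjoint_left.1 (hD d) hu h⟩, h⟩⟩
  have e3 : ∀ d u, u ≠ v → YT Finset.univ d u = Y d u := fun d u hu => by simp [YT, hu]
  have h1 : adjRatio x p S c v D (YT Finset.univ) = adjRatio x p S c v D Y := by
    simp only [adjRatio]
    refine congrArg₂ (· / ·) (congrArg Complex.re ?_) (congrArg Complex.re ?_)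
    · refine mix_congr (fun d u hu => ?_)
      by_cases hd : d = c
      · subst hd
        by_cases huv : u = v
        · subst huv; simp [setVar]
        · simp [setVar, realVars, Function.update_of_ne huv, e3 d u huv]
      · have huv : u ≠ v := by
          rintro rfl
          rcases hu with hu | hu
          · exact hv hu
          · simp [adj, Function.update_of_ne hd, hvD] at hu
        simp [setVar, realVars, Function.update_of_ne hd, e3 d u huv]
    · refine mix_congr (fun d u hu => ?_)
      have huv : u ≠ v := by
        rintro rfl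
        rcases hu with hu | hu
        · exact hv hu
        · exact hvD d hu
      simp [realVars, e3 d u huv]
  suffices ∀ T, adjRatio x p S c v (DT ∅) (YT ∅) ≤ adjRatio x p S c v (DT T) (YT T) by
    have := this Finset.univ
    rwa [e0.1, e0.2, e2, h1] at this
  intro T
  induction T using Finset.induction with
  | empty => exact le_rfl
  | insert a T ha ih =>
    refine ih.trans ?_
    obtain ⟨d, u⟩ := a
    have hne : ∀ {d' u'}, ¬(d' = d ∧ u' = u) → ((d', u') ∈ insert (d, u) T ↔ (d', u') ∈ T) :=
      fun {d' u'} h => by simp [h]
    by_cases hrest : u ∈ rest r S v d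
    · simp only [rest, Finset.mem_sdiff, Finset.mem_univ, true_and, Finset.mem_insert,
        not_or] at hrest
      have hY1 : YT (insert (d, u) T)
          = Function.update (YT T) d (Function.update (YT T d) u (Y d u)) := by
        funext d' w
        by_cases h : d' = d ∧ w = u
        · obtain ⟨rfl, rfl⟩ := h; simp [YT, hrest.1]
        · by_cases hd : d' = d
          · subst hd
            have hw : w ≠ u := fun e => h ⟨rfl, e⟩
            simp [YT, hne h, Function.update_of_ne hw]
          · simp [YT, hne h, Function.update_of_ne hd]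
      have hu1 : u ∈ DT T d := by simp [DT, rest, ha, hrest]
      have hyu : YT T d u ≤ Y d u := by simp [YT, ha, hY]
      obtain ⟨s1, s2⟩ := ratio_switch (x := x) (p := p) hx hp hp1 hPos hv hrest.2 hrest.1
        (D := DT T) (c := c) (d := d)
        (fun e => Finset.disjoint_left.2 (fun w hw h => by simp [DT, rest, hw] at h))
        (by simp [DT, rest]) hu1 (Y := YT T)
        (fun e w hw => by simp only [YT]; split_ifs <;> simp [hYS e w hw])
        (fun e w => by simp only [YT]; split_ifs <;> simp [hY e w]) hyu
      rw [← hY1] at s1 s2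
      by_cases hkeep : u ∈ D d
      · have : DT (insert (d, u) T) = DT T := by
          funext d'
          refine Finset.filter_congr (fun w _ => ?_)
          by_cases h : d' = d ∧ w = u
          · obtain ⟨rfl, rfl⟩ := h; simp [hkeep]
          · simp [hne h]
        rw [this]; exact s1
      · have : DT (insert (d, u) T) = Function.update (DT T) d ((DT T d).erase u) := by
          funext d'
          ext w
          by_cases h : d' = d ∧ w = u
          · obtain ⟨rfl, rfl⟩ := h; simp [DT, hkeep]
          · by_cases hd : d' = d
            · subst hd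
              have hw : w ≠ u := fun e => h ⟨rfl, e⟩
              simp [DT, hne h, hw]
            · simp [DT, hd, Function.update_of_ne hd]
        rw [this]; exact s2
    · have e1 : YT (insert (d, u) T) = YT T := by
        funext d' u'
        by_cases h : d' = d ∧ u' = u
        · obtain ⟨rfl, rfl⟩ := h
          by_cases hu : u' = v
          · simp [YT, hu]
          · have : u' ∈ S := by simpa [rest, hu] using hrest
            simp [YT, hYS d' u' this]
        · simp [YT, hne h]
      have e2' : DT (insert (d, u) T) = DT T := by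
        funext d'
        refine Finset.filter_congr (fun u' hu' => ?_)
        have : ¬(d' = d ∧ u' = u) := by rintro ⟨rfl, rfl⟩; exact hrest hu'
        simp [hne this]
      rw [e1, e2']

end Vale.Agent.P078.Mss2
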