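import Vale.Agent.P078.Mss2.Diag

/-!
# Auxiliary facts for the barrier argument
-/

namespace Vale.Agent.P078.Mss2

open Vale.Agent.P078.Mss

open Finset Matrix

variable {V : Type*} [Fintype V] [DecidableEq V] {r : ℕ}
variable {x : Fin r → Matrix V V ℂ} {p : V → Fin r → ℝ} {B : ℝ}

lemma mix_congr {z z' : Fin r → V → ℂ} {U : Finset V} {D : Fin r → Finset V}
    (h : ∀ c u, u ∈ U ∨ u ∈ D c → z c u = z' c u) : mix x p z U D = mix x p z' U D := by
  simp only [mix]
  refine Finset.sum_congr rfl (fun f _ => congrArg _ (Finset.prod_congr rfl (fun c _ => ?_)))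
  congr 1
  refine Matrix.ext (fun i j => ?_)
  simp only [minorMat, Matrix.of_apply]
  split_ifs with h1 h2 <;> try rfl
  rw [h c i]
  have := h1.1
  simp only [Finset.mem_union, Finset.mem_filter] at this
  tauto

lemma mix_setVar_real (y : Fin r → V → ℝ) (c : Fin r) (w : V) (s : ℝ) :
    setVar (realVars y) c w (s : ℂ)
      = realVars (Function.update y c (Function.update (y c) w s)) := by
  funext e v
  by_cases he : e = c
  · subst he
    by_cases hv : v = w
    · subst hv; simp [setVar, realVars]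
    · simp [setVar, realVars, Function.update_of_ne hv]
  · simp [setVar, realVars, Function.update_of_ne he]

lemma im_eq_zero_of_setVar (hx : ∀ c, (x c).IsHermitian) (y : Fin r → V → ℝ) (c : Fin r) (w : V)
    (U : Finset V) (D : Fin r → Finset V) :
    (mix x p (setVar (realVars y) c w 0) U D).im = 0 := by
  rw [show (0 : ℂ) = ((0 : ℝ) : ℂ) by simp, mix_setVar_real]
  exact mix_real hx _ U D

/-- Two affine functions with nonnegative cross difference have increasing quotient. -/
lemma affine_ratio_mono {a b a' b' s1 s2 : ℝ} (hcross : b' * a ≤ a' * b) (h12 : s1 ≤ s2)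
    (h1 : 0 < s1 * a + b) (h2 : 0 < s2 * a + b) :
    (s1 * a' + b') / (s1 * a + b) ≤ (s2 * a' + b') / (s2 * a + b) := by
  rw [div_le_div_iff₀ h1 h2]
  nlinarith [mul_le_mul_of_nonneg_left hcross (sub_nonneg.2 h12)]

lemma affine_ratio_le_top {a b a' b' s : ℝ} (hcross : b' * a ≤ a' * b) (ha : 0 < a)
    (h1 : 0 < s * a + b) : (s * a' + b') / (s * a + b) ≤ a' / a := by
  rw [div_le_div_iff₀ h1 ha]
  linarith

/-- Enlarging the gaps decreases `(Σ m - C) / ∏ m`. -/
lemma gap_mono {n : ℕ} (m m' : Fin n → ℝ) (C : ℝ) (hm : ∀ i, 0 < m i) (hle : ∀ i, m i ≤ m' i)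
    (hC : ∀ i, C ≤ ∑ j ∈ Finset.univ.erase i, m j) :
    (∑ i, m' i - C) / ∏ i, m' i ≤ (∑ i, m i - C) / ∏ i, m i := by
  classical
  let F : (Fin n → ℝ) → ℝ := fun g => (∑ i, g i - C) / ∏ i, g i
  let g : Finset (Fin n) → Fin n → ℝ := fun T i => if i ∈ T then m' i else m i
  suffices ∀ T, F (g T) ≤ F (g ∅) by simpa [F, g] using this Finset.univ
  intro T
  induction T using Finset.induction with
  | empty => exact le_rfl
  | insert i T hi ih =>
    refine le_trans ?_ ih
    have hg : ∀ j, m j ≤ g T j := fun j => by simp only [g]; split_ifs <;> simp [hle]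
    have hothers : ∀ j ∈ Finset.univ.erase i, g (insert i T) j = g T j := fun j hj => by
      simp [g, Finset.ne_of_mem_erase hj]
    have e1 : g (insert i T) i = m' i := by simp [g]
    have e2 : g T i = m i := by simp [g, hi]
    set S := ∑ j ∈ Finset.univ.erase i, g T j
    set Q := ∏ j ∈ Finset.univ.erase i, g T j
    have hQ : 0 < Q := Finset.prod_pos (fun j _ => (hm j).trans_le (hg j))
    have hS : C ≤ S := (hC i).trans (Finset.sum_le_sum (fun j _ => hg j))
    change (∑ j, g (insert i T) j - C) / ∏ j, g (insert i T) j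
      ≤ (∑ j, g T j - C) / ∏ j, g T j
    rw [← Finset.add_sum_erase _ _ (Finset.mem_univ i),
      ← Finset.add_sum_erase _ (g T) (Finset.mem_univ i),
      ← Finset.mul_prod_erase _ _ (Finset.mem_univ i),
      ← Finset.mul_prod_erase _ (g T) (Finset.mem_univ i),
      Finset.sum_congr rfl hothers, Finset.prod_congr rfl hothers, e1, e2]
    change (m' i + S - C) / (m' i * Q) ≤ (m i + S - C) / (m i * Q)
    have hm' : 0 < m' i := (hm i).trans_le (hle i)
    rw [div_le_div_iff₀ (mul_pos hm' hQ) (mul_pos (hm i) hQ)]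
    nlinarith [mul_nonneg (mul_nonneg (sub_nonneg.2 (hle i)) (sub_nonneg.2 hS)) hQ.le]

lemma one_add_sum_le_prod' {ι : Type*} (T : Finset ι) (b : ι → ℝ) (hb : ∀ i ∈ T, 0 ≤ b i) :
    1 + ∑ i ∈ T, b i ≤ ∏ i ∈ T, (1 + b i) := by
  classical
  induction T using Finset.induction with
  | empty => simp
  | insert i T hi ih =>
    have h1 := hb i (Finset.mem_insert_self i T)
    have h2 := ih (fun j hj => hb j (Finset.mem_insert_of_mem hj))
    have h3 : 0 ≤ ∑ j ∈ T, b j :=
      Finset.sum_nonneg (fun j hj => hb j (Finset.mem_insert_of_mem hj))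
    rw [Finset.sum_insert hi, Finset.prod_insert hi]
    nlinarith [mul_le_mul_of_nonneg_left h2 (show 0 ≤ 1 + b i by linarith), mul_nonneg h1 h3]

/-- If the root product quotient decreases, so does the sum of reciprocal gaps. -/
lemma sum_inv_le_of_prod {n m : ℕ} (a : Fin n → ℝ) (a' : Fin m → ℝ) (ha : ∀ i, 0 ≤ a i)
    (ha' : ∀ i, 0 ≤ a' i) (h : ∀ t : ℝ, 0 < t → ∏ i, (1 + t * a' i) ≤ ∏ i, (1 + t * a i)) :
    ∑ i, a' i ≤ ∑ i, a i := by
  set S := ∑ i, a i
  have hS : 0 ≤ S := Finset.sum_nonneg (fun i _ => ha i)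
  by_contra hlt
  push Not at hlt
  set t : ℝ := min (1 / (S + 1)) ((∑ i, a' i - S) / (2 * (S ^ 2 + 1))) with ht
  have ht0 : 0 < t := lt_min (by positivity) (by have := sub_pos.2 hlt; positivity)
  have h1 : 1 + t * ∑ i, a' i ≤ ∏ i, (1 + t * a' i) := by
    rw [Finset.mul_sum]
    exact one_add_sum_le_prod' _ _ (fun i _ => mul_nonneg ht0.le (ha' i))
  have h2 : ∏ i, (1 + t * a i) ≤ Real.exp (t * S) := by
    rw [Finset.mul_sum, Real.exp_sum]
    exact Finset.prod_le_prod (fun i _ => by nlinarith [ha i, mul_nonneg ht0.le (ha i)])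
      (fun i _ => by linarith [Real.add_one_le_exp (t * a i)])
  have hx1 : t * S ≤ 1 := by
    have h4 : t ≤ 1 / (S + 1) := min_le_left _ _
    rw [le_div_iff₀ (by positivity)] at h4
    nlinarith
  have h3 : Real.exp (t * S) ≤ 1 + t * S + (t * S) ^ 2 := by
    have h5 := Real.abs_exp_sub_one_sub_id_le (x := t * S)
      (by rw [abs_of_nonneg (by positivity)]; exact hx1)
    linarith [(abs_le.1 h5).2]
  have h6 : t * (2 * (S ^ 2 + 1)) ≤ ∑ i, a' i - S := by
    rw [← le_div_iff₀ (by positivity)]; exact min_le_right _ _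
  have h7 : t * (∑ i, a' i - S) ≤ t * (t * S ^ 2) := by
    have := (h1.trans (h t ht0)).trans (h2.trans h3)
    nlinarith
  have h8 := le_of_mul_le_mul_left h7 ht0
  nlinarith [sq_nonneg S, mul_pos ht0 (show (0 : ℝ) < S ^ 2 + 2 by positivity)]

/-- Reciprocal sums bound partial sums from below. -/
lemma sum_erase_lower {n : ℕ} (m : Fin n → ℝ) (hm : ∀ i, 0 < m i) {L : ℝ} (hL : 0 < L)
    (hsum : ∑ i, 1 / m i ≤ L) (i : Fin n) :
    ((n : ℝ) - 1) ^ 2 / L ≤ ∑ j ∈ Finset.univ.erase i, m j := by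
  have h1 := Finset.sum_sq_le_sum_mul_sum_of_sq_le_mul (Finset.univ.erase i)
    (r := fun _ => (1 : ℝ)) (f := m) (g := fun j => 1 / m j)
    (fun j _ => (hm j).le) (fun j _ => (one_div_pos.2 (hm j)).le)
    (fun j _ => by rw [one_pow, mul_one_div, div_self (hm j).ne'])
  have hn : 1 ≤ n := i.pos
  rw [Finset.sum_const, Finset.card_erase_of_mem (Finset.mem_univ i), Finset.card_univ,
    Fintype.card_fin, nsmul_eq_mul, mul_one, Nat.cast_sub hn, Nat.cast_one] at h1
  have h2 : ∑ j ∈ Finset.univ.erase i, 1 / m j ≤ L :=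
    le_trans (Finset.sum_le_univ_sum_of_nonneg (fun j => (one_div_pos.2 (hm j)).le)) hsum
  rw [div_le_iff₀ hL]
  exact h1.trans (mul_le_mul_of_nonneg_left h2 (Finset.sum_nonneg (fun j _ => (hm j).le)))

end Vale.Agent.P078.Mss2
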