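import Vale.Agent.P078.Mss2.Barrier

/-!
# Processing one vertex
-/

namespace Vale.Agent.P078.Mss2

open Vale.Agent.P078.Mss

open Finset Matrix

variable {V : Type*} [Fintype V] [DecidableEq V] {r : ℕ}
variable {x : Fin r → Matrix V V ℂ} {p : V → Fin r → ℝ} {B : ℝ}
variable (hx : ∀ c, NumBound (x c) B) (hp : ∀ v c, 0 ≤ p v c) (hp1 : ∀ v, ∑ c, p v c = 1)
include hx hp hp1

/-- Raising the variable of `u` in one colour lowers every root at `v`. -/
lemma root_mono_one [NeZero r] {S : Finset V} {y : V → ℝ} (hPos : Pos x p S y) {v u : V}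
    (hv : v ∉ S) (huS : u ∉ S) (huv : u ≠ v) (c : Fin r) {Y : Fin r → V → ℝ}
    (hYS : ∀ e w, w ∈ S → Y e w = y w) (hY : ∀ e w, y w ≤ Y e w) {t : ℝ} (ht : Y c u ≤ t)
    {ρ σ : Fin r → ℝ} (hρm : Monotone ρ) (hσm : Monotone σ)
    (hρ : ∀ s, mix x p (setAt (realVars Y) Finset.univ v s) S (addTo (rest r S v) Finset.univ v)
        = mix x p (realVars Y) S (rest r S v) * rootProd ρ s)
    (hσ : ∀ s, mix x p (setAt (realVars (Function.update Y c (Function.update (Y c) u t)))
          Finset.univ v s) S (addTo (rest r S v) Finset.univ v)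
        = mix x p (realVars (Function.update Y c (Function.update (Y c) u t))) S (rest r S v)
          * rootProd σ s) :
    ∀ i, σ i ≤ ρ i := by
  set Full := addTo (rest r S v) Finset.univ v with hFull
  have hFd : ∀ e, Disjoint S (Full e) := addTo_disjoint
    (fun e => Finset.disjoint_left.2 (fun w hw h => by simp [rest, hw] at h)) hv _
  have hrd : ∀ e, Disjoint S (rest r S v e) :=
    fun e => Finset.disjoint_left.2 (fun w hw h => by simp [rest, hw] at h)
  set E := Function.update Full c ((Full c).erase u) with hE
  have huF : u ∈ Full c := by simp [Full, addTo, rest, huv, huS]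
  have hEadj : adj E c u = Full := by
    funext e
    by_cases h : e = c
    · subst h; simp [adj, E, Finset.insert_erase huF]
    · simp [adj, E, Function.update_of_ne h]
  have huE : u ∉ E c := by simp [E]
  have hED : ∀ e, Disjoint S (E e) := fun e => by
    by_cases h : e = c
    · subst h
      simp only [E, Function.update_self]
      exact (hFd e).mono_right (Finset.erase_subset _ _)
    · simp only [E, Function.update_of_ne h]; exact hFd e
  let Yt : ℝ → Fin r → V → ℝ := fun q => Function.update Y c (Function.update (Y c) u q)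
  have hYtS : ∀ q e w, w ∈ S → Yt q e w = y w := by
    intro q e w hw
    have : w ≠ u := fun h => huS (h ▸ hw)
    by_cases he : e = c
    · subst he; simp [Yt, Function.update_of_ne this, hYS e w hw]
    · simp [Yt, Function.update_of_ne he, hYS e w hw]
  have hYt : ∀ q, Y c u ≤ q → ∀ e w, y w ≤ Yt q e w := by
    intro q hq e w
    by_cases he : e = c
    · subst he
      by_cases hw : w = u
      · subst hw; simpa [Yt] using (hY e w).trans hq
      · simpa [Yt, Function.update_of_ne hw] using hY e w
    · simpa [Yt, Function.update_of_ne he] using hY e w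
  set A1 := mix x p (realVars Y) S (rest r S v) with hA1
  set A2 := mix x p (realVars (Yt t)) S (rest r S v) with hA2
  have hA1p : 0 < A1.re := hPos _ hrd Y hYS hY
  have hA2p : 0 < A2.re := hPos _ hrd _ (hYtS t) (hYt t ht)
  have hA1r : A1 = (A1.re : ℂ) := Complex.ext (by simp) (by simp [hA1, mix_real (fun c => (hx c).1)])
  have hA2r : A2 = (A2.re : ℂ) := Complex.ext (by simp) (by simp [hA2, mix_real (fun c => (hx c).1)])
  have key : ∀ w : ℂ, 0 < w.im →
      ((A2.re / A1.re : ℝ) : ℂ) * (rootProd σ w / rootProd ρ w) ∈ Complex.slitPlane ∧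
        (((A2.re / A1.re : ℝ) : ℂ) * (rootProd σ w / rootProd ρ w)).im ≤ 0 := by
    intro w hw
    set z := setAt (realVars Y) Finset.univ v w with hz
    have hzq : ∀ q : ℝ, setAt (realVars (Yt q)) Finset.univ v w = setVar z c u (q : ℂ) := by
      intro q
      funext e a
      by_cases he : e = c
      · subst he
        by_cases ha : a = u
        · subst ha; simp [setAt, setVar, realVars, Yt, huv]
        · simp [setAt, setVar, realVars, Yt, z, Function.update_of_ne ha]
      · simp [setAt, setVar, realVars, Yt, z, Function.update_of_ne he]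
    set a := mix x p z S E with ha
    set b := mix x p (setVar z c u 0) S Full with hb
    have haff : ∀ q : ℂ, mix x p (setVar z c u q) S Full = q * a + b := fun q => by
      have := mix_affine' (x := x) (p := p) (z := z) hp1 S E c u huS huE q
      rwa [hEadj] at this
    have hne : ∀ q : ℝ, Y c u ≤ q → (q : ℂ) * a + b ≠ 0 := by
      intro q hq h
      have h1 := norm_addTo_ge hx hp hp1 S v hv Finset.univ (realVars (Yt q)) (rest r S v) hrd
        (fun e => by simp [rest]) (fun e a => by simp [realVars]) hw.le
      rw [hzq, ← hFull, haff, h, norm_zero] at h1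
      have h2 : 0 < ‖mix x p (realVars (Yt q)) S (rest r S v)‖ := norm_pos_iff.2 (fun h0 => by
        have := hPos _ hrd _ (hYtS q) (hYt q hq)
        rw [h0] at this; simp at this)
      have := mul_pos (pow_pos hw (Finset.univ : Finset (Fin r)).card) h2
      linarith
    set f1 := (Y c u : ℂ) * a + b with hf1
    have hz1 : setVar z c u (Y c u : ℂ) = z := by
      funext e a'
      by_cases he : e = c
      · subst he
        by_cases ha' : a' = u
        · subst ha'; simp [setVar, z, setAt, realVars, huv]
        · simp [setVar, Function.update_of_ne ha']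
      · simp [setVar, Function.update_of_ne he]
    have hf1ρ : f1 = A1 * rootProd ρ w := by
      rw [hf1, ← haff, hz1]; exact hρ w
    have hf2σ : (t : ℂ) * a + b = A2 * rootProd σ w := by
      rw [← haff, ← hzq]; exact hσ w
    have hf10 : f1 ≠ 0 := hne (Y c u) le_rfl
    have hratio : ((A2.re / A1.re : ℝ) : ℂ) * (rootProd σ w / rootProd ρ w)
        = 1 + ((t - Y c u : ℝ) : ℂ) * (a / f1) := by
      rw [Complex.ofReal_div, ← hA1r, ← hA2r, div_mul_div_comm, ← hf1ρ, ← hf2σ]
      push_cast
      rw [eq_comm, ← sub_eq_zero]
      field_simp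
      rw [hf1]
      ring
    have hstab := mix_stable_closed (x := x) (p := p) (z := z) hx hp hp1 S E hED
      (fun e a => by
        simp only [z, setAt]; split_ifs
        · exact hw.le
        · simp [realVars]) c u huS huE
    have hzu : (z c u).im = 0 := by simp [z, setAt, realVars, huv]
    rw [hzu, zero_mul, hEadj, ← hz1, haff, hz1, ← hf1, ← ha] at hstab
    have him : (a / f1).im ≤ 0 := by
      have e : a / f1 = (starRingEnd ℂ) (f1 * (starRingEnd ℂ) a) / (Complex.normSq f1 : ℂ) := by
        rw [map_mul, Complex.conj_conj, Complex.normSq_eq_conj_mul_self,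
          mul_div_mul_left _ _ ((map_ne_zero _).2 hf10)]
      rw [e, Complex.div_ofReal_im, Complex.conj_im]
      exact div_nonpos_of_nonpos_of_nonneg (by linarith) (Complex.normSq_nonneg _)
    refine ⟨?_, ?_⟩
    · rw [hratio, Complex.mem_slitPlane_iff]
      by_cases h0 : (1 + ((t - Y c u : ℝ) : ℂ) * (a / f1)).im = 0
      swap
      · exact Or.inr h0
      refine Or.inl ?_
      by_contra hle
      push Not at hle
      rw [Complex.add_re, Complex.one_re, Complex.re_ofReal_mul] at hle
      rw [Complex.add_im, Complex.one_im, zero_add, Complex.im_ofReal_mul] at h0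
      have hδ : 0 < t - Y c u := by
        rcases (sub_nonneg.2 ht).eq_or_lt with h | h
        · rw [← h] at hle; linarith
        · exact h
      have haim : (a / f1).im = 0 := (mul_eq_zero.1 h0).resolve_left hδ.ne'
      set l := (a / f1).re with hl
      have hl0 : l < 0 := by
        by_contra hl'
        push Not at hl'
        nlinarith
      have hal : a = (l : ℂ) * f1 := by
        have : a / f1 = (l : ℂ) := Complex.ext (by simp [hl]) (by simp [haim])
        rw [← this, div_mul_cancel₀ _ hf10]
      refine hne (Y c u - 1 / l) (by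
        have : 1 / l < 0 := one_div_neg.2 hl0
        linarith) ?_
      have hl' : (l : ℂ) ≠ 0 := by exact_mod_cast hl0.ne
      calc ((Y c u - 1 / l : ℝ) : ℂ) * a + b = f1 - (1 / (l : ℂ)) * a := by
            rw [hf1]; push_cast; ring
        _ = 0 := by rw [hal]; field_simp; ring
    · rw [hratio, Complex.add_im, Complex.one_im, zero_add, Complex.im_ofReal_mul]
      exact mul_nonpos_of_nonneg_of_nonpos (sub_nonneg.2 ht) him
  refine le_of_above_le hρm hσm (fun s hs hs' => above_mono (c := A2.re / A1.re)
    (div_pos hA2p hA1p) (fun w hw => (key w hw).1) (fun w hw => ?_) hs hs')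
  have := (key w hw).2
  rw [Complex.im_ofReal_mul] at this
  exact nonpos_of_mul_nonpos_right this (div_pos hA2p hA1p)

/-- Raising the variable of `u` in all colours lowers every root at `v`. -/
lemma root_mono [NeZero r] {S : Finset V} {y : V → ℝ} (hPos : Pos x p S y) {v u : V}
    (hv : v ∉ S) (huS : u ∉ S) (huv : u ≠ v) {t : ℝ} (ht : y u ≤ t)
    {ρ σ : Fin r → ℝ} (hρm : Monotone ρ) (hσm : Monotone σ)
    (hρ : ∀ s, mix x p (setAt (realVars fun _ => y) Finset.univ v s) S
          (addTo (rest r S v) Finset.univ v)
        = mix x p (realVars fun _ => y) S (rest r S v) * rootProd ρ s)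
    (hσ : ∀ s, mix x p (setAt (realVars fun _ => Function.update y u t) Finset.univ v s) S
          (addTo (rest r S v) Finset.univ v)
        = mix x p (realVars fun _ => Function.update y u t) S (rest r S v) * rootProd σ s) :
    ∀ i, σ i ≤ ρ i := by
  classical
  let YT : Finset (Fin r) → Fin r → V → ℝ := fun T c => if c ∈ T then Function.update y u t else y
  have hYTS : ∀ T e w, w ∈ S → YT T e w = y w := fun T e w hw => by
    simp only [YT]; split_ifs
    · rw [Function.update_of_ne (fun h : w = u => huS (h ▸ hw))]
    · rfl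
  have hYT : ∀ T e w, y w ≤ YT T e w := fun T e w => by
    simp only [YT]; split_ifs
    · by_cases hw : w = u
      · subst hw; simpa using ht
      · rw [Function.update_of_ne hw]
    · exact le_rfl
  have hrd : ∀ e, Disjoint S (rest r S v e) :=
    fun e => Finset.disjoint_left.2 (fun w hw h => by simp [rest, hw] at h)
  choose τ hτm hτ _ _ using fun T => diag_roots (x := x) (p := p) hx hp hp1 hPos hv hrd
    (fun e => by simp [rest]) (hYTS T) (hYT T)
  have e0 : YT ∅ = fun _ => y := by funext c; simp [YT]
  have e1 : YT Finset.univ = fun _ => Function.update y u t := by funext c; simp [YT]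
  have hρ0 : τ ∅ = ρ := roots_unique (hτm _) hρm (fun s => by
    have h1 := hτ ∅ s
    rw [e0, hρ s] at h1
    exact (mul_left_cancel₀ (fun h => by
      have := hPos _ hrd (fun _ => y) (fun _ _ _ => rfl) (fun _ _ => le_rfl)
      rw [h] at this; simp at this) h1).symm)
  have hσ1 : τ Finset.univ = σ := roots_unique (hτm _) hσm (fun s => by
    have h1 := hτ Finset.univ s
    rw [e1, hσ s] at h1
    refine (mul_left_cancel₀ (fun h => ?_) h1).symm
    have := hPos _ hrd _ (hYTS Finset.univ) (hYT Finset.univ)
    rw [e1, h] at this; simp at this)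
  suffices ∀ T i, τ T i ≤ τ ∅ i by
    intro i; rw [← hρ0, ← hσ1]; exact this _ i
  intro T
  induction T using Finset.induction with
  | empty => exact fun i => le_rfl
  | insert c T hc ih =>
    intro i
    refine le_trans ?_ (ih i)
    have hstep : YT (insert c T) = Function.update (YT T) c (Function.update (YT T c) u t) := by
      funext e
      by_cases he : e = c
      · subst he; simp [YT, hc]
      · simp [YT, he, Function.update_of_ne he]
    refine root_mono_one hx hp hp1 hPos hv huS huv c (hYTS T) (hYT T) (t := t) ?_ (hτm T)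
      (hτm _) (hτ T) ?_ i
    · simp [YT, hc, ht]
    · rw [← hstep]; exact hτ _

/-- Processing one vertex: shift its variable down, keep positivity and the barrier bound. -/
theorem barrier_step [NeZero r] (hunif : ∀ v c, p v c = 1 / (r : ℝ)) {S : Finset V} {y : V → ℝ}
    {L : ℝ} (hL : 0 < L) (hPos : Pos x p S y) (hB : RootBound x p S y L) {v : V} (hv : v ∉ S) :
    Pos x p (insert v S) (Function.update y v (y v - ((r : ℝ) - 1) ^ 2 / (r * L))) ∧
      RootBound x p (insert v S) (Function.update y v (y v - ((r : ℝ) - 1) ^ 2 / (r * L))) L := by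
  classical
  set Δ := ((r : ℝ) - 1) ^ 2 / (r * L) with hΔ
  have hr : (0 : ℝ) < r := by exact_mod_cast NeZero.pos r
  have hr1 : (1 : ℝ) ≤ r := by exact_mod_cast NeZero.pos r
  set y' := Function.update y v (y v - Δ) with hy'
  have hrd : ∀ w e, Disjoint S (rest r S w e) :=
    fun w e => Finset.disjoint_left.2 (fun a ha h => by simp [rest, ha] at h)
  obtain ⟨ρ, hρm, hρ, hρlt, hρsum⟩ := diag_roots (x := x) (p := p) hx hp hp1 hPos hv (hrd v)
    (fun e => by simp [rest]) (Y := fun _ => y) (fun _ _ _ => rfl) (fun _ _ => le_rfl)
  have hgap : ∀ i, 0 < y v - ρ i := fun i => sub_pos.2 (hρlt i)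
  have hsum : ∑ i, 1 / (y v - ρ i) ≤ L := hB v hv ρ hρm hρ
  have hC : ∀ i, (r : ℝ) * Δ ≤ ∑ j ∈ Finset.univ.erase i, (y v - ρ j) := by
    intro i
    refine le_trans (le_of_eq ?_) (sum_erase_lower _ hgap hL hsum i)
    rw [hΔ]; field_simp
  have hmean : 0 < (r : ℝ) * (y v - Δ) - ∑ i, ρ i := by
    have h1 := hC ⟨0, NeZero.pos r⟩
    have h2 := Finset.add_sum_erase Finset.univ (fun j => y v - ρ j)
      (Finset.mem_univ (⟨0, NeZero.pos r⟩ : Fin r))
    have h3 : ∑ j, (y v - ρ j) = (r : ℝ) * y v - ∑ j, ρ j := by
      simp [Finset.sum_sub_distrib]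
    linarith [hgap ⟨0, NeZero.pos r⟩]
  have hPos' : Pos x p (insert v S) y' := by
    intro D hD Y hYS hY
    have hvD : ∀ c, v ∉ D c := fun c => (Finset.disjoint_insert_left.1 (hD c)).1
    have hDS : ∀ c, Disjoint S (D c) := fun c => (Finset.disjoint_insert_left.1 (hD c)).2
    have hYv : ∀ c, Y c v = y v - Δ := fun c => by
      rw [hYS c v (Finset.mem_insert_self v S)]; simp [y']
    set Yh : Fin r → V → ℝ := fun c => Function.update (Y c) v (y v) with hYh
    have hne : ∀ (_ : Fin r) w, w ∈ S → w ≠ v := fun _ w hw h => hv (h ▸ hw)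
    have hYhS : ∀ c w, w ∈ S → Yh c w = y w := fun c w hw => by
      simp [Yh, Function.update_of_ne (hne c w hw), hYS c w (Finset.mem_insert_of_mem hw), y']
    have hYh' : ∀ c w, y w ≤ Yh c w := fun c w => by
      by_cases hw : w = v
      · subst hw; simp [Yh]
      · have := hY c w
        simp only [y', Function.update_of_ne hw] at this
        simpa [Yh, Function.update_of_ne hw] using this
    have hA : mix x p (realVars Y) S D = mix x p (realVars Yh) S D := mix_congr (fun c w hw => by
      have : w ≠ v := fun h => by
        subst h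
        rcases hw with hw | hw
        · exact hv hw
        · exact hvD c hw
      simp [realVars, Yh, Function.update_of_ne this])
    have hA0 : 0 < (mix x p (realVars Yh) S D).re := hPos D hDS Yh hYhS hYh'
    have hkc : ∀ c, (mix x p (setVar (realVars Y) c v 0) S (adj D c v)).re
        = (mix x p (setVar (realVars Yh) c v 0) S (adj D c v)).re := fun c => by
      refine congrArg Complex.re (mix_congr (fun e w hw => ?_))
      by_cases he : e = c
      · subst he
        by_cases hw' : w = v
        · subst hw'; simp [setVar]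
        · simp [setVar, realVars, Yh, Function.update_of_ne hw']
      · have : w ≠ v := fun h => by
          subst h
          rcases hw with hw | hw
          · exact hv hw
          · simp [adj, Function.update_of_ne he, hvD] at hw
        simp [setVar, realVars, Yh, Function.update_of_ne he, Function.update_of_ne this]
    rw [step_value (x := x) (p := p) hx hp1 hv hvD, hA]
    simp only [hunif, hYv, hkc, ← Finset.mul_sum, Finset.sum_add_distrib, Finset.sum_const,
      Finset.card_univ, Fintype.card_fin, nsmul_eq_mul]
    refine mul_pos (by positivity) ?_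
    set A0 := (mix x p (realVars fun _ => y) S (rest r S v)).re
    have hA00 : 0 < A0 := hPos _ (hrd v) _ (fun _ _ _ => rfl) (fun _ _ => le_rfl)
    have hR : -∑ i, ρ i ≤ (∑ c, (mix x p (setVar (realVars Yh) c v 0) S (adj D c v)).re)
        / (mix x p (realVars Yh) S D).re := by
      rw [Finset.sum_div]
      refine le_trans (le_of_eq ?_) (Finset.sum_le_sum (fun c _ =>
        ratio_mono (x := x) (p := p) hx hp hp1 hPos hv hDS hvD hYhS hYh' c))
      simp only [adjRatio, ← Finset.sum_div, hρsum]
      rw [neg_div]
      exact (neg_inj.2 (mul_div_cancel_left₀ (∑ i, ρ i) hA00.ne')).symm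
    rw [le_div_iff₀ hA0] at hR
    nlinarith [mul_pos hmean hA0]
  refine ⟨hPos', fun u hu σ' hσ'm hσ' => ?_⟩
  have huS : u ∉ S := fun h => hu (Finset.mem_insert_of_mem h)
  have huv : u ≠ v := fun h => hu (h ▸ Finset.mem_insert_self v S)
  have hyu : y' u = y u := Function.update_of_ne huv _ _
  obtain ⟨σ, hσm, hσ, hσlt, -⟩ := diag_roots (x := x) (p := p) hx hp hp1 hPos huS (hrd u)
    (fun e => by simp [rest]) (Y := fun _ => y) (fun _ _ _ => rfl) (fun _ _ => le_rfl)
  obtain ⟨σ'', hσ''m, hσ'', hσ''lt, -⟩ := diag_roots (x := x) (p := p) hx hp hp1 hPos' hu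
    (D := rest r (insert v S) u)
    (fun e => Finset.disjoint_left.2 (fun a ha h => by
      simp only [rest, Finset.mem_sdiff, Finset.mem_insert, not_or] at h
      rcases Finset.mem_insert.1 ha with rfl | ha
      · exact h.2.2.1 rfl
      · exact h.2.2.2 ha))
    (fun e => by simp [rest]) (Y := fun _ => y') (fun _ _ _ => rfl) (fun _ _ => le_rfl)
  set A'u := mix x p (realVars fun _ => y') (insert v S) (rest r (insert v S) u) with hA'u
  have hA'pos : 0 < A'u.re := hPos' _ (fun e => Finset.disjoint_left.2 (fun a ha h => by
      simp only [rest, Finset.mem_sdiff, Finset.mem_insert, not_or] at h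
      rcases Finset.mem_insert.1 ha with rfl | ha
      · exact h.2.2.1 rfl
      · exact h.2.2.2 ha)) _ (fun _ _ _ => rfl) (fun _ _ => le_rfl)
  have hsame : σ' = σ'' := roots_unique hσ'm hσ''m (fun s => by
    have h1 := hσ' s
    rw [hσ'' s] at h1
    exact (mul_left_cancel₀ (fun h => by rw [h] at hA'pos; simp at hA'pos) h1).symm)
  subst hsame
  rw [hyu] at hσ''lt ⊢
  set Au := mix x p (realVars fun _ => y) S (rest r S u) with hAu
  have hAupos : 0 < Au.re := hPos _ (hrd u) _ (fun _ _ _ => rfl) (fun _ _ => le_rfl)
  refine le_trans (sum_inv_le_of_prod (fun i => 1 / (y u - σ i)) (fun i => 1 / (y u - σ' i))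
    (fun i => (one_div_pos.2 (sub_pos.2 (hσlt i))).le)
    (fun i => (one_div_pos.2 (sub_pos.2 (hσ''lt i))).le) (fun t ht => ?_)) (hB u huS σ hσm hσ)
  -- compare the quotient of new and old values at `y u` and at `y u + t`
  have hYt : ∀ q, y u ≤ q → ∀ w, y w ≤ Function.update y u q w := fun q hq w => by
    by_cases hw : w = u
    · subst hw; simpa using hq
    · rw [Function.update_of_ne hw]
  have hYtS : ∀ q w, w ∈ S → Function.update y u q w = y w := fun q w hw =>
    Function.update_of_ne (fun h : w = u => huS (h ▸ hw)) _ _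
  have hfull : addTo (rest r S u) Finset.univ u = addTo (rest r S v) Finset.univ v := by
    funext e; ext w
    by_cases hwu : w = u <;> by_cases hwv : w = v <;> simp_all [addTo, rest]
  have hrest : addTo (rest r (insert v S) u) Finset.univ u = rest r S v := by
    funext e; ext w
    by_cases hwu : w = u <;> simp_all [addTo, rest]
  have hdata : ∀ q, y u ≤ q → ∃ τ : Fin r → ℝ, Monotone τ ∧ (∀ i, τ i < y v) ∧
      (∀ s, mix x p (setAt (realVars fun _ => Function.update y u q) Finset.univ v s) S
          (addTo (rest r S v) Finset.univ v)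
        = mix x p (realVars fun _ => Function.update y u q) S (rest r S v) * rootProd τ s) ∧
      0 < (mix x p (realVars fun _ => Function.update y u q) S (rest r S v)).re ∧
      Au.re * ∏ i, (q - σ i) = (mix x p (realVars fun _ => Function.update y u q) S
          (rest r S v)).re * ∏ i, (y v - τ i) ∧
      A'u.re * ∏ i, (q - σ' i) = (mix x p (realVars fun _ => Function.update y u q) S
          (rest r S v)).re * ((y v - Δ) - (∑ i, τ i) / r) := by
    intro q hq
    obtain ⟨τ, hτm, hτ, hτlt, hτsum⟩ := diag_roots (x := x) (p := p) hx hp hp1 hPos hv (hrd v)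
      (fun e => by simp [rest]) (Y := fun _ => Function.update y u q)
      (fun _ => hYtS q) (fun _ => hYt q hq)
    refine ⟨τ, hτm, hτlt, hτ, hPos _ (hrd v) _ (fun _ => hYtS q) (fun _ => hYt q hq), ?_, ?_⟩
    · have h1 := hσ (q : ℂ)
      have h2 := hτ (y v : ℂ)
      rw [rootProd_real, setAt_univ_real] at h1 h2
      have e : (fun _ : Fin r => fun w => if w = u then q else y w)
          = fun _ : Fin r => fun w => if w = v then y v else Function.update y u q w := by
        funext c w
        by_cases hwv : w = v
        · subst hwv; simp [Ne.symm huv]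
        · by_cases hwu : w = u <;> simp [hwv, hwu, huv]
      rw [hfull, e, h2] at h1
      have h3 := congrArg Complex.re h1
      rw [Complex.mul_re, Complex.mul_re, Complex.ofReal_re, Complex.ofReal_re, Complex.ofReal_im,
        Complex.ofReal_im, mul_zero, mul_zero, sub_zero, sub_zero] at h3
      exact h3.symm
    · have h1 := hσ'' (q : ℂ)
      rw [rootProd_real, setAt_univ_real, hrest] at h1
      have h3 := congrArg Complex.re h1
      rw [step_value (x := x) (p := p) hx hp1 hv (fun c => by simp [rest]), Complex.mul_re,
        Complex.ofReal_re, Complex.ofReal_im, mul_zero, sub_zero] at h3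
      rw [← h3]
      have hY1 : mix x p (realVars fun _ : Fin r => fun w => if w = u then q else y' w) S (rest r S v)
          = mix x p (realVars fun _ => Function.update y u q) S (rest r S v) :=
        mix_congr (fun c w hw => by
          have : w ≠ v := fun h => by
            subst h
            rcases hw with hw | hw
            · exact hv hw
            · simp [rest] at hw
          by_cases hwu : w = u <;> simp [realVars, hwu, y', Function.update_of_ne this])
      have hY2 : ∀ c, mix x p (setVar (realVars fun _ : Fin r => fun w => if w = u then q else y' w)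
            c v 0) S (adj (rest r S v) c v)
          = mix x p (setVar (realVars fun _ => Function.update y u q) c v 0) S
            (adj (rest r S v) c v) := fun c => mix_congr (fun e w hw => by
          by_cases he : e = c
          · subst he
            by_cases hwv : w = v
            · subst hwv; simp [setVar]
            · by_cases hwu : w = u
              · subst hwu
                simp [setVar, realVars, y', Function.update_of_ne hwv]
              · simp [setVar, realVars, hwu, y', Function.update_of_ne hwv]
          · have : w ≠ v := fun h => by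
              subst h
              rcases hw with hw | hw
              · exact hv hw
              · simp [adj, Function.update_of_ne he, rest] at hw
            by_cases hwu : w = u <;>
              simp [setVar, realVars, hwu, y', Function.update_of_ne he, Function.update_of_ne this])
      simp only [hunif, if_neg (Ne.symm huv), hY1, hY2]
      rw [← Finset.mul_sum, Finset.sum_add_distrib, hτsum, Finset.sum_const, Finset.card_univ,
        Fintype.card_fin, nsmul_eq_mul]
      simp only [y', Function.update_self]
      field_simp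
      ring
  obtain ⟨τ1, hτ1m, hτ1lt, hτ1, ha1, h11, h12⟩ := hdata (y u) le_rfl
  obtain ⟨τ2, hτ2m, hτ2lt, hτ2, ha2, h21, h22⟩ := hdata (y u + t) (by linarith)
  rw [Function.update_eq_self] at hτ1 ha1 h11 h12
  have hτρ : τ1 = ρ := roots_unique hτ1m hρm (fun s => by
    have h1 := hτ1 s
    rw [hρ s] at h1
    exact (mul_left_cancel₀ (fun h => by rw [h] at ha1; simp at ha1) h1).symm)
  subst hτρ
  have hle : ∀ i, τ2 i ≤ τ1 i :=
    root_mono hx hp hp1 hPos hv huS huv (t := y u + t) (by linarith) hτ1m hτ2m hτ1 hτ2
  have hgm := gap_mono (fun i => y v - τ1 i) (fun i => y v - τ2 i) ((r : ℝ) * Δ)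
    (fun i => sub_pos.2 (hτ1lt i)) (fun i => by linarith [hle i]) hC
  simp only [Finset.sum_sub_distrib, Finset.sum_const, Finset.card_univ, Fintype.card_fin,
    nsmul_eq_mul] at hgm
  have p1 : 0 < ∏ i, (y v - τ1 i) := Finset.prod_pos (fun i _ => sub_pos.2 (hτ1lt i))
  have p2 : 0 < ∏ i, (y v - τ2 i) := Finset.prod_pos (fun i _ => sub_pos.2 (hτ2lt i))
  have q1 : 0 < ∏ i, (y u - σ i) := Finset.prod_pos (fun i _ => sub_pos.2 (hσlt i))
  have q1' : 0 < ∏ i, (y u - σ' i) := Finset.prod_pos (fun i _ => sub_pos.2 (hσ''lt i))
  have q2 : 0 < ∏ i, (y u + t - σ i) := Finset.prod_pos (fun i _ => by linarith [hσlt i])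
  have key : (∏ i, (y u + t - σ' i)) / (∏ i, (y u + t - σ i))
      ≤ (∏ i, (y u - σ' i)) / (∏ i, (y u - σ i)) := by
    have e : ∀ (A : ℝ) (P P' S0 : ℝ) (q q' : ℝ), 0 < A → 0 < P → 0 < q →
        Au.re * q = A * P → A'u.re * q' = A * ((y v - Δ) - S0 / r) →
        q' / q = Au.re / A'u.re * ((((r : ℝ) * y v - S0) - r * Δ) / P) / r + 0 * P' := by
      intro A P P' S0 q q' hA hP hq h1 h2
      rw [zero_mul, add_zero]
      have hq' : q' = A * ((y v - Δ) - S0 / r) / A'u.re := by
        rw [← h2]; field_simp
      have hA' : A = Au.re * q / P := by rw [h1]; field_simp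
      rw [hq', hA']
      field_simp
      ring
    rw [e _ _ 0 _ _ _ ha2 p2 q2 h21 h22, e _ _ 0 _ _ _ ha1 p1 q1 h11 h12]
    simp only [zero_mul, add_zero]
    refine div_le_div_of_nonneg_right (mul_le_mul_of_nonneg_left hgm ?_) hr.le
    positivity
  have expand : ∀ τ : Fin r → ℝ, (∀ i, τ i < y u) →
      ∏ i, (1 + t * (1 / (y u - τ i))) = (∏ i, (y u + t - τ i)) / ∏ i, (y u - τ i) := by
    intro τ hτ
    rw [← Finset.prod_div_distrib]
    refine Finset.prod_congr rfl (fun i _ => ?_)
    have := sub_pos.2 (hτ i)
    field_simp
    ring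
  rw [expand σ' hσ''lt, expand σ hσlt, div_le_div_iff₀ q1' q1]
  rw [div_le_div_iff₀ q2 q1] at key
  linarith

end Vale.Agent.P078.Mss2
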