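import Vale.Agent.P078.Mss2.Expansion

/-!
# Connected cumulants of the power sums
-/

namespace Vale.Agent.P078.Mss2

open Vale.Agent.P078.Mss

open Finset Matrix

variable {V : Type*} [DecidableEq V] {r : ℕ}

/-- Coefficient attached to a finite set: expected determinant of the pinched block of `-x`. -/
noncomputable def ecoef (x : Fin r → Matrix V V ℂ) (p : V → Fin r → ℝ) (R : Finset V) : ℂ :=
  mix (sub x Subtype.val) (fun v : {v // v ∈ R} => p v.1) 0 Finset.univ
    (fun _ => ∅)

/-- `ecoef` restricted to sets of size `j`. -/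
noncomputable def acoef (x : Fin r → Matrix V V ℂ) (p : V → Fin r → ℝ) (j : ℕ) (S : Finset V) : ℂ :=
  if S.card = j then ecoef x p S else 0

/-- Product of functions of sets under union. -/
def uconv (g h : Finset V → ℂ) (S : Finset V) : ℂ :=
  ∑ a ∈ (S.powerset ×ˢ S.powerset).filter (fun a => a.1 ∪ a.2 = S), g a.1 * h a.2

/-- The cumulant of the `k`-th power sum carried by a set. -/
noncomputable def kappa (x : Fin r → Matrix V V ℂ) (p : V → Fin r → ℝ) : ℕ → Finset V → ℂ
  | k => fun S => -(k : ℂ) * acoef x p k S
      - ∑ i ∈ (Finset.range k).attach, uconv (kappa x p i.1) (acoef x p (k - i.1)) S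
decreasing_by exact Finset.mem_range.1 i.2

lemma kappa_eq (x : Fin r → Matrix V V ℂ) (p : V → Fin r → ℝ) (k : ℕ) (S : Finset V) :
    kappa x p k S = -(k : ℂ) * acoef x p k S
      - ∑ i ∈ Finset.range k, uconv (kappa x p i) (acoef x p (k - i)) S := by
  rw [kappa]
  simp only
  rw [Finset.sum_attach (Finset.range k) (fun i => uconv (kappa x p i) (acoef x p (k - i)) S)]

lemma kappa_zero (x : Fin r → Matrix V V ℂ) (p : V → Fin r → ℝ) (S : Finset V) : kappa x p 0 S = 0 := by
  simp [kappa_eq]

/-- No entry of `x` joins `A` and `B`. -/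
def Separated (x : Fin r → Matrix V V ℂ) (A B : Finset V) : Prop :=
  Disjoint A B ∧ ∀ i ∈ A, ∀ j ∈ B, ∀ c, x c i j = 0 ∧ x c j i = 0

variable {x : Fin r → Matrix V V ℂ} {p : V → Fin r → ℝ}

lemma ecoef_eq {W : Type*} [Fintype W] [DecidableEq W] (hp : ∀ v, ∑ c, p v c = 1) (ι : W ↪ V)
    (R : Finset W) :
    ecoef x p (R.map ι) = mix (sub x ι) (fun i => p (ι i)) 0 R (fun _ => ∅) := by
  classical
  have hmem : ∀ v : {v // v ∈ R.map ι}, ∃ w, ι w = v.1 := fun v => by
    obtain ⟨w, -, hw⟩ := Finset.mem_map.1 v.2
    exact ⟨w, hw⟩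
  choose f hf using hmem
  let j : {v // v ∈ R.map ι} ↪ W := ⟨f, fun a b h => Subtype.ext (by rw [← hf a, ← hf b, h])⟩
  have hR : Finset.univ.map j = R := by
    ext w
    simp only [Finset.mem_map, Finset.mem_univ, true_and]
    constructor
    · rintro ⟨v, rfl⟩
      obtain ⟨w', hw', e⟩ := Finset.mem_map.1 v.2
      change f v ∈ R
      rw [← ι.injective (e.trans (hf v).symm)]
      exact hw'
    · exact fun hw => ⟨⟨ι w, Finset.mem_map_of_mem ι hw⟩, ι.injective (hf _)⟩
  have h := mix_embed (r := r) j (sub x ι) (fun i => hp (ι i)) 0 Finset.univ (fun _ => ∅)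
  rw [hR] at h
  simp only [Finset.map_empty] at h
  rw [h, ecoef]
  have e1 : sub (sub x ι) j = sub x Subtype.val := by
    refine funext (fun c => Matrix.ext (fun a b => ?_))
    change x c (ι (f a)) (ι (f b)) = _
    rw [hf, hf]
    rfl
  have e2 : (fun v : {v // v ∈ R.map ι} => p v.1) = fun i => p (ι (j i)) :=
    funext (fun v => by change p v.1 = p (ι (f v)); rw [hf])
  rw [e1, e2]
  rfl

lemma ecoef_empty (hp : ∀ v, ∑ c, p v c = 1) : ecoef x p (∅ : Finset V) = 1 := by
  rw [ecoef, Finset.univ_eq_empty, mix_empty (fun v : {v // v ∈ (∅ : Finset V)} => hp v.1)]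
  simp [minorMat_empty]

lemma minorMat_det_union [Fintype V] (x : Fin r → Matrix V V ℂ) (z : V → ℂ) {A B : Finset V}
    (h : Separated x A B) (c : Fin r) :
    (minorMat (x c) z (A ∪ B)).det = (minorMat (x c) z A).det * (minorMat (x c) z B).det := by
  rw [← Matrix.det_mul]
  congr 1
  refine Matrix.ext (fun i j => ?_)
  simp only [Matrix.mul_apply]
  by_cases hi : i ∈ A
  · have hiB : i ∉ B := Finset.disjoint_left.1 h.1 hi
    rw [Finset.sum_eq_single j]
    · by_cases hjA : j ∈ A
      · simp [minorMat, hi, hjA, Finset.disjoint_left.1 h.1 hjA]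
      · by_cases hjB : j ∈ B
        · have hij : i ≠ j := fun e => hiB (e ▸ hjB)
          simp [minorMat, hi, hjA, hjB, hij, (h.2 i hi j hjB c).1]
        · have hij : i ≠ j := fun e => hjA (e ▸ hi)
          simp [minorMat, hi, hjA, hjB, hij]
    · intro k _ hkj
      by_cases hk : k ∈ A
      · simp [minorMat, Finset.disjoint_left.1 h.1 hk, hkj]
      · have : i ≠ k := fun e => hk (e ▸ hi)
        simp [minorMat, hk, this]
    · simp
  · rw [Finset.sum_eq_single i]
    · by_cases hiB : i ∈ B
      · by_cases hjA : j ∈ A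
        · have hij : i ≠ j := fun e => hi (e ▸ hjA)
          have hjB : j ∉ B := Finset.disjoint_left.1 h.1 hjA
          simp [minorMat, hi, hiB, hjA, hjB, hij, (h.2 j hjA i hiB c).2]
        · simp [minorMat, hi, hiB, hjA]
      · simp [minorMat, hi, hiB]
    · intro k _ hki
      simp [minorMat, hi, Ne.symm hki]
    · simp

lemma mix_union [Fintype V] (hp : ∀ v, ∑ c, p v c = 1) (z : Fin r → V → ℂ) {A B : Finset V}
    (h : Separated x A B) :
    mix x p z (A ∪ B) (fun _ => ∅) = mix x p z A (fun _ => ∅) * mix x p z B (fun _ => ∅) := by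
  have key : ∀ U U' : Finset V, U ⊆ A → U' ⊆ B → ∀ D D' : Fin r → Finset V,
      (∀ c, D c ⊆ A) → (∀ c, D' c ⊆ B) →
      mix x p z (U ∪ U') (fun c => D c ∪ D' c) = mix x p z U D * mix x p z U' D' := by
    intro U
    induction U using Finset.induction with
    | empty =>
      intro U'
      induction U' using Finset.induction with
      | empty =>
        intro _ _ D D' hD hD'
        rw [Finset.empty_union, mix_empty hp, mix_empty hp, mix_empty hp, ← Finset.prod_mul_distrib]
        exact Finset.prod_congr rfl (fun c _ => minorMat_det_union x (z c)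
          ⟨h.1.mono (hD c) (hD' c), fun i hi j hj => h.2 i (hD c hi) j (hD' c hj)⟩ c)
      | insert v U' hv ih =>
        intro h0 hU' D D' hD hD'
        rw [Finset.empty_union, mix_insert hp hv, mix_insert hp hv, Finset.mul_sum]
        refine Finset.sum_congr rfl (fun c _ => ?_)
        have := ih h0 ((Finset.subset_insert v U').trans hU') D
          (Function.update D' c (insert v (D' c))) hD (fun d => by
            by_cases hd : d = c
            · subst hd
              rw [Function.update_self]
              exact Finset.insert_subset (hU' (Finset.mem_insert_self v U')) (hD' d)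
            · rw [Function.update_of_ne hd]; exact hD' d)
        rw [Finset.empty_union] at this
        rw [← mul_left_comm, ← this]
        congr 2
        funext d
        by_cases hd : d = c
        · subst hd; simp [Finset.union_insert]
        · simp [Function.update_of_ne hd]
    | insert v U hv ih =>
      intro U' hU hU' D D' hD hD'
      have hvB : v ∉ U' :=
        fun hv' => Finset.disjoint_left.1 h.1 (hU (Finset.mem_insert_self v U)) (hU' hv')
      rw [Finset.insert_union, mix_insert hp (by simp [hv, hvB]), mix_insert hp hv, Finset.sum_mul]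
      refine Finset.sum_congr rfl (fun c _ => ?_)
      have := ih U' ((Finset.subset_insert v U).trans hU) hU'
        (Function.update D c (insert v (D c))) D' (fun d => by
          by_cases hd : d = c
          · subst hd
            rw [Function.update_self]
            exact Finset.insert_subset (hU (Finset.mem_insert_self v U)) (hD d)
          · rw [Function.update_of_ne hd]; exact hD d) hD'
      rw [mul_assoc, ← this]
      congr 2
      funext d
      by_cases hd : d = c
      · subst hd; simp [Finset.insert_union]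
      · simp [Function.update_of_ne hd]
  simpa using key A B le_rfl le_rfl (fun _ => ∅) (fun _ => ∅) (fun _ => Finset.empty_subset _)
    (fun _ => Finset.empty_subset _)

lemma ecoef_union (hp : ∀ v, ∑ c, p v c = 1) {A B : Finset V} (h : Separated x A B) :
    ecoef x p (A ∪ B) = ecoef x p A * ecoef x p B := by
  classical
  let ι : {v // v ∈ A ∪ B} ↪ V := Function.Embedding.subtype _
  have hA : A = (A.subtype (· ∈ A ∪ B)).map ι := by
    ext v
    simp [ι]
    tauto
  have hB : B = (B.subtype (· ∈ A ∪ B)).map ι := by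
    ext v
    simp [ι]
    tauto
  have hs : Separated (sub x ι) (A.subtype (· ∈ A ∪ B)) (B.subtype (· ∈ A ∪ B)) :=
    ⟨Finset.disjoint_left.2 (fun a ha hb => Finset.disjoint_left.1 h.1
      (Finset.mem_subtype.1 ha) (Finset.mem_subtype.1 hb)),
      fun i hi j hj c => h.2 _ (Finset.mem_subtype.1 hi) _ (Finset.mem_subtype.1 hj) c⟩
  have e1 := ecoef_eq (x := x) (p := p) hp ι
    ((A.subtype (· ∈ A ∪ B)) ∪ (B.subtype (· ∈ A ∪ B)))
  have e2 := ecoef_eq (x := x) (p := p) hp ι (A.subtype (· ∈ A ∪ B))
  have e3 := ecoef_eq (x := x) (p := p) hp ι (B.subtype (· ∈ A ∪ B))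
  rw [Finset.map_union, ← hA, ← hB] at e1
  rw [← hA] at e2
  rw [← hB] at e3
  rw [e1, e2, e3]
  exact mix_union (fun i => hp (ι i)) 0 hs

lemma acoef_zero_eq (hp : ∀ v, ∑ c, p v c = 1) (S : Finset V) :
    acoef x p 0 S = if S = ∅ then 1 else 0 := by
  by_cases h : S = ∅
  · subst h; simp [acoef, ecoef_empty hp]
  · simp [acoef, h]

lemma uconv_one (g : Finset V → ℂ) (S : Finset V) (hp : ∀ v, ∑ c, p v c = 1) :
    uconv g (acoef x p 0) S = g S := by
  unfold uconv
  rw [Finset.sum_eq_single (S, ∅)]
  · simp [acoef_zero_eq hp]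
  · intro a ha hne
    simp only [Finset.mem_filter, Finset.mem_product, Finset.mem_powerset] at ha
    by_cases h2 : a.2 = ∅
    · have h1 : a.1 = S := by simpa [h2] using ha.2
      exact absurd (Prod.ext h1 h2) hne
    · simp [acoef_zero_eq hp, h2]
  · simp

lemma kappa_identity (hp : ∀ v, ∑ c, p v c = 1) (k : ℕ) (S : Finset V) :
    ∑ i ∈ Finset.range (k + 1), uconv (kappa x p i) (acoef x p (k - i)) S
      = -(k : ℂ) * acoef x p k S := by
  rw [Finset.sum_range_succ, Nat.sub_self, uconv_one _ _ hp, kappa_eq x p k S]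
  ring

lemma kappa_card {k : ℕ} {S : Finset V} (h : k < S.card) : kappa x p k S = 0 := by
  induction k using Nat.strong_induction_on generalizing S with
  | h k ih =>
    rw [kappa_eq, acoef, if_neg (by omega), mul_zero, zero_sub, neg_eq_zero]
    refine Finset.sum_eq_zero (fun i hi => ?_)
    refine Finset.sum_eq_zero (fun a ha => ?_)
    simp only [Finset.mem_filter] at ha
    by_cases h2 : a.2.card = k - i
    · have h1 : i < a.1.card := by
        have := Finset.card_union_le a.1 a.2
        rw [ha.2] at this
        have := Finset.mem_range.1 hi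
        omega
      rw [ih i (Finset.mem_range.1 hi) h1, zero_mul]
    · simp [acoef, h2]

lemma kappa_empty (k : ℕ) : kappa x p k (∅ : Finset V) = 0 := by
  induction k using Nat.strong_induction_on with
  | h k ih =>
    rw [kappa_eq]
    rcases Nat.eq_zero_or_pos k with rfl | hk
    · simp
    rw [acoef, if_neg (by simp; omega), mul_zero, zero_sub, neg_eq_zero]
    refine Finset.sum_eq_zero (fun i hi => ?_)
    refine Finset.sum_eq_zero (fun a ha => ?_)
    have : a.1 = ∅ := by
      simp only [Finset.mem_filter, Finset.mem_product, Finset.mem_powerset,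
        Finset.subset_empty] at ha
      exact ha.1.1
    rw [this, ih i (Finset.mem_range.1 hi), zero_mul]

lemma kappa_congr {x' : Fin r → Matrix V V ℂ} {p' : V → Fin r → ℝ} {S : Finset V}
    (hx : ∀ c, ∀ i ∈ S, ∀ j ∈ S, x c i j = x' c i j) (hp : ∀ v ∈ S, p v = p' v) (k : ℕ) :
    kappa x p k S = kappa x' p' k S := by
  induction k using Nat.strong_induction_on generalizing S with
  | h k ih =>
    have he : ∀ T ⊆ S, ∀ j, acoef x p j T = acoef x' p' j T := fun T hT j => by
      unfold acoef ecoef
      split_ifs
      · have e1 : sub x (Subtype.val : {v // v ∈ T} → V)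
            = sub x' Subtype.val :=
          funext (fun c => Matrix.ext (fun a b => hx c _ (hT a.2) _ (hT b.2)))
        have e2 : (fun v : {v // v ∈ T} => p v.1) = fun v => p' v.1 :=
          funext (fun v => hp _ (hT v.2))
        rw [e1, e2]
      · rfl
    rw [kappa_eq, kappa_eq, he S le_rfl]
    congr 1
    refine Finset.sum_congr rfl (fun i hi => Finset.sum_congr rfl (fun a ha => ?_))
    simp only [Finset.mem_filter, Finset.mem_product, Finset.mem_powerset] at ha
    rw [ih i (Finset.mem_range.1 hi) (fun c a' h' b' h'' => hx c a' (ha.1.1 h') b' (ha.1.1 h''))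
      (fun v hv => hp v (ha.1.1 hv)), he _ ha.1.2]

/-- The part of the convolution with first set inside `A`, for separated `A`, `B`. -/
lemma uconv_side (hp : ∀ v, ∑ c, p v c = 1) {A B : Finset V} (h : Separated x A B)
    (g : Finset V → ℂ) (j : ℕ) :
    ∑ a ∈ (((A ∪ B).powerset ×ˢ (A ∪ B).powerset).filter (fun a => a.1 ∪ a.2 = A ∪ B)).filter
        (fun a => a.1 ⊆ A), g a.1 * acoef x p j a.2
      = if B.card ≤ j then ecoef x p B * uconv g (acoef x p (j - B.card)) A else 0 := by
  have hd := Finset.disjoint_left.1 h.1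
  have e : ∀ T, T ⊆ A → acoef x p j (T ∪ B)
      = if B.card ≤ j then ecoef x p B * acoef x p (j - B.card) T else 0 := by
    intro T hT
    have hdT : Disjoint T B := h.1.mono_left hT
    have hc : (T ∪ B).card = T.card + B.card := Finset.card_union_of_disjoint hdT
    have hu : ecoef x p (T ∪ B) = ecoef x p T * ecoef x p B :=
      ecoef_union hp ⟨hdT, fun i hi => h.2 i (hT hi)⟩
    unfold acoef
    rw [hc, hu]
    split_ifs <;> first | ring1 | (exfalso; omega)
  trans ∑ a ∈ (A.powerset ×ˢ A.powerset).filter (fun a => a.1 ∪ a.2 = A),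
      g a.1 * acoef x p j (a.2 ∪ B)
  · refine Finset.sum_nbij' (fun a => (a.1, a.2 ∩ A)) (fun a => (a.1, a.2 ∪ B)) ?_ ?_ ?_ ?_ ?_
    all_goals intro a ha
    all_goals simp only [Finset.mem_coe, Finset.mem_filter, Finset.mem_product,
      Finset.mem_powerset] at ha ⊢
    · obtain ⟨⟨⟨-, -⟩, hu⟩, h1⟩ := ha
      refine ⟨⟨h1, Finset.inter_subset_right⟩, ?_⟩
      ext v
      have := congrArg (fun s => v ∈ s) hu
      simp only [Finset.mem_union, eq_iff_iff] at this
      simp only [Finset.mem_union, Finset.mem_inter]
      have := @h1 v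
      tauto
    · obtain ⟨⟨h1, h2⟩, hu⟩ := ha
      refine ⟨⟨⟨h1.trans Finset.subset_union_left, Finset.union_subset_union_left h2⟩, ?_⟩, h1⟩
      rw [← Finset.union_assoc, hu]
    · obtain ⟨⟨⟨-, h2⟩, hu⟩, h1⟩ := ha
      refine Prod.ext rfl ?_
      ext v
      have := congrArg (fun s => v ∈ s) hu
      simp only [Finset.mem_union, eq_iff_iff] at this
      have h2v := @h2 v
      simp only [Finset.mem_union] at h2v
      simp only [Finset.mem_union, Finset.mem_inter]
      have := @h1 v
      have := @hd v
      tauto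
    · obtain ⟨⟨-, h2⟩, -⟩ := ha
      refine Prod.ext rfl ?_
      ext v
      simp only [Finset.mem_union, Finset.mem_inter]
      have := @h2 v
      have := @hd v
      tauto
    · obtain ⟨⟨⟨-, h2⟩, hu⟩, h1⟩ := ha
      congr 2
      ext v
      have := congrArg (fun s => v ∈ s) hu
      simp only [Finset.mem_union, eq_iff_iff] at this
      have h2v := @h2 v
      simp only [Finset.mem_union] at h2v
      simp only [Finset.mem_union, Finset.mem_inter]
      have := @h1 v
      have := @hd v
      tauto
  · split_ifs with hB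
    · rw [uconv, Finset.mul_sum]
      refine Finset.sum_congr rfl (fun a ha => ?_)
      simp only [Finset.mem_filter, Finset.mem_product, Finset.mem_powerset] at ha
      rw [e _ ha.1.2, if_pos hB]; ring
    · refine Finset.sum_eq_zero (fun a ha => ?_)
      simp only [Finset.mem_filter, Finset.mem_product, Finset.mem_powerset] at ha
      rw [e _ ha.1.2, if_neg hB, mul_zero]

lemma uconv_side_total (hp : ∀ v, ∑ c, p v c = 1) {A B : Finset V} (h : Separated x A B)
    (hB : B.Nonempty) (k : ℕ) :
    ∑ i ∈ Finset.range k,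
        ∑ a ∈ (((A ∪ B).powerset ×ˢ (A ∪ B).powerset).filter (fun a => a.1 ∪ a.2 = A ∪ B)).filter
          (fun a => a.1 ⊆ A), kappa x p i a.1 * acoef x p (k - i) a.2
      = -(A.card : ℂ) * acoef x p k (A ∪ B) := by
  simp only [uconv_side hp h]
  have hb : 0 < B.card := Finset.card_pos.2 hB
  have hc : (A ∪ B).card = A.card + B.card := Finset.card_union_of_disjoint h.1
  by_cases hk : B.card ≤ k
  · trans ∑ i ∈ Finset.range (k - B.card + 1),
      ecoef x p B * uconv (kappa x p i) (acoef x p (k - B.card - i)) A
    · rw [← Finset.sum_filter]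
      refine Finset.sum_congr ?_ (fun i hi => ?_)
      · ext i; simp only [Finset.mem_filter, Finset.mem_range]; omega
      · simp only [Finset.mem_range] at hi
        rw [show k - i - B.card = k - B.card - i by omega]
    · rw [← Finset.mul_sum, kappa_identity hp]
      unfold acoef
      rw [hc, ecoef_union hp h]
      by_cases hA : A.card = k - B.card
      · rw [if_pos hA, if_pos (by omega), hA]; ring
      · rw [if_neg hA, if_neg (by omega)]; ring
  · rw [Finset.sum_eq_zero (fun i _ => if_neg (by omega))]
    unfold acoef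
    rw [hc, if_neg (by omega), mul_zero]

/-- Only connected sets carry cumulants. -/
theorem kappa_separated (hp : ∀ v, ∑ c, p v c = 1) {A B : Finset V} (h : Separated x A B)
    (hA : A.Nonempty) (hB : B.Nonempty) (k : ℕ) : kappa x p k (A ∪ B) = 0 := by
  induction k using Nat.strong_induction_on generalizing A B with
  | h k ih =>
    have hsym : Separated x B A := ⟨h.1.symm, fun i hi j hj c => (h.2 j hj i hi c).symm⟩
    rw [kappa_eq]
    unfold uconv
    have split : ∀ i ∈ Finset.range k,
        ∑ a ∈ ((A ∪ B).powerset ×ˢ (A ∪ B).powerset).filter (fun a => a.1 ∪ a.2 = A ∪ B),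
          kappa x p i a.1 * acoef x p (k - i) a.2
        = (∑ a ∈ (((A ∪ B).powerset ×ˢ (A ∪ B).powerset).filter
              (fun a => a.1 ∪ a.2 = A ∪ B)).filter (fun a => a.1 ⊆ A),
            kappa x p i a.1 * acoef x p (k - i) a.2)
          + ∑ a ∈ (((A ∪ B).powerset ×ˢ (A ∪ B).powerset).filter
              (fun a => a.1 ∪ a.2 = A ∪ B)).filter (fun a => a.1 ⊆ B),
            kappa x p i a.1 * acoef x p (k - i) a.2 := by
      intro i hi
      rw [Finset.sum_filter (p := fun a : Finset V × Finset V => a.1 ⊆ A),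
        Finset.sum_filter (p := fun a : Finset V × Finset V => a.1 ⊆ B), ← Finset.sum_add_distrib]
      refine Finset.sum_congr rfl (fun a ha => ?_)
      simp only [Finset.mem_filter, Finset.mem_product, Finset.mem_powerset] at ha
      by_cases hz : kappa x p i a.1 = 0
      · simp [hz]
      by_cases h1 : a.1 ⊆ A
      · have : ¬ a.1 ⊆ B := fun h2 => hz (by
          have : a.1 = ∅ := Finset.subset_empty.1 (fun v hv =>
            absurd (h2 hv) (Finset.disjoint_left.1 h.1 (h1 hv)))
          rw [this, kappa_empty])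
        simp [h1, this]
      by_cases h2 : a.1 ⊆ B
      · simp [h1, h2]
      refine absurd ?_ hz
      have e : a.1 = (a.1 ∩ A) ∪ (a.1 ∩ B) := by
        rw [← Finset.inter_union_distrib_left, Finset.inter_eq_left.2 ha.1.1]
      rw [e]
      refine ih i (Finset.mem_range.1 hi) ⟨h.1.mono Finset.inter_subset_right
        Finset.inter_subset_right, fun u hu v hv => h.2 u (Finset.mem_inter.1 hu).2 v
        (Finset.mem_inter.1 hv).2⟩ ?_ ?_
      · rw [Finset.nonempty_iff_ne_empty]
        intro h0
        exact h2 (by rw [e, h0, Finset.empty_union]; exact Finset.inter_subset_right)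
      · rw [Finset.nonempty_iff_ne_empty]
        intro h0
        exact h1 (by rw [e, h0, Finset.union_empty]; exact Finset.inter_subset_right)
    rw [Finset.sum_congr rfl split, Finset.sum_add_distrib, uconv_side_total hp h hB k]
    have h' := uconv_side_total hp hsym hA k
    rw [Finset.union_comm B A] at h'
    rw [h']
    unfold acoef
    split_ifs with hk
    · rw [Finset.card_union_of_disjoint h.1] at hk
      rw [← hk, Nat.cast_add]; ring
    · ring

lemma sum_uconv (g h : Finset V → ℂ) (U : Finset V) :
    ∑ S ∈ U.powerset, uconv g h S = (∑ S ∈ U.powerset, g S) * ∑ S ∈ U.powerset, h S := by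
  symm
  rw [Finset.sum_mul_sum, ← Finset.sum_product',
    ← Finset.sum_fiberwise_of_maps_to (t := U.powerset) (g := fun a => a.1 ∪ a.2)
      (fun a ha => by
        simp only [Finset.mem_product, Finset.mem_powerset] at ha ⊢
        exact Finset.union_subset ha.1 ha.2)]
  refine Finset.sum_congr rfl (fun S hS => ?_)
  rw [uconv]
  refine Finset.sum_congr ?_ (fun a _ => rfl)
  ext a
  simp only [Finset.mem_filter, Finset.mem_product, Finset.mem_powerset]
  exact ⟨fun h => ⟨⟨h.2 ▸ Finset.subset_union_left, h.2 ▸ Finset.subset_union_right⟩, h.2⟩,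
    fun h => ⟨⟨h.1.1.trans (Finset.mem_powerset.1 hS), h.1.2.trans (Finset.mem_powerset.1 hS)⟩, h.2⟩⟩

/-- Newton recurrence for the totals. -/
lemma sum_kappa_identity (hp : ∀ v, ∑ c, p v c = 1) (U : Finset V) (k : ℕ) :
    ∑ i ∈ Finset.range (k + 1),
        (∑ S ∈ U.powerset, kappa x p i S) * ∑ S ∈ U.powerset, acoef x p (k - i) S
      = -(k : ℂ) * ∑ S ∈ U.powerset, acoef x p k S := by
  simp only [← sum_uconv]
  rw [Finset.sum_comm, Finset.mul_sum]
  exact Finset.sum_congr rfl (fun S _ => kappa_identity hp k S)

end Vale.Agent.P078.Mss2
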