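import Vale.Agent.P078.Mss2.Boundary
import Vale.Agent.P078.Mss.Roots

/-!
# The polynomial in a common variable of one vertex
-/

namespace Vale.Agent.P078.Mss2

open Vale.Agent.P078.Mss

open Finset Polynomial

variable {V : Type*} [Fintype V] [DecidableEq V] {r : ℕ}
variable {x : Fin r → Matrix V V ℂ} {p : V → Fin r → ℝ} {B : ℝ}

/-- `D` with `u` adjoined to the colours in `C`. -/
def addTo (D : Fin r → Finset V) (C : Finset (Fin r)) (u : V) : Fin r → Finset V :=
  fun c => if c ∈ C then insert u (D c) else D c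

/-- `z` with the variable of `u` set to `s` in the colours of `C`. -/
def setAt (z : Fin r → V → ℂ) (C : Finset (Fin r)) (u : V) (s : ℂ) : Fin r → V → ℂ :=
  fun c v => if c ∈ C ∧ v = u then s else z c v

lemma addTo_insert (D : Fin r → Finset V) {C : Finset (Fin r)} {c : Fin r} (hc : c ∉ C) (u : V) :
    addTo D (insert c C) u = adj (addTo D C u) c u := by
  funext e
  by_cases he : e = c
  · subst he; simp [addTo, adj, hc]
  · simp [addTo, adj, Function.update_of_ne he, he]

lemma addTo_adj (D : Fin r → Finset V) {C : Finset (Fin r)} {c : Fin r} (hc : c ∉ C) (u : V) :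
    adj (addTo D C u) c u = addTo (adj D c u) C u := by
  funext e
  by_cases he : e = c
  · subst he; simp [addTo, adj, hc]
  · simp [addTo, adj, Function.update_of_ne he]

lemma setAt_insert (z : Fin r → V → ℂ) {C : Finset (Fin r)} {c : Fin r} (hc : c ∉ C) (u : V)
    (s : ℂ) : setAt z (insert c C) u s = setVar (setAt z C u s) c u s := by
  funext e v
  by_cases he : e = c
  · subst he
    by_cases hv : v = u
    · subst hv; simp [setAt, setVar]
    · simp [setAt, setVar, Function.update_of_ne hv, hv]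
  · simp [setAt, setVar, Function.update_of_ne he, he]

lemma setAt_setVar (z : Fin r → V → ℂ) {C : Finset (Fin r)} {c : Fin r} (hc : c ∉ C) (u : V)
    (s t : ℂ) : setVar (setAt z C u s) c u t = setAt (setVar z c u t) C u s := by
  funext e v
  by_cases he : e = c
  · subst he
    by_cases hv : v = u
    · subst hv; simp [setAt, setVar, hc]
    · simp [setAt, setVar, Function.update_of_ne hv, hv]
  · simp [setAt, setVar, Function.update_of_ne he]

lemma addTo_disjoint {U : Finset V} {D : Fin r → Finset V} (hD : ∀ c, Disjoint U (D c)) {u : V}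
    (hu : u ∉ U) (C : Finset (Fin r)) (c : Fin r) : Disjoint U (addTo D C u c) := by
  by_cases hc : c ∈ C
  · simp [addTo, hc, Finset.disjoint_insert_right, hu, hD]
  · simp [addTo, hc, hD]

@[simp] lemma setAt_empty (z : Fin r → V → ℂ) (u : V) (s : ℂ) : setAt z ∅ u s = z := by
  funext c v; simp [setAt]

omit [Fintype V] in
@[simp] lemma addTo_empty (D : Fin r → Finset V) (u : V) : addTo D ∅ u = D := by
  funext c; simp [addTo]

lemma mix_setAt_of_notMem (hp1 : ∀ v, ∑ c, p v c = 1) (z : Fin r → V → ℂ) (U : Finset V)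
    (D : Fin r → Finset V) (C : Finset (Fin r)) (u : V) (hU : u ∉ U) (hD : ∀ c, u ∉ D c) (s : ℂ) :
    mix x p (setAt z C u s) U D = mix x p z U D := by
  have _ := hp1
  induction C using Finset.induction with
  | empty => simp
  | insert c C hc ih => rw [setAt_insert z hc, mix_setVar_of_notMem U D c u hU (hD c), ih]

/-- The polynomial in the common variable. -/
lemma exists_diag_poly (hp1 : ∀ v, ∑ c, p v c = 1) (U : Finset V) (u : V) (hU : u ∉ U)
    (C : Finset (Fin r)) :
    ∀ (z : Fin r → V → ℂ) (D : Fin r → Finset V), (∀ c ∈ C, u ∉ D c) →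
      ∃ P : ℂ[X], P.natDegree ≤ C.card ∧
        (∀ s, P.eval s = mix x p (setAt z C u s) U (addTo D C u)) ∧
        P.coeff C.card = mix x p z U D ∧
        (C.Nonempty → P.coeff (C.card - 1)
          = ∑ c ∈ C, mix x p (setVar z c u 0) U (adj D c u)) := by
  induction C using Finset.induction with
  | empty =>
    intro z D _
    exact ⟨Polynomial.C (mix x p z U D), by simp, fun s => by simp, by simp,
      fun h => absurd h (by simp)⟩
  | insert c C hc ih =>
    intro z D hD
    have hDC : ∀ d ∈ C, u ∉ D d := fun d hd => hD d (Finset.mem_insert_of_mem hd)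
    have hDc : u ∉ D c := hD c (Finset.mem_insert_self c C)
    obtain ⟨P, hP1, hP2, hP3, hP4⟩ := ih z D hDC
    obtain ⟨Q, hQ1, hQ2, hQ3, -⟩ := ih (setVar z c u 0) (adj D c u) (fun d hd => by
      have : d ≠ c := fun h => hc (h ▸ hd)
      simp [adj, Function.update_of_ne this, hDC d hd])
    rw [Finset.card_insert_of_notMem hc]
    refine ⟨X * P + Q, ?_, fun s => ?_, ?_, fun _ => ?_⟩
    · refine (natDegree_add_le _ _).trans (max_le ?_ (hQ1.trans (Nat.le_succ _)))
      refine natDegree_mul_le.trans ?_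
      have := natDegree_X_le (R := ℂ)
      omega
    · rw [eval_add, eval_mul, eval_X, hP2, hQ2, setAt_insert z hc, addTo_insert D hc,
        mix_affine' hp1 U (addTo D C u) c u hU (by simp [addTo, hc, hDc]), setAt_setVar z hc,
        addTo_adj D hc]
    · rw [coeff_add, coeff_X_mul, hP3, coeff_eq_zero_of_natDegree_lt (Nat.lt_succ_of_le hQ1),
        add_zero]
    · rw [Nat.add_sub_cancel, coeff_add, hQ3, Finset.sum_insert hc,
        add_comm (mix x p (setVar z c u 0) U (adj D c u))]
      congr 1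
      rcases C.eq_empty_or_nonempty with rfl | hne
      · simp
      · obtain ⟨k, hk⟩ := Nat.exists_eq_succ_of_ne_zero (Finset.card_ne_zero.2 hne)
        rw [← hP4 hne, hk, coeff_X_mul, Nat.succ_sub_one]

lemma norm_addTo_ge (hx : ∀ c, NumBound (x c) B) (hp : ∀ v c, 0 ≤ p v c) (hp1 : ∀ v, ∑ c, p v c = 1)
    (U : Finset V) (u : V) (hU : u ∉ U) (C : Finset (Fin r)) (z : Fin r → V → ℂ)
    (D : Fin r → Finset V) (hD : ∀ c, Disjoint U (D c)) (hu : ∀ c, u ∉ D c)
    (hz : ∀ c v, 0 ≤ (z c v).im) {s : ℂ} (hs : 0 ≤ s.im) :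
    s.im ^ C.card * ‖mix x p z U D‖ ≤ ‖mix x p (setAt z C u s) U (addTo D C u)‖ := by
  induction C using Finset.induction with
  | empty => simp
  | insert c C hc ih =>
    set z' := setAt z (insert c C) u s with hz'
    have hz'im : ∀ d v, 0 ≤ (z' d v).im := fun d v => by
      simp only [z', setAt]; split_ifs
      · exact hs
      · exact hz d v
    have huc : u ∉ addTo D C u c := by simp [addTo, hc, hu]
    have h1 := norm_mix_adj_ge hx hp hp1 U (addTo D C u) (addTo_disjoint hD hU C) hz'im c u hU huc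
    rw [← addTo_insert D hc] at h1
    have h2 : mix x p z' U (addTo D C u) = mix x p (setAt z C u s) U (addTo D C u) := by
      rw [hz', setAt_insert z hc]
      exact mix_setVar_of_notMem U _ c u hU huc s
    have h3 : (z' c u) = s := by simp [z', setAt]
    rw [h2, h3] at h1
    rw [Finset.card_insert_of_notMem hc, pow_succ', mul_assoc]
    exact (mul_le_mul_of_nonneg_left ih hs).trans h1

lemma exists_sorted (m : Multiset ℝ) {n : ℕ} (h : Multiset.card m = n) :
    ∃ ρ : Fin n → ℝ, Monotone ρ ∧ Multiset.map ρ Finset.univ.val = m := by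
  subst h
  set l := m.sort (· ≤ ·) with hl
  have hlen : l.length = Multiset.card m := Multiset.length_sort _
  refine ⟨fun i => l.get (i.cast hlen.symm), fun i j hij => ?_, ?_⟩
  · exact (Multiset.pairwise_sort m (· ≤ ·)).rel_get_of_le (by simpa using hij)
  · rw [Fin.univ_val_map]
    have : List.ofFn (fun i : Fin (Multiset.card m) => l.get (i.cast hlen.symm)) = l := by
      refine List.ext_getElem (by simp [hlen]) (fun k hk hk' => ?_)
      simp
    rw [this, hl, Multiset.sort_eq]

/-- A real rooted polynomial of degree `n` in normal form. -/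
lemma real_rooted_form {P : ℂ[X]} {n : ℕ} (hP : P.natDegree ≤ n) (hA : P.coeff n ≠ 0)
    (hroot : ∀ s : ℂ, P.eval s = 0 → s.im = 0) :
    ∃ ρ : Fin n → ℝ, Monotone ρ ∧
      P = Polynomial.C (P.coeff n) * ∏ i, (X - Polynomial.C (ρ i : ℂ)) := by
  have hdeg : P.natDegree = n := le_antisymm hP (le_natDegree_of_ne_zero hA)
  have hcard : Multiset.card P.roots = n := by
    rw [← hdeg]; exact (IsAlgClosed.splits P).natDegree_eq_card_roots.symm
  obtain ⟨ρ, hmono, hρ⟩ := exists_sorted (P.roots.map Complex.re) (n := n) (by simpa using hcard)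
  refine ⟨ρ, hmono, ?_⟩
  have hreal : Multiset.map (fun i => ((ρ i : ℝ) : ℂ)) Finset.univ.val = P.roots := by
    rw [show (fun i => ((ρ i : ℝ) : ℂ)) = (fun t : ℝ => (t : ℂ)) ∘ ρ from rfl,
      ← Multiset.map_map, hρ, Multiset.map_map]
    conv_rhs => rw [← Multiset.map_id P.roots]
    refine Multiset.map_congr rfl (fun s hs => ?_)
    exact Complex.ext (by simp) (by simp [hroot s ((Polynomial.mem_roots'.1 hs).2)])
  have hlead : P.leadingCoeff = P.coeff n := by rw [Polynomial.leadingCoeff, hdeg]
  conv_lhs => rw [← Polynomial.C_leadingCoeff_mul_prod_multiset_X_sub_C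
    (hcard.trans hdeg.symm), hlead, ← hreal, Multiset.map_map]
  rfl

lemma coeff_pred_prod (n : ℕ) (hn : 0 < n) (A : ℂ) (ρ : Fin n → ℝ) :
    (Polynomial.C A * ∏ i, (X - Polynomial.C (ρ i : ℂ))).coeff (n - 1)
      = -A * ((∑ i, ρ i : ℝ) : ℂ) := by
  have h := Polynomial.prod_X_sub_C_coeff_card_pred (Finset.univ : Finset (Fin n))
    (fun i => (ρ i : ℂ)) (by simpa using hn)
  rw [Finset.card_univ, Fintype.card_fin] at h
  rw [coeff_C_mul, h, Complex.ofReal_sum]
  ring

lemma eval_form (n : ℕ) (A : ℂ) (ρ : Fin n → ℝ) (s : ℂ) :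
    (Polynomial.C A * ∏ i, (X - Polynomial.C (ρ i : ℂ))).eval s = A * rootProd ρ s := by
  simp [rootProd, eval_prod]

lemma logDeriv_form (n : ℕ) (A : ℂ) (ρ : Fin n → ℝ) (t : ℝ) (ht : ∀ i, ρ i < t) :
    (Polynomial.C A * ∏ i, (X - Polynomial.C (ρ i : ℂ))).derivative.eval (t : ℂ)
      = ((∑ i, 1 / (t - ρ i) : ℝ) : ℂ)
        * (Polynomial.C A * ∏ i, (X - Polynomial.C (ρ i : ℂ))).eval (t : ℂ) := by
  classical
  rw [derivative_C_mul, derivative_prod_finset, eval_mul, eval_mul, eval_finsetSum,
    eval_prod, Complex.ofReal_sum, Finset.sum_mul, eval_C, Finset.mul_sum]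
  refine Finset.sum_congr rfl (fun i _ => ?_)
  rw [derivative_X_sub_C, mul_one, eval_prod,
    ← Finset.mul_prod_erase Finset.univ _ (Finset.mem_univ i)]
  simp only [eval_sub, eval_X, eval_C, Complex.ofReal_div, Complex.ofReal_one, Complex.ofReal_sub]
  have : (t : ℂ) - ρ i ≠ 0 := by
    rw [← Complex.ofReal_sub]; exact_mod_cast (sub_pos.2 (ht i)).ne'
  field_simp

end Vale.Agent.P078.Mss2
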