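import Vale.Agent.P078.Mss2.BarrierStep

/-!
# The root bound for the fully mixed determinant
-/

namespace Vale.Agent.P078.Mss2

open Vale.Agent.P078.Mss

open Finset Matrix
open scoped ComplexOrder

variable {V : Type*} [Fintype V] [DecidableEq V] {r : ℕ}
variable {x : Fin r → Matrix V V ℂ} {p : V → Fin r → ℝ}

/-- The quadratic form of a matrix. -/
def qf (M : Matrix V V ℂ) (v : V → ℂ) : ℂ := star v ⬝ᵥ M *ᵥ v

lemma normSq_sum_eq (v : V → ℂ) : (star v ⬝ᵥ v) = ((∑ i, Complex.normSq (v i) : ℝ) : ℂ) := by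
  push_cast
  refine Finset.sum_congr rfl (fun i _ => ?_)
  simp [Complex.normSq_eq_conj_mul_self]

lemma qf_abs_le {x : Matrix V V ℂ} (hx : NumBound x 1) (v : V → ℂ) :
    |(qf x v).re| ≤ (star v ⬝ᵥ v).re := by
  have h := hx.2 v
  rw [one_mul] at h
  rw [normSq_sum_eq, Complex.ofReal_re]
  exact h

lemma minor_real_det_pos {x : Matrix V V ℂ} (hx : NumBound x 1) (y : V → ℝ) (S : Finset V) {z : ℝ} (hz : 1 < z)
    (hy : ∀ i, z ≤ y i) : 0 < (minorMat x (fun i => (y i : ℂ)) S).det.re := by
  set M := minorMat x (fun i => (y i : ℂ)) S with hM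
  have hH : M.IsHermitian := by
    refine Matrix.IsHermitian.ext (fun i j => ?_)
    simp only [M, minorMat, Matrix.of_apply]
    by_cases hi : i ∈ S <;> by_cases hj : j ∈ S <;> rcases eq_or_ne i j with rfl | hij <;>
      simp_all [Ne.symm, hx.1.apply]
  refine (Complex.pos_iff.1 (Matrix.PosDef.det_pos
    (Matrix.PosDef.of_dotProduct_mulVec_pos hH (fun v hv => ?_)))).1
  rw [Complex.pos_iff]
  refine ⟨?_, (hH.im_star_dotProduct_mulVec_self v).symm⟩
  set w : V → ℂ := fun i => if i ∈ S then v i else 0 with hw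
  have e : star v ⬝ᵥ M *ᵥ v
      = ((∑ i, (if i ∈ S then y i else 1) * Complex.normSq (v i) : ℝ) : ℂ) - qf x w := by
    push_cast
    simp only [qf, dotProduct, mulVec, Finset.mul_sum, Pi.star_apply, Complex.star_def]
    rw [← Finset.sum_sub_distrib]
    refine Finset.sum_congr rfl (fun i _ => ?_)
    rw [show ((if i ∈ S then y i else 1 : ℝ) : ℂ) * (Complex.normSq (v i) : ℂ)
      = ∑ j, if i = j then ((if i ∈ S then y i else 1 : ℝ) : ℂ) * (Complex.normSq (v i) : ℂ)
        else 0 by simp, ← Finset.sum_sub_distrib]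
    refine Finset.sum_congr rfl (fun j _ => ?_)
    simp only [M, minorMat, Matrix.of_apply, w]
    by_cases hi : i ∈ S <;> by_cases hj : j ∈ S <;> rcases eq_or_ne i j with rfl | hij <;>
      simp_all [Complex.normSq_eq_conj_mul_self] <;> ring
  rw [e, Complex.sub_re, Complex.ofReal_re]
  have h2 : (star w ⬝ᵥ w).re = ∑ i, if i ∈ S then Complex.normSq (v i) else 0 := by
    rw [normSq_sum_eq, Complex.ofReal_re]
    exact Finset.sum_congr rfl (fun i _ => by by_cases hi : i ∈ S <;> simp [w, hi])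
  have h3 := (le_abs_self _).trans (qf_abs_le hx w)
  rw [h2] at h3
  have h4 : ∑ i, (if i ∈ S then Complex.normSq (v i) else 0)
      < ∑ i, (if i ∈ S then y i else 1) * Complex.normSq (v i) + 0 := by
    rw [add_zero]
    obtain ⟨k, hk⟩ := Function.ne_iff.1 hv
    by_cases hk' : k ∈ S
    · refine Finset.sum_lt_sum (fun i _ => ?_) ⟨k, Finset.mem_univ k, ?_⟩
      · by_cases hi : i ∈ S
        · simp only [hi, if_true]
          exact le_mul_of_one_le_left (Complex.normSq_nonneg _) (hz.le.trans (hy i))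
        · simp [hi, Complex.normSq_nonneg]
      · simp only [hk', if_true]
        exact lt_mul_of_one_lt_left (Complex.normSq_pos.2 hk) (hz.trans_le (hy k))
    · refine Finset.sum_lt_sum (fun i _ => ?_) ⟨k, Finset.mem_univ k, ?_⟩
      · by_cases hi : i ∈ S
        · simp only [hi, if_true]
          exact le_mul_of_one_le_left (Complex.normSq_nonneg _) (hz.le.trans (hy i))
        · simp [hi, Complex.normSq_nonneg]
      · simp [hk', Complex.normSq_pos.2 hk]
  linarith

lemma minor_real_det_eq {x : Matrix V V ℂ} (hx : x.IsHermitian) (y : V → ℝ) (S : Finset V) :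
    (minorMat x (fun i => (y i : ℂ)) S).det = ((minorMat x (fun i => (y i : ℂ)) S).det.re : ℂ) := by
  refine Complex.ext (by simp) ?_
  have hH : (minorMat x (fun i => (y i : ℂ)) S).IsHermitian := by
    refine Matrix.IsHermitian.ext (fun i j => ?_)
    simp only [minorMat, Matrix.of_apply]
    by_cases hi : i ∈ S <;> by_cases hj : j ∈ S <;> rcases eq_or_ne i j with rfl | hij <;>
      simp_all [Ne.symm, hx.apply]
  rw [hH.det_eq_prod_eigenvalues]
  simp [← Complex.ofReal_prod]

lemma pos_start (hx : ∀ c, NumBound (x c) 1) (hp1 : ∀ v, ∑ c, p v c = 1) {z : ℝ} (hz : 1 < z) :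
    Pos x p ∅ (fun _ => z) := by
  intro D _ Y _ hY
  rw [mix_empty hp1]
  have e : ∀ c, (minorMat (x c) (realVars Y c) (D c)).det
      = (((minorMat (x c) (realVars Y c) (D c)).det.re : ℝ) : ℂ) :=
    fun c => minor_real_det_eq (hx c).1 (Y c) (D c)
  rw [Finset.prod_congr rfl (fun c _ => e c), ← Complex.ofReal_prod, Complex.ofReal_re]
  exact Finset.prod_pos (fun c _ => minor_real_det_pos (hx c) (Y c) (D c) hz (hY c))

/-- The chord bound for a diagonal entry of the resolvent. -/
lemma resolvent_bound {x : Matrix V V ℂ} (hx : NumBound x 1) (h0 : ∀ i, x i i = 0) {z : ℝ} (hz : 1 < z) {u : V}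
    {a : ℂ} {f : ℝ} (hf : 0 < f) {v : V → ℂ} (hv : v u = a)
    (hMv : ((z : ℂ) • v - x *ᵥ v) = fun i => if i = u then (f : ℂ) else 0) :
    (z ^ 2 - 1) * a.re ≤ z * f := by
  set e : V → ℂ := fun i => if i = u then (f : ℂ) else 0 with he
  have hsa : ∀ a b : V → ℂ, star (x *ᵥ a) ⬝ᵥ b = star a ⬝ᵥ (x *ᵥ b) := fun a b => by
    rw [Matrix.star_mulVec, hx.1.eq, ← Matrix.dotProduct_mulVec]
  -- the two nonnegative pieces
  have p1 : 0 ≤ ((star v ⬝ᵥ v) - star (x *ᵥ v) ⬝ᵥ (x *ᵥ v)).re := by
    have hplus : ∀ w : V → ℂ, |(qf x w).re| ≤ (star w ⬝ᵥ w).re := qf_abs_le hx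
    have := hplus (v + x *ᵥ v)
    have := hplus (v - x *ᵥ v)
    simp only [qf, Matrix.mulVec_add, Matrix.mulVec_sub, star_add, star_sub, add_dotProduct,
      sub_dotProduct, dotProduct_add, dotProduct_sub, ← hsa, Complex.add_re, Complex.sub_re] at *
    simp only [abs_le] at *
    linarith
  have p2 : 0 ≤ ((star (v - x *ᵥ v) ⬝ᵥ (v - x *ᵥ v))
      + qf x (v - x *ᵥ v)).re := by
    rw [Complex.add_re]
    have := (abs_le.1 (qf_abs_le hx (v - x *ᵥ v))).1
    linarith
  -- evaluate along `(z - x) v = e`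
  have hxv : x *ᵥ v = (z : ℂ) • v - e := by rw [← hMv]; abel
  have hee : star e ⬝ᵥ e = ((f ^ 2 : ℝ) : ℂ) := by
    simp [e, dotProduct, apply_ite, sq]
  have hexe : star e ⬝ᵥ (x *ᵥ e) = 0 := by
    simp [e, dotProduct, mulVec, apply_ite, h0]
  have hev : star e ⬝ᵥ v = (f : ℂ) * a := by
    simp [e, dotProduct, apply_ite, hv]
  have hve : star v ⬝ᵥ e = (f : ℂ) * starRingEnd ℂ a := by
    simp [e, dotProduct, apply_ite, hv, mul_comm]
  have hxxv : x *ᵥ (x *ᵥ v) = (z : ℂ) • (x *ᵥ v) - x *ᵥ e := by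
    conv_lhs => rw [hxv]
    rw [Matrix.mulVec_sub, Matrix.mulVec_smul]
  have hvxe : star v ⬝ᵥ (x *ᵥ e) = (z : ℂ) * (star v ⬝ᵥ e) - star e ⬝ᵥ e := by
    rw [← hsa, hxv, star_sub, star_smul, sub_dotProduct, smul_dotProduct]
    simp
  simp only [qf, Matrix.mulVec_sub, star_sub, sub_dotProduct, dotProduct_sub, hsa, hxxv, hxv,
    Matrix.mulVec_smul, dotProduct_smul, smul_eq_mul, smul_dotProduct, star_smul, hvxe, hev, hve,
    hee, hexe, Complex.star_def, Complex.conj_ofReal, Complex.add_re, Complex.sub_re,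
    Complex.mul_re, Complex.mul_im, Complex.sub_im, Complex.ofReal_re, Complex.ofReal_im,
    Complex.conj_re, Complex.conj_im, Complex.zero_re, Complex.zero_im] at p1 p2
  have hs : 0 ≤ (star v ⬝ᵥ v).re := le_trans (abs_nonneg _) (qf_abs_le hx v)
  refine le_of_mul_le_mul_left ?_ hf
  nlinarith [mul_nonneg (sub_nonneg.2 hz.le) p1, p2]

/-- One colour at the start: the root in the variable of `u`, and its barrier bound. -/
lemma single_start {x : Matrix V V ℂ} (hx : NumBound x 1) (h0 : ∀ i, x i i = 0) {z : ℝ}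
    (hz : 1 < z) (u : V) :
    ∃ q : ℝ, 1 / (z - q) ≤ z / (z ^ 2 - 1) ∧ ∀ s : ℂ,
      (minorMat x (Function.update (fun _ => (z : ℂ)) u s) Finset.univ).det
        = (minorMat x (fun _ => (z : ℂ)) (Finset.univ.erase u)).det * (s - q) := by
  set y : V → ℂ := fun _ => (z : ℂ) with hy
  have huU : u ∉ (Finset.univ : Finset V).erase u := Finset.notMem_erase _ _
  obtain ⟨k, hk⟩ := minorMat_det_affine x y (Finset.univ.erase u) u huU
  rw [Finset.insert_erase (Finset.mem_univ u)] at hk
  set a := (minorMat x y (Finset.univ.erase u)).det with ha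
  set A := (minorMat x y Finset.univ).det with hA
  have hAeq : A = (z : ℂ) * a + k := by
    rw [← hk (z : ℂ), hA, hy, Function.update_eq_self]
  have haR : a = (a.re : ℂ) := minor_real_det_eq hx.1 (fun _ => z) _
  have hAR : A = (A.re : ℂ) := minor_real_det_eq hx.1 (fun _ => z) _
  have hapos : 0 < a.re := minor_real_det_pos hx (fun _ => z) _ hz (fun _ => le_rfl)
  have hApos : 0 < A.re := minor_real_det_pos hx (fun _ => z) _ hz (fun _ => le_rfl)
  set q : ℝ := z - A.re / a.re with hq
  refine ⟨q, ?_, fun s => ?_⟩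
  swap
  · have ha1 : a ≠ 0 := fun h => by rw [h] at hapos; simp at hapos
    have e : (q : ℂ) = (z : ℂ) - A / a := by
      rw [hAR, haR]; simp [q]
    rw [hk, e, hAeq]
    field_simp
    ring
  rw [show z - q = A.re / a.re by simp [q], one_div_div,
    div_le_div_iff₀ hApos (by nlinarith)]
  set M := minorMat x y Finset.univ with hM
  set v : V → ℂ := M.adjugate *ᵥ Pi.single u 1 with hv
  have hvu : v u = a := by
    rw [hv, Matrix.mulVec_single, MulOpposite.op_one, one_smul, Matrix.col_apply,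
      Matrix.adjugate_apply]
    refine det_eq_of_agree (w := u) (fun j hj => ?_) (fun j hj => ?_) ?_ (fun i j hi hj => ?_)
    · simp [Matrix.updateRow_self, Ne.symm hj, hj]
    · simp [minorMat, Ne.symm hj]
    · simp [Matrix.updateRow_self, minorMat]
    · simp [Matrix.updateRow_ne hi, M, minorMat, hi, hj]
  have hMv : ((z : ℂ) • v - x *ᵥ v) = fun i => if i = u then ((A.re : ℝ) : ℂ) else 0 := by
    have h1 : M *ᵥ v = A • Pi.single u 1 := by
      rw [hv, Matrix.mulVec_mulVec, Matrix.mul_adjugate, Matrix.smul_mulVec, Matrix.one_mulVec]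
    have h2 : M *ᵥ v = (z : ℂ) • v - x *ᵥ v := by
      funext i
      simp [M, minorMat, mulVec, dotProduct, sub_mul, ite_mul, Finset.sum_sub_distrib, y]
    rw [← h2, h1, ← hAR]
    funext i
    by_cases hi : i = u <;> simp [hi]
  have := resolvent_bound hx h0 hz hApos hvu hMv
  linarith


lemma rootBound_start [NeZero r] (hx : ∀ c, NumBound (x c) 1) (hp : ∀ v c, 0 ≤ p v c)
    (hp1 : ∀ v, ∑ c, p v c = 1) (h0 : ∀ c i, x c i i = 0) {z : ℝ} (hz : 1 < z) :
    RootBound x p ∅ (fun _ => z) ((r : ℝ) * (z / (z ^ 2 - 1))) := by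
  intro u _ ρ hρm hρ
  have hr : 0 < r := NeZero.pos r
  choose q hq1 hq2 using fun c => single_start (hx c) (h0 c) hz u
  have hρ' : ρ = q ∘ Tuple.sort q := by
    refine roots_unique hρm (Tuple.monotone_sort q) (fun s => ?_)
    have h := hρ s
    have hrest : addTo (rest r (∅ : Finset V) u) Finset.univ u
        = fun _ : Fin r => (Finset.univ : Finset V) := by
      funext c; ext w; by_cases hw : w = u <;> simp [addTo, rest, hw]
    have hrest' : rest r (∅ : Finset V) u = fun _ : Fin r => (Finset.univ : Finset V).erase u := by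
      funext c; ext w; simp [rest]
    have hv : ∀ c : Fin r, setAt (realVars fun _ : Fin r => fun _ : V => z) Finset.univ u s c
        = Function.update (fun _ => (z : ℂ)) u s := by
      intro c; funext w; by_cases hw : w = u <;> simp [setAt, realVars, hw]
    rw [hrest, hrest', mix_empty hp1, mix_empty hp1] at h
    simp only [hv, hq2, Finset.prod_mul_distrib,
      show ∀ c : Fin r, realVars (fun _ : Fin r => fun _ : V => z) c = fun _ => (z : ℂ) from
        fun _ => rfl] at h
    have ha0 : ∏ c, (minorMat (x c) (fun _ => (z : ℂ)) (Finset.univ.erase u)).det ≠ 0 :=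
      Finset.prod_ne_zero_iff.2 (fun c _ hc => by
        have := minor_real_det_pos (hx c) (fun _ => z) (Finset.univ.erase u) hz (fun _ => le_rfl)
        rw [hc] at this
        simp at this)
    refine mul_left_cancel₀ ha0 (h.symm.trans ?_)
    rw [rootProd, ← Equiv.prod_comp (Tuple.sort q) (fun c => s - (q c : ℂ))]
    rfl
  subst hρ'
  simp only [Function.comp_apply]
  rw [Equiv.sum_comp (Tuple.sort q) (fun c => 1 / (z - q c))]
  refine (Finset.sum_le_card_nsmul _ _ _ (fun c _ => hq1 c)).trans (le_of_eq ?_)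
  rw [Finset.card_univ, Fintype.card_fin, nsmul_eq_mul]

/-- Positivity of the fully mixed determinant above the barrier. -/
theorem mix_pos_above [NeZero r] (hx : ∀ c, NumBound (x c) 1) (h0 : ∀ c i, x c i i = 0) {z w : ℝ} (hz : 1 < z)
    (hw : z - ((r : ℝ) - 1) ^ 2 / ((r : ℝ) * ((r : ℝ) * (z / (z ^ 2 - 1)))) ≤ w) :
    0 < (mix x (unif V r) (realVars fun _ _ => w) Finset.univ (fun _ => ∅)).re := by
  set L := (r : ℝ) * (z / (z ^ 2 - 1)) with hL
  set Δ := ((r : ℝ) - 1) ^ 2 / ((r : ℝ) * L) with hΔ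
  set z' := w + Δ with hz'
  have hzz : z ≤ z' := by linarith
  have hr : (0 : ℝ) < r := by exact_mod_cast NeZero.pos r
  have hLp : 0 < L := mul_pos hr (div_pos (by linarith) (by nlinarith))
  have hstart : RootBound x (unif V r) ∅ (fun _ => z') L := by
    intro u hu ρ hρm hρ
    refine (rootBound_start hx unif_nonneg unif_sum h0 (hz.trans_le hzz) u hu ρ hρm hρ).trans ?_
    refine mul_le_mul_of_nonneg_left ?_ hr.le
    rw [div_le_div_iff₀ (by nlinarith) (by nlinarith)]
    nlinarith [mul_nonneg (sub_nonneg.2 hzz) (show (0:ℝ) ≤ z * z' + 1 by nlinarith)]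
  have hmain : ∀ S : Finset V,
      Pos x (unif V r) S (fun v => if v ∈ S then z' - Δ else z') ∧
        RootBound x (unif V r) S (fun v => if v ∈ S then z' - Δ else z') L := by
    intro S
    induction S using Finset.induction with
    | empty =>
      simp only [Finset.notMem_empty, if_false]
      exact ⟨pos_start hx unif_sum (hz.trans_le hzz), hstart⟩
    | insert v S hv ih =>
      have h := barrier_step hx unif_nonneg unif_sum (fun _ _ => rfl) hLp ih.1 ih.2 hv
      have e : Function.update (fun u => if u ∈ S then z' - Δ else z') v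
          ((if v ∈ S then z' - Δ else z') - Δ)
          = fun u => if u ∈ insert v S then z' - Δ else z' := by
        funext u
        by_cases hu : u = v
        · subst hu; simp [hv]
        · simp [Function.update_of_ne hu, hu]
      rw [← hΔ, e] at h
      exact h
  have h := (hmain Finset.univ).1 (fun _ => ∅) (by simp) (fun _ _ => w)
    (fun c u _ => by simp [z']) (fun c u => by simp [z'])
  exact h

/-- With `r` colours and `z = √r`, all roots are at most `3/√r`. -/
theorem mix_pos_above_sqrt (hr : 2 ≤ r) (hx : ∀ c, NumBound (x c) 1) (h0 : ∀ c i, x c i i = 0) {w : ℝ}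
    (hw : 3 / Real.sqrt r ≤ w) :
    0 < (mix x (unif V r) (realVars fun _ _ => w) Finset.univ (fun _ => ∅)).re := by
  haveI : NeZero r := ⟨by omega⟩
  have hr2 : (2 : ℝ) ≤ r := by exact_mod_cast hr
  have hs : Real.sqrt r * Real.sqrt r = (r : ℝ) := Real.mul_self_sqrt (by linarith)
  have hs1 : 1 < Real.sqrt r := Real.lt_sqrt_of_sq_lt (by linarith)
  refine mix_pos_above hx h0 hs1 (le_trans ?_ hw)
  have hs0 : (0 : ℝ) < Real.sqrt r := by linarith
  rw [sq (Real.sqrt r), hs]
  rw [le_div_iff₀ hs0, sub_mul]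
  field_simp
  rw [show Real.sqrt r ^ 2 = (r : ℝ) by rw [sq, hs]]
  have h1 : (0 : ℝ) < (r : ℝ) - 1 := by linarith
  rw [sub_le_iff_le_add]
  have : (r : ℝ) - 3 ≤ ((r : ℝ) - 1) ^ 3 / (r : ℝ) ^ 2 := by
    rw [le_div_iff₀ (by positivity)]; nlinarith
  nlinarith [this]

end Vale.Agent.P078.Mss2
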