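import Vale.Agent.P078.Mss2.Cumulant
import Vale.Agent.P078.Mss2.RootBound

/-!
# One local greedy step
-/

namespace Vale.Agent.P078.Mss2

open Vale.Agent.P078.Mss

open Finset Matrix Polynomial

variable {V : Type*} [Fintype V] [DecidableEq V] {r : ℕ}

/-- The colour laws of a partial colouring. -/
noncomputable def law (col : V → Option (Fin r)) (v : V) (c : Fin r) : ℝ :=
  match col v with
  | none => 1 / (r : ℝ)
  | some d => if c = d then 1 else 0

lemma law_nonneg (col : V → Option (Fin r)) (v : V) (c : Fin r) : 0 ≤ law col v c := by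
  unfold law
  split
  · positivity
  · split_ifs <;> norm_num

lemma law_sum [NeZero r] (col : V → Option (Fin r)) (v : V) : ∑ c, law col v c = 1 := by
  unfold law
  split
  · simp [NeZero.ne r]
  · simp

variable {x : Fin r → Matrix V V ℂ} {p : V → Fin r → ℝ}

/-- The expected characteristic polynomial. -/
noncomputable def muPoly (x : Fin r → Matrix V V ℂ) (p : V → Fin r → ℝ) : ℂ[X] :=
  ∑ R : Finset V, Polynomial.C (mix x p 0 R (fun _ => ∅)) * X ^ (Fintype.card V - R.card)

lemma eval_muPoly (w : ℂ) :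
    (muPoly x p).eval w = mix x p (fun _ _ => w) Finset.univ (fun _ => ∅) := by
  rw [mix_expand, muPoly, eval_finsetSum]
  exact Finset.sum_congr rfl (fun R _ => by
    rw [eval_mul, eval_C, eval_pow, eval_X, mul_comm])

lemma coeff_muPoly (hp : ∀ v, ∑ c, p v c = 1) {j : ℕ} (hj : j ≤ Fintype.card V) :
    (muPoly x p).coeff (Fintype.card V - j)
      = ∑ S ∈ (Finset.univ : Finset V).powerset, acoef x p j S := by
  rw [muPoly, finsetSum_coeff, Finset.powerset_univ]
  refine Finset.sum_congr rfl (fun R _ => ?_)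
  have hR : R.card ≤ Fintype.card V := Finset.card_le_univ R
  rw [coeff_C_mul_X_pow, acoef]
  by_cases h : R.card = j
  · rw [if_pos (by omega), if_pos h]
    have := ecoef_eq (x := x) (p := p) hp (Function.Embedding.refl V) R
    rw [Finset.map_refl] at this
    rw [this]
    rfl
  · rw [if_neg (by omega), if_neg h]

/-- The degree of `muPoly` is at most the number of vertices. -/
lemma natDegree_muPoly : (muPoly x p).natDegree ≤ Fintype.card V :=
  natDegree_sum_le_of_forall_le _ _ (fun R _ =>
    (natDegree_C_mul_X_pow_le _ _).trans (Nat.sub_le _ _))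

/-- The half-plane to the right of `1`, or to the left of `-1`. -/
def sidePlane (σ : ℝ) (hσ : σ = 1 ∨ σ = -1) : HalfPlane 1 where
  a := (σ : ℂ) * Complex.I
  b := 1
  a_ne := by rcases hσ with rfl | rfl <;> simp
  disj := fun t ht => by
    have := abs_le.1 ht
    rcases hσ with rfl | rfl <;> simp <;> linarith

/-- Real roots in `[-1, 1]`, with power sums given by the cumulants. -/
theorem exists_roots [NeZero r] (hx : ∀ c, NumBound (x c) 1) (hp : ∀ v c, 0 ≤ p v c)
    (hp1 : ∀ v, ∑ c, p v c = 1) :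
    ∃ ρ : Fin (Fintype.card V) → ℝ, Monotone ρ ∧
      (∀ w, mix x p (fun _ _ => w) Finset.univ (fun _ => ∅) = rootProd ρ w) ∧
      (∀ i, |ρ i| ≤ 1) ∧
      ∀ k, 0 < k → ∑ S ∈ (Finset.univ : Finset V).powerset, kappa x p k S
        = ((∑ i, ρ i ^ k : ℝ) : ℂ) := by
  set n := Fintype.card V with hn
  have hA0 : ∑ S ∈ (Finset.univ : Finset V).powerset, acoef x p 0 S = 1 := by
    simp [acoef_zero_eq hp1]
  have hlead : (muPoly x p).coeff n = 1 := by
    have h := coeff_muPoly (x := x) hp1 (Nat.zero_le n)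
    rw [Nat.sub_zero] at h
    rw [h, hA0]
  have hne : ∀ (B : ℝ) (P : HalfPlane B) (_ : ∀ c, NumBound (x c) B) (s : ℂ), 0 < P.ht s →
      (muPoly x p).eval s ≠ 0 := fun B P hB s hs => by
    rw [eval_muPoly]
    exact (mix_stable hB P hp hp1 Finset.univ (fun _ _ => s) (fun _ _ => hs) (fun _ => ∅)
      (fun _ => Finset.disjoint_empty_right _)).1
  have hroot : ∀ s : ℂ, (muPoly x p).eval s = 0 → s.im = 0 := by
    intro s hs
    rcases lt_trichotomy s.im 0 with h | h | h
    · refine absurd ?_ (hne 1 (upper0 1) hx (starRingEnd ℂ s) (by simpa using h))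
      have h1 := congrArg (starRingEnd ℂ) hs
      rw [eval_muPoly, mix_conj (fun c => (hx c).1), map_zero] at h1
      rw [eval_muPoly]
      exact h1
    · exact h
    · exact absurd hs (hne 1 (upper0 1) hx s (by simpa using h))
  obtain ⟨ρ, hρm, hρ⟩ := real_rooted_form natDegree_muPoly (by rw [hlead]; exact one_ne_zero) hroot
  rw [hlead, map_one, one_mul] at hρ
  have hev : ∀ w, mix x p (fun _ _ => w) Finset.univ (fun _ => ∅) = rootProd ρ w := fun w => by
    rw [← eval_muPoly, hρ, rootProd, eval_prod]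
    simp
  refine ⟨ρ, hρm, hev, fun i => ?_, ?_⟩
  · have hz : (muPoly x p).eval ((ρ i : ℝ) : ℂ) = 0 := by
      rw [eval_muPoly, hev, rootProd]
      exact Finset.prod_eq_zero (Finset.mem_univ i) (sub_self _)
    by_contra h
    rw [not_le, lt_abs] at h
    rcases h with h | h
    · exact hne 1 (sidePlane 1 (Or.inl rfl)) hx _ (by simp [sidePlane, HalfPlane.ht]; linarith) hz
    · exact hne 1 (sidePlane (-1) (Or.inr rfl)) hx _
        (by simp [sidePlane, HalfPlane.ht]; linarith) hz
  -- Newton's identities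
  set m : Multiset ℂ := Finset.univ.val.map (fun i => ((ρ i : ℝ) : ℂ)) with hm
  have hcard : Multiset.card m = n := by simp [m, n]
  have hprod : muPoly x p = (m.map fun t => X - Polynomial.C t).prod := by
    rw [hρ, hm, Multiset.map_map]; rfl
  have hA : ∀ j, ∑ S ∈ (Finset.univ : Finset V).powerset, acoef x p j S
      = (-1) ^ j * m.esymm j := by
    intro j
    rcases le_or_gt j n with hj | hj
    · rw [← coeff_muPoly hp1 hj, hprod, Multiset.prod_X_sub_C_coeff _ (by omega), hcard]
      rw [show n - (n - j) = j by omega]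
    · rw [Finset.sum_eq_zero (fun S _ => by
        rw [acoef, if_neg (by have := Finset.card_le_univ S; omega)])]
      rw [Multiset.esymm, Multiset.powersetCard_eq_empty _ (by omega)]
      simp
  intro k
  induction k using Nat.strong_induction_on with
  | h k ih =>
    intro hk
    set K := fun i => ∑ S ∈ (Finset.univ : Finset V).powerset, kappa x p i S with hK
    have h1 := sum_kappa_identity (x := x) hp1 (Finset.univ : Finset V) k
    rw [Finset.sum_range_succ, Nat.sub_self, hA0, mul_one, hA k] at h1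
    have h2 := congrArg (MvPolynomial.aeval (fun i => ((ρ i : ℝ) : ℂ)))
      (MvPolynomial.psum_eq_mul_esymm_sub_sum (Fin n) ℤ k hk)
    simp only [map_sub, map_mul, map_pow, map_neg, map_one, map_natCast, map_sum,
      MvPolynomial.psum, MvPolynomial.aeval_X] at h2
    have h2' : ∀ j, MvPolynomial.aeval (fun i => ((ρ i : ℝ) : ℂ))
        (MvPolynomial.esymm (Fin n) ℤ j) = m.esymm j :=
      fun j => MvPolynomial.aeval_esymm_eq_multiset_esymm (Fin n) ℤ j _
    simp only [h2'] at h2
    have h3 : ∑ i ∈ Finset.range k, K i * ((-1) ^ (k - i) * m.esymm (k - i))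
        = ∑ a ∈ Finset.HasAntidiagonal.antidiagonal k with a.1 ∈ Set.Ioo 0 k,
          (-1) ^ a.1 * m.esymm a.1 * ∑ i, ((ρ i : ℝ) : ℂ) ^ a.2 := by
      trans ∑ i ∈ (Finset.range k).filter (fun i => 0 < i), K i * ((-1) ^ (k - i) * m.esymm (k - i))
      · refine (Finset.sum_filter_of_ne (fun i _ hne' => ?_)).symm
        by_contra h0
        rw [not_lt, Nat.le_zero] at h0
        subst h0
        simp [K, kappa_zero] at hne'
      · refine Finset.sum_nbij' (fun i => (k - i, i)) (fun a => a.2) ?_ ?_ ?_ ?_ ?_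
        · intro i hi
          simp only [Finset.mem_coe, Finset.mem_filter, Finset.mem_range] at hi ⊢
          exact ⟨Finset.HasAntidiagonal.mem_antidiagonal.2 (by dsimp only; omega),
            Set.mem_Ioo.2 ⟨by omega, by omega⟩⟩
        · intro a ha
          simp only [Finset.mem_coe, Finset.mem_filter, Finset.mem_range] at ha ⊢
          obtain ⟨h5, h6, h7⟩ := ha
          have := Finset.HasAntidiagonal.mem_antidiagonal.1 h5
          omega
        · intro i _; rfl
        · intro a ha
          simp only [Finset.mem_coe, Finset.mem_filter] at ha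
          have := Finset.HasAntidiagonal.mem_antidiagonal.1 ha.1
          exact Prod.ext (by simp only; omega) rfl
        · intro i hi
          simp only [Finset.mem_filter, Finset.mem_range] at hi
          simp only [K]
          rw [ih i hi.1 hi.2]
          push_cast
          ring
    have h4 : ∀ i, (∑ S ∈ (Finset.univ : Finset V).powerset, acoef x p (k - i) S)
        = (-1) ^ (k - i) * m.esymm (k - i) := fun i => hA _
    simp only [h4] at h1
    change K k = _
    rw [show (∑ S ∈ (Finset.univ : Finset V).powerset, kappa x p k S) = K k from rfl] at h1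
    rw [show ((∑ i, ρ i ^ k : ℝ) : ℂ) = ∑ i, ((ρ i : ℝ) : ℂ) ^ k by push_cast; rfl, h2, ← h3]
    rw [pow_succ] at *
    linear_combination h1

/-- The smoothed indicator of `(z₀, ∞)`. -/
noncomputable def smoothStep (z₀ η t : ℝ) : ℝ := Real.pi / 2 + Real.arctan ((t - z₀) / η)

lemma arg_eq_smoothStep {z₀ η t : ℝ} (hη : 0 < η) :
    Complex.arg (((z₀ : ℂ) + η * Complex.I) - t) = smoothStep z₀ η t := by
  set a : ℂ := (η : ℂ) + ((t - z₀ : ℝ) : ℂ) * Complex.I with ha
  have e : ((z₀ : ℂ) + η * Complex.I) - t = Complex.I * a := by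
    simp only [a]; push_cast; linear_combination (-(t - z₀ : ℂ)) * Complex.I_mul_I
  have hre : a.re = η := by simp [a]
  have him : a.im = t - z₀ := by simp [a]
  have ha0 : a ≠ 0 := fun h => hη.ne' (by rw [← hre, h]; rfl)
  have hb := abs_lt.1 (Complex.abs_arg_lt_pi_div_two_iff.2 (Or.inl (hre.symm ▸ hη) : 0 < a.re ∨ a = 0))
  have harg : Complex.arg a = Real.arctan ((t - z₀) / η) := by
    rw [← Real.arctan_tan hb.1 hb.2, Complex.tan_arg, hre, him]
  rw [e, Complex.arg_mul Complex.I_ne_zero ha0, Complex.arg_I, harg, smoothStep]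
  rw [Complex.arg_I, Set.mem_Ioc]
  constructor <;> linarith [Real.pi_pos, hb.1, hb.2]

lemma hasDerivAt_smoothStep {z₀ η : ℝ} (hη : 0 < η) (t : ℝ) :
    HasDerivAt (smoothStep z₀ η) (η / ((t - z₀) ^ 2 + η ^ 2)) t := by
  have h := (((hasDerivAt_id t).sub_const z₀).div_const η).arctan.const_add (Real.pi / 2)
  refine HasDerivAt.congr_deriv (h.congr_of_eventuallyEq ?_) ?_
  · exact Filter.Eventually.of_forall (fun s => by simp [smoothStep])
  · have : (t - z₀) ^ 2 + η ^ 2 ≠ 0 := by positivity
    simp only [id_eq]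
    field_simp
    ring

lemma sum_abs_sub_le {n : ℕ} {ρ σ : Fin n → ℝ} (hρm : Monotone ρ) (hσm : Monotone σ)
    (hab : ∀ s, (∀ i, ρ i ≠ s) → (∀ i, σ i ≠ s) → |(above σ s : ℝ) - above ρ s| ≤ 1)
    (hρ : ∀ i, |ρ i| ≤ 1) (hσ : ∀ i, |σ i| ≤ 1) : ∑ i, |σ i - ρ i| ≤ 2 := by
  have key : ∀ (α β : Fin n → ℝ), Monotone α → Monotone β →
      (∀ s, (∀ i, α i ≠ s) → (∀ i, β i ≠ s) → |(above β s : ℝ) - above α s| ≤ 1) →
      ∀ i j : Fin n, i.val + 1 = j.val → β i ≤ α j := by
    intro α β hα hβ h i j hij
    by_contra hlt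
    push Not at hlt
    obtain ⟨s, ⟨hs1, hs2⟩, hs⟩ := ((Set.Ioo_infinite hlt).sdiff
      ((Set.finite_range α).union (Set.finite_range β))).nonempty
    have h1 : Finset.Ici i ⊆ Finset.univ.filter (fun l => s < β l) := fun l hl => by
      simp only [Finset.mem_filter, Finset.mem_univ, true_and]
      exact hs2.trans_le (hβ (Finset.mem_Ici.1 hl))
    have h2 : Finset.univ.filter (fun l => s < α l) ⊆ Finset.Ioi j := fun l hl => by
      simp only [Finset.mem_filter, Finset.mem_univ, true_and] at hl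
      refine Finset.mem_Ioi.2 (lt_of_not_ge (fun hlj => ?_))
      exact lt_irrefl _ ((hl.trans_le (hα hlj)).trans hs1)
    have h3 := Finset.card_le_card h1
    have h4 := Finset.card_le_card h2
    rw [Fin.card_Ici] at h3
    rw [Fin.card_Ioi] at h4
    have h5 := (abs_le.1 (h s (fun l hl => hs (Or.inl ⟨l, hl⟩))
      (fun l hl => hs (Or.inr ⟨l, hl⟩)))).2
    have h6 : above β s ≤ above α s + 1 := by
      have : ((above β s : ℕ) : ℝ) ≤ ((above α s + 1 : ℕ) : ℝ) := by push_cast; linarith
      exact_mod_cast this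
    change _ ≤ above β s at h3
    change above α s ≤ _ at h4
    have := j.isLt
    omega
  have hnext : ∀ i j : Fin n, i.val + 1 = j.val → max (σ i) (ρ i) ≤ min (σ j) (ρ j) := by
    intro i j hij
    have hle : i ≤ j := by rw [Fin.le_def]; omega
    refine max_le (le_min (hσm hle) (key ρ σ hρm hσm hab i j hij)) (le_min ?_ (hρm hle))
    exact key σ ρ hσm hρm (fun s a b => by rw [abs_sub_comm]; exact hab s b a) i j hij
  rcases Nat.eq_zero_or_pos n with rfl | hn
  · simp
  have step : ∀ k, (hk : k < n) →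
      ∑ i ∈ Finset.univ.filter (fun i : Fin n => i.val ≤ k), |σ i - ρ i|
        ≤ max (σ ⟨k, hk⟩) (ρ ⟨k, hk⟩) - (-1) := by
    intro k
    induction k with
    | zero =>
      intro hk
      rw [show Finset.univ.filter (fun i : Fin n => i.val ≤ 0) = {⟨0, hk⟩} by
        ext i; simp [Fin.ext_iff], Finset.sum_singleton, ← max_sub_min_eq_abs']
      have := le_min (abs_le.1 (hσ ⟨0, hk⟩)).1 (abs_le.1 (hρ ⟨0, hk⟩)).1
      linarith
    | succ k ih =>
      intro hk
      rw [show Finset.univ.filter (fun i : Fin n => i.val ≤ k + 1)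
        = insert ⟨k + 1, hk⟩ (Finset.univ.filter (fun i : Fin n => i.val ≤ k)) by
        ext i; simp [Fin.ext_iff]; omega,
        Finset.sum_insert (by simp), ← max_sub_min_eq_abs']
      have h1 := ih (Nat.lt_of_succ_lt hk)
      have h2 := hnext ⟨k, Nat.lt_of_succ_lt hk⟩ ⟨k + 1, hk⟩ rfl
      linarith
  have h1 := step (n - 1) (by omega)
  rw [show Finset.univ.filter (fun i : Fin n => i.val ≤ n - 1) = Finset.univ by
    ext i; simp; omega] at h1
  refine h1.trans ?_
  have := max_le (abs_le.1 (hσ ⟨n - 1, by omega⟩)).2 (abs_le.1 (hρ ⟨n - 1, by omega⟩)).2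
  linarith

/-- The real functional attached to a polynomial, without its constant term. -/
noncomputable def kapPoly (x : Fin r → Matrix V V ℂ) (p : V → Fin r → ℝ) (g : ℝ[X]) (S : Finset V) : ℝ :=
  ∑ k ∈ Finset.range (g.natDegree + 1), g.coeff k * (kappa x p k S).re

lemma sum_kapPoly [NeZero r] (g : ℝ[X]) {ρ : Fin (Fintype.card V) → ℝ}
    (hρ : ∀ k, 0 < k → ∑ S ∈ (Finset.univ : Finset V).powerset, kappa x p k S
        = ((∑ i, ρ i ^ k : ℝ) : ℂ)) :
    ∑ S : Finset V, kapPoly x p g S = ∑ i, g.eval (ρ i) - Fintype.card V * g.coeff 0 := by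
  have e : ∀ k, ∑ S : Finset V, (kappa x p k S).re
      = if k = 0 then 0 else ∑ i, ρ i ^ k := by
    intro k
    split_ifs with h
    · subst h; simp [kappa_zero]
    · have := congrArg Complex.re (hρ k (Nat.pos_of_ne_zero h))
      rwa [Finset.powerset_univ, Complex.re_sum, Complex.ofReal_re] at this
  simp only [kapPoly]
  rw [Finset.sum_comm]
  simp only [← Finset.mul_sum, e, Polynomial.eval_eq_sum_range]
  rw [Finset.sum_comm (γ := Fin (Fintype.card V))]
  simp only [← Finset.mul_sum]
  rw [eq_sub_iff_add_eq, ← Finset.sum_filter_add_sum_filter_not (Finset.range (g.natDegree + 1))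
    (fun k => k = 0), ← Finset.sum_filter_add_sum_filter_not (Finset.range (g.natDegree + 1))
    (fun k => k = 0) (fun k => g.coeff k * ∑ i, ρ i ^ k)]
  rw [show (Finset.range (g.natDegree + 1)).filter (fun k => k = 0) = {0} by
    ext k; simp +contextual]
  simp only [Finset.sum_singleton, if_true, mul_zero, zero_add, pow_zero, Finset.sum_const,
    Finset.card_univ, Fintype.card_fin, nsmul_eq_mul, mul_one]
  rw [Finset.sum_congr rfl (fun k hk => by rw [if_neg (Finset.mem_filter.1 hk).2])]
  ring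

/-- The polynomial `g` imitates the smoothed indicator. -/
def Imitates (g : ℝ[X]) (z₀ η ε : ℝ) : Prop :=
  ∀ t : ℝ, |t| ≤ 1 → |g.derivative.eval t - η / ((t - z₀) ^ 2 + η ^ 2)| ≤ ε ∧
    |g.eval t - smoothStep z₀ η t| ≤ ε

/-- One greedy step: an averaged law at `u` may be replaced by one of the averaged laws. -/
theorem flip_avg [NeZero r] (hx : ∀ c, NumBound (x c) 1) {n : ℕ} [NeZero n] (hp : ∀ v c, 0 ≤ p v c)
    (hp1 : ∀ v, ∑ c, p v c = 1) {β : Fin n → Fin r → ℝ} (hβ : ∀ i c, 0 ≤ β i c)
    (hβ1 : ∀ i, ∑ c, β i c = 1) {u : V} (hu : ∀ c, p u c = 1 / (n : ℝ) * ∑ i, β i c)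
    {z₀ η ε : ℝ} (hη : 0 < η) {g : ℝ[X]} (hg : Imitates g z₀ η ε) :
    ∃ i, ∑ S : Finset V, kapPoly x (Function.update p u (β i)) g S
      ≤ (∑ S : Finset V, kapPoly x p g S) + 2 * ε := by
  classical
  set p' := fun i => Function.update p u (β i) with hp'
  have hp'0 : ∀ i v c, 0 ≤ p' i v c := fun i v c => by
    by_cases hv : v = u
    · subst hv; simp [p', hβ]
    · simp [p', Function.update_of_ne hv, hp]
  have hp'1 : ∀ i v, ∑ c, p' i v c = 1 := fun i v => by
    by_cases hv : v = u
    · subst hv; simp [p', hβ1]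
    · simp [p', Function.update_of_ne hv, hp1]
  obtain ⟨ρ, hρm, hρ, hρ1, hρk⟩ := exists_roots hx hp hp1
  choose σ hσm hσ hσ1 hσk using fun i => exists_roots hx (hp'0 i) (hp'1 i)
  have huU : u ∉ (Finset.univ : Finset V).erase u := Finset.notMem_erase _ _
  set K := fun (c : Fin r) (w : ℂ) => mix x p (fun _ _ => w) (Finset.univ.erase u)
    (adj (fun _ => ∅) c u) with hK
  set L := fun (i : Fin n) (w : ℂ) => ∑ c, (β i c : ℂ) * K c w with hL
  have hKσ : ∀ i w, L i w = rootProd (σ i) w := by
    intro i w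
    rw [← hσ i w]
    have h := mix_insert (x := x) (z := fun _ _ => w) (hp'1 i) huU (fun _ => ∅)
    rw [Finset.insert_erase (Finset.mem_univ u)] at h
    rw [h]
    refine Finset.sum_congr rfl (fun c _ => ?_)
    simp only [p', Function.update_self]
    congr 1
    exact mix_p_congr hp1 (hp'1 i) (fun v hv => by
      simp [p', Function.update_of_ne (Finset.ne_of_mem_erase hv)]) _
  have hKρ : ∀ w, rootProd ρ w = ∑ i, ((1 / (n : ℝ) : ℝ) : ℂ) * L i w := by
    intro w
    rw [← hρ w]
    have h := mix_insert (x := x) (z := fun _ _ => w) hp1 huU (fun _ => ∅)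
    rw [Finset.insert_erase (Finset.mem_univ u)] at h
    rw [h]
    simp only [L, Finset.mul_sum]
    rw [Finset.sum_comm]
    refine Finset.sum_congr rfl (fun c _ => ?_)
    rw [hu c]
    push_cast
    simp only [Finset.mul_sum, Finset.sum_mul, K, adj, mul_assoc]
  have hslit : ∀ i w, 0 < w.im →
      ((1 : ℝ) : ℂ) * (rootProd (σ i) w / rootProd ρ w) ∈ Complex.slitPlane := by
    intro i w hw
    set K0 := mix x p (fun _ _ => w) (Finset.univ.erase u) (fun _ => ∅) with hK0
    obtain ⟨hne, hr⟩ := mix_stable hx (upper0 1) hp hp1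
      (Finset.univ.erase u) (fun _ _ => w) (fun _ _ => by simpa using hw) (fun _ => ∅)
      (fun _ => Finset.disjoint_empty_right _)
    have hqK : ∀ d, 0 < (K d w / K0).im := fun d => by
      have := hr d u huU (by simp)
      rw [upper0_ht] at this
      simp only [upper0, one_mul] at this
      exact hw.trans_le this
    have hq : ∀ d, 0 < (L d w / K0).im := fun d => by
      obtain ⟨c, hc⟩ : ∃ c, 0 < β d c := by
        by_contra hn
        push Not at hn
        linarith [hβ1 d, Finset.sum_nonpos (fun c (_ : c ∈ Finset.univ) => hn c)]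
      simp only [L, Finset.sum_div, Complex.im_sum, mul_div_assoc, Complex.im_ofReal_mul]
      exact Finset.sum_pos' (fun c _ => mul_nonneg (hβ d c) (hqK c).le)
        ⟨c, Finset.mem_univ c, mul_pos hc (hqK c)⟩
    have hb : 0 < (rootProd ρ w / K0).im := by
      rw [hKρ, Finset.sum_div, Complex.im_sum]
      refine Finset.sum_pos (fun d _ => ?_) Finset.univ_nonempty
      rw [mul_div_assoc, Complex.im_ofReal_mul]
      exact mul_pos (by have := NeZero.pos n; positivity) (hq d)
    rw [Complex.ofReal_one, one_mul, ← hKσ, ← div_div_div_cancel_right₀ hne]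
    set a := L i w / K0
    set b := rootProd ρ w / K0
    have ha : 0 < a.im := hq i
    have hb0 : b ≠ 0 := fun h => by rw [h] at hb; simp at hb
    rw [Complex.mem_slitPlane_iff]
    by_cases h0 : (a / b).im = 0
    · refine Or.inl ?_
      have e : a = ((a / b).re : ℂ) * b := by
        rw [show (((a / b).re : ℝ) : ℂ) = a / b from Complex.ext (by simp) (by simp [h0]),
          div_mul_cancel₀ _ hb0]
      have := congrArg Complex.im e
      rw [Complex.im_ofReal_mul] at this
      exact pos_of_mul_pos_left (this ▸ ha) hb.le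
    · exact Or.inr h0
  set w₀ : ℂ := (z₀ : ℂ) + η * Complex.I with hw₀
  have hw0 : 0 < w₀.im := by simpa [w₀] using hη
  obtain ⟨c, hc⟩ : ∃ c, (rootProd (σ c) w₀ / rootProd ρ w₀).im ≤ 0 := by
    by_contra hall
    push Not at hall
    have hρ0 : rootProd ρ w₀ ≠ 0 := rootProd_ne_zero _ hw0.ne'
    have h1 : ∑ c, ((1 / (n : ℝ) : ℝ) : ℂ) * (rootProd (σ c) w₀ / rootProd ρ w₀) = 1 := by
      simp only [← hKσ, ← mul_div_assoc, ← Finset.sum_div, ← hKρ]
      exact div_self hρ0
    have h2 := congrArg Complex.im h1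
    rw [Complex.im_sum, Complex.one_im] at h2
    have h3 : 0 < ∑ c, (((1 / (n : ℝ) : ℝ) : ℂ) * (rootProd (σ c) w₀ / rootProd ρ w₀)).im :=
      Finset.sum_pos (fun d _ => by
        rw [Complex.im_ofReal_mul]
        exact mul_pos (by have := NeZero.pos n; positivity) (hall d)) Finset.univ_nonempty
    linarith
  refine ⟨c, ?_⟩
  have harg : argSum (σ c) w₀ ≤ argSum ρ w₀ := by
    have h := argSum_sub_eq one_pos (hslit c) hw0
    have hs := hslit c w₀ hw0
    rw [Complex.ofReal_one, one_mul] at hs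
    rcases hc.lt_or_eq with hlt | heq
    · linarith [Complex.arg_neg_iff.2 hlt]
    · have hre := (Complex.mem_slitPlane_iff.1 hs).resolve_right (fun h => h heq)
      have := Complex.arg_eq_zero_iff.2 ⟨hre.le, heq⟩
      linarith
  simp only [argSum, w₀, arg_eq_smoothStep hη] at harg
  have hlip : ∀ a b : ℝ, |a| ≤ 1 → |b| ≤ 1 →
      |(g.eval a - smoothStep z₀ η a) - (g.eval b - smoothStep z₀ η b)| ≤ ε * |a - b| := by
    intro a b ha hb
    have := Convex.norm_image_sub_le_of_norm_hasDerivWithin_le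
      (f := fun t => g.eval t - smoothStep z₀ η t)
      (f' := fun t => g.derivative.eval t - η / ((t - z₀) ^ 2 + η ^ 2))
      (s := Set.Icc (-1 : ℝ) 1) (C := ε)
      (fun t _ => ((g.hasDerivAt t).sub (hasDerivAt_smoothStep hη t)).hasDerivWithinAt)
      (fun t ht => by rw [Real.norm_eq_abs]; exact (hg t (abs_le.2 ⟨ht.1, ht.2⟩)).1)
      (convex_Icc _ _) (abs_le.1 hb) (abs_le.1 ha)
    simpa [Real.norm_eq_abs] using this
  have hε : 0 ≤ ε := (abs_nonneg _).trans (hg 0 (by simp)).1
  have hsum := sum_abs_sub_le hρm (hσm c)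
    (fun s a b => above_diff_le one_pos (hslit c) a b) hρ1 (hσ1 c)
  have h5 : ∑ i, ((g.eval (σ c i) - smoothStep z₀ η (σ c i))
      - (g.eval (ρ i) - smoothStep z₀ η (ρ i))) ≤ 2 * ε :=
    calc _ ≤ ∑ i, ε * |σ c i - ρ i| :=
          Finset.sum_le_sum (fun i _ => (le_abs_self _).trans (hlip _ _ (hσ1 c i) (hρ1 i)))
      _ = ε * ∑ i, |σ c i - ρ i| := by rw [Finset.mul_sum]
      _ ≤ ε * 2 := mul_le_mul_of_nonneg_left hsum hε
      _ = 2 * ε := mul_comm _ _
  simp only [Finset.sum_sub_distrib] at h5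
  rw [sum_kapPoly g (hσk c), sum_kapPoly g hρk]
  linarith

/-- The potential of the empty colouring. -/
theorem start_bound (hr : 2 ≤ r) (hx : ∀ c, NumBound (x c) 1) (h0 : ∀ c i, x c i i = 0) {z₀ η ε : ℝ}
    (hη : 0 < η) (hz : 3 / Real.sqrt r < z₀) {g : ℝ[X]} (hg : Imitates g z₀ η ε) :
    (∑ S : Finset V, kapPoly x (law (fun _ : V => (none : Option (Fin r)))) g S)
      + Fintype.card V * g.coeff 0
      ≤ Fintype.card V * (η / (z₀ - 3 / Real.sqrt r) + ε) := by
  haveI : NeZero r := ⟨by omega⟩
  obtain ⟨ρ, -, hρ, hρ1, hρk⟩ := exists_roots hx (law_nonneg (fun _ : V => (none : Option (Fin r))))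
    (law_sum _)
  rw [sum_kapPoly g hρk, sub_add_cancel]
  have hle : ∀ i, ρ i < 3 / Real.sqrt r := fun i => by
    by_contra h
    push Not at h
    have h1 := mix_pos_above_sqrt hr hx h0 h
    have e : mix x (unif V r) (realVars fun _ _ => ρ i) Finset.univ (fun _ => ∅)
        = mix x (law fun _ : V => (none : Option (Fin r))) (fun _ _ => ((ρ i : ℝ) : ℂ)) Finset.univ
          (fun _ => ∅) := rfl
    rw [e, hρ, rootProd, Finset.prod_eq_zero (Finset.mem_univ i) (sub_self _)] at h1
    simp at h1
  calc ∑ i, g.eval (ρ i) ≤ ∑ _i : Fin (Fintype.card V), (η / (z₀ - 3 / Real.sqrt r) + ε) := by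
        refine Finset.sum_le_sum (fun i _ => ?_)
        have h1 := (abs_le.1 (hg (ρ i) (hρ1 i)).2).2
        have h2 : smoothStep z₀ η (ρ i) ≤ η / (z₀ - 3 / Real.sqrt r) := by
          have hd : 0 < z₀ - ρ i := by linarith [hle i]
          have hd' : 0 < z₀ - 3 / Real.sqrt r := by linarith
          rw [smoothStep, show (ρ i - z₀) / η = -((z₀ - ρ i) / η) by ring, Real.arctan_neg,
            ← sub_eq_add_neg, ← Real.arctan_inv_of_pos (by positivity), inv_div]
          refine le_trans ?_ (div_le_div_of_nonneg_left hη.le hd'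
            (show z₀ - 3 / Real.sqrt r ≤ z₀ - ρ i by linarith [hle i]))
          have hnn : 0 ≤ η / (z₀ - ρ i) := by positivity
          have hpos : 0 ≤ Real.arctan (η / (z₀ - ρ i)) := by
            rw [← Real.arctan_zero]; exact Real.arctan_mono hnn
          rcases hpos.eq_or_lt with h | h
          · linarith
          · have := Real.lt_tan h (Real.arctan_lt_pi_div_two _)
            rw [Real.tan_arctan] at this
            linarith
        linarith
    _ = _ := by rw [Finset.sum_const, Finset.card_univ, Fintype.card_fin, nsmul_eq_mul]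

end Vale.Agent.P078.Mss2
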