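import Vale.Agent.P078.Mss2.Pointed

/-!
# Locality of cumulants: relabelling, phases and the band structure
-/

namespace Vale.Agent.P078.Mss2

open Vale.Agent.P078.Mss

open Finset Matrix

variable {V : Type*} [DecidableEq V] {r : ℕ}
variable {x : Fin r → Matrix V V ℂ} {p : V → Fin r → ℝ} {ψ : V}

section map

variable {W : Type*} [DecidableEq W]

lemma ecoef_map (hp : ∀ v, ∑ c, p v c = 1) (ι : W ↪ V) (S : Finset W) :
    ecoef x p (S.map ι) = ecoef (sub x ι) (fun i => p (ι i)) S := by
  let j : {v // v ∈ S} ↪ V := (Function.Embedding.subtype _).trans ι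
  have h := ecoef_eq (x := x) hp j Finset.univ
  have e : (Finset.univ : Finset {v // v ∈ S}).map j = S.map ι := by
    rw [show j = (Function.Embedding.subtype _).trans ι from rfl, ← Finset.map_map]
    congr 1
    ext v; simp
  rw [e] at h
  exact h

lemma acoef_map (hp : ∀ v, ∑ c, p v c = 1) (ι : W ↪ V) (k : ℕ) (S : Finset W) :
    acoef x p k (S.map ι) = acoef (sub x ι) (fun i => p (ι i)) k S := by
  unfold acoef
  rw [Finset.card_map, ecoef_map hp]

lemma uconv_map (ι : W ↪ V) (g h : Finset V → ℂ) (S : Finset W) :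
    uconv g h (S.map ι) = uconv (fun T => g (T.map ι)) (fun T => h (T.map ι)) S := by
  unfold uconv
  symm
  refine Finset.sum_bij (fun a _ => (a.1.map ι, a.2.map ι)) ?_ ?_ ?_ (fun _ _ => rfl)
  · intro a ha
    simp only [Finset.mem_filter, Finset.mem_product, Finset.mem_powerset] at ha ⊢
    exact ⟨⟨Finset.map_subset_map.2 ha.1.1, Finset.map_subset_map.2 ha.1.2⟩,
      by rw [← Finset.map_union, ha.2]⟩
  · intro a _ b _ h
    exact Prod.ext (Finset.map_injective ι (congrArg Prod.fst h))
      (Finset.map_injective ι (congrArg Prod.snd h))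
  · intro b hb
    simp only [Finset.mem_filter, Finset.mem_product, Finset.mem_powerset] at hb
    obtain ⟨u1, h1, e1⟩ := Finset.subset_map_iff.1 hb.1.1
    obtain ⟨u2, h2, e2⟩ := Finset.subset_map_iff.1 hb.1.2
    refine ⟨(u1, u2), ?_, Prod.ext e1.symm e2.symm⟩
    simp only [Finset.mem_filter, Finset.mem_product, Finset.mem_powerset]
    exact ⟨⟨h1, h2⟩, Finset.map_injective ι (by rw [Finset.map_union, ← e1, ← e2, hb.2])⟩

lemma kappa_map (hp : ∀ v, ∑ c, p v c = 1) (ι : W ↪ V) (k : ℕ) (S : Finset W) :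
    kappa x p k (S.map ι) = kappa (sub x ι) (fun i => p (ι i)) k S := by
  induction k using Nat.strong_induction_on generalizing S with
  | h k ih =>
    rw [kappa_eq, kappa_eq, acoef_map hp]
    congr 1
    refine Finset.sum_congr rfl (fun i hi => ?_)
    rw [uconv_map]
    exact Finset.sum_congr rfl (fun a _ => by simp [ih i (Finset.mem_range.1 hi), acoef_map hp])

lemma pkap_map (hp : ∀ v, ∑ c, p v c = 1) (ι : W ↪ V) (ψ : W) (k : ℕ) (S : Finset W) :
    pkap x p (ι ψ) k (S.map ι) = pkap (sub x ι) (fun i => p (ι i)) ψ k S := by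
  induction k using Nat.strong_induction_on generalizing S with
  | h k ih =>
    rw [pkap_eq, pkap_eq]
    congr 1
    · unfold bcoef
      rw [← Finset.map_erase, acoef_map hp]
      simp
    refine Finset.sum_congr rfl (fun i hi => ?_)
    rw [uconv_map]
    exact Finset.sum_congr rfl (fun a _ => by simp [ih i (Finset.mem_range.1 hi), acoef_map hp])

end map

lemma kappa_of_acoef {x' : Fin r → Matrix V V ℂ} {p' : V → Fin r → ℝ} {S : Finset V}
    (h : ∀ T ⊆ S, ∀ j, acoef x p j T = acoef x' p' j T) (k : ℕ) :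
    kappa x p k S = kappa x' p' k S := by
  induction k using Nat.strong_induction_on generalizing S with
  | h k ih =>
    rw [kappa_eq, kappa_eq, h S le_rfl]
    congr 1
    refine Finset.sum_congr rfl (fun i hi => Finset.sum_congr rfl (fun a ha => ?_))
    simp only [Finset.mem_filter, Finset.mem_product, Finset.mem_powerset] at ha
    rw [ih i (Finset.mem_range.1 hi) (fun T hT => h T (hT.trans ha.1.1)), h _ ha.1.2]

lemma pkap_of_acoef {x' : Fin r → Matrix V V ℂ} {p' : V → Fin r → ℝ} {S : Finset V}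
    (h : ∀ T ⊆ S, ∀ j, acoef x p j T = acoef x' p' j T) (k : ℕ) :
    pkap x p ψ k S = pkap x' p' ψ k S := by
  induction k using Nat.strong_induction_on generalizing S with
  | h k ih =>
    rw [pkap_eq, pkap_eq]
    congr 1
    · unfold bcoef
      rw [h _ (Finset.erase_subset _ _)]
    refine Finset.sum_congr rfl (fun i hi => Finset.sum_congr rfl (fun a ha => ?_))
    simp only [Finset.mem_filter, Finset.mem_product, Finset.mem_powerset] at ha
    rw [ih i (Finset.mem_range.1 hi) (fun T hT => h T (hT.trans ha.1.1)), h _ ha.1.2]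

/-- Conjugation by a diagonal unitary does not change the coefficients. -/
lemma acoef_phase {x' : Fin r → Matrix V V ℂ} {T : Finset V} (d : V → ℂ) (hd : ∀ v ∈ T, ‖d v‖ = 1)
    (hx : ∀ c, ∀ i ∈ T, ∀ j ∈ T, x' c i j = d i * starRingEnd ℂ (d j) * x c i j) (j : ℕ) :
    acoef x' p j T = acoef x p j T := by
  unfold acoef ecoef
  split_ifs
  swap
  · rfl
  simp only [mix]
  refine Finset.sum_congr rfl (fun f _ => congrArg _ (Finset.prod_congr rfl (fun c _ => ?_)))
  generalize (∅ : Finset {v // v ∈ T}) ∪ Finset.univ.filter (fun u => f u = c) = S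
  set D : Matrix {v // v ∈ T} {v // v ∈ T} ℂ := Matrix.diagonal fun i => if i ∈ S then d i.1 else 1
  set D' : Matrix {v // v ∈ T} {v // v ∈ T} ℂ :=
    Matrix.diagonal fun i => if i ∈ S then starRingEnd ℂ (d i.1) else 1
  have hunit : ∀ i : {v // v ∈ T}, d i.1 * starRingEnd ℂ (d i.1) = 1 := fun i => by
    rw [Complex.mul_conj, Complex.normSq_eq_norm_sq, hd _ i.2]; simp
  have e : minorMat (sub x' Subtype.val c) ((0 : Fin r → {v // v ∈ T} → ℂ) c) S
      = D * minorMat (sub x Subtype.val c) ((0 : Fin r → {v // v ∈ T} → ℂ) c) S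
        * D' := by
    refine Matrix.ext (fun i l => ?_)
    rw [Matrix.mul_assoc, Matrix.diagonal_mul, Matrix.mul_diagonal]
    by_cases hi : i ∈ S <;> by_cases hl : l ∈ S <;> by_cases hil : i = l
    all_goals simp_all [minorMat, sub]
    all_goals first
      | ring1
      | linear_combination (-(x c l.1 l.1)) * (hunit l.1 l.2)
  rw [e, Matrix.det_mul, Matrix.det_mul]
  have hDD : D.det * D'.det = 1 := by
    rw [Matrix.det_diagonal, Matrix.det_diagonal, ← Finset.prod_mul_distrib]
    exact Finset.prod_eq_one (fun i _ => by split_ifs <;> simp [hunit])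
  rw [mul_right_comm, hDD, one_mul]

/-- Ball of radius `n` for a neighbourhood map. -/
def nball (nb : V → Finset V) : ℕ → V → Finset V
  | 0, ψ => {ψ}
  | n + 1, ψ => (nball nb n ψ).biUnion nb

/-- `nb` is a symmetric neighbourhood map containing the support of `x`. -/
structure Banded (x : Fin r → Matrix V V ℂ) (nb : V → Finset V) : Prop where
  refl : ∀ v, v ∈ nb v
  symm : ∀ v w, w ∈ nb v → v ∈ nb w
  supp : ∀ c v w, x c v w ≠ 0 → w ∈ nb v

variable {nb : V → Finset V}

lemma mem_nball_self (hb : Banded x nb) (n : ℕ) (ψ : V) : ψ ∈ nball nb n ψ := by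
  induction n with
  | zero => simp [nball]
  | succ n ih => exact Finset.mem_biUnion.2 ⟨ψ, ih, hb.refl ψ⟩

lemma nball_mono (hb : Banded x nb) {m n : ℕ} (h : m ≤ n) (ψ : V) :
    nball nb m ψ ⊆ nball nb n ψ := by
  induction h with
  | refl => exact le_rfl
  | step _ ih => exact ih.trans (fun v hv => Finset.mem_biUnion.2 ⟨v, hv, hb.refl v⟩)

lemma nball_trans {m n : ℕ} {ψ φ χ : V} (h1 : φ ∈ nball nb m ψ) (h2 : χ ∈ nball nb n φ) :
    χ ∈ nball nb (m + n) ψ := by
  induction n generalizing χ with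
  | zero => simp only [nball, Finset.mem_singleton] at h2; exact h2 ▸ h1
  | succ n ih =>
    obtain ⟨w, hw, hχ⟩ := Finset.mem_biUnion.1 h2
    exact Finset.mem_biUnion.2 ⟨w, ih hw, hχ⟩

lemma nball_one {ψ φ : V} : φ ∈ nball nb 1 ψ ↔ φ ∈ nb ψ := by simp [nball]

lemma nball_symm (hb : Banded x nb) {n : ℕ} {ψ φ : V} (h : φ ∈ nball nb n ψ) :
    ψ ∈ nball nb n φ := by
  induction n generalizing φ with
  | zero => simp only [nball, Finset.mem_singleton] at h ⊢; exact h.symm
  | succ n ih =>
    obtain ⟨w, hw, hφ⟩ := Finset.mem_biUnion.1 h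
    have h1 : w ∈ nball nb 1 φ := nball_one.2 (hb.symm _ _ hφ)
    have := nball_trans h1 (ih hw)
    rwa [Nat.add_comm] at this

/-- A function vanishing on separated sets is supported in a ball. -/
lemma subset_nball (hb : Banded x nb) {S : Finset V} (hψ : ψ ∈ S) {k : ℕ} (hk : S.card ≤ k + 1)
    (hsep : ∀ A B, A ∪ B = S → Separated x A B → ψ ∈ A → B.Nonempty → False) :
    S ⊆ nball nb k ψ := by
  have step : ∀ j, S ⊆ nball nb j ψ ∨ j + 1 ≤ (S ∩ nball nb j ψ).card := by
    intro j
    induction j with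
    | zero =>
      exact Or.inr (Finset.card_pos.2 ⟨ψ, Finset.mem_inter.2 ⟨hψ, mem_nball_self hb 0 ψ⟩⟩)
    | succ j ih =>
      rcases ih with h | h
      · exact Or.inl (h.trans (nball_mono hb (Nat.le_succ j) ψ))
      by_cases hS : S ⊆ nball nb (j + 1) ψ
      · exact Or.inl hS
      refine Or.inr ?_
      have hsub : S ∩ nball nb j ψ ⊆ S ∩ nball nb (j + 1) ψ :=
        Finset.inter_subset_inter_left (nball_mono hb (Nat.le_succ j) ψ)
      by_contra hlt
      have heq : S ∩ nball nb j ψ = S ∩ nball nb (j + 1) ψ :=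
        Finset.eq_of_subset_of_card_le hsub (by omega)
      refine hsep (S ∩ nball nb (j + 1) ψ) (S \ nball nb (j + 1) ψ) ?_ ⟨?_, ?_⟩
        (Finset.mem_inter.2 ⟨hψ, mem_nball_self hb _ ψ⟩) (Finset.sdiff_nonempty.2 hS)
      · ext v; simp only [Finset.mem_union, Finset.mem_inter, Finset.mem_sdiff]; tauto
      · rw [Finset.disjoint_left]
        intro v hv hv'
        exact (Finset.mem_sdiff.1 hv').2 (Finset.mem_inter.1 hv).2
      · intro i hi l hl
        rw [← heq] at hi
        have hl' := (Finset.mem_sdiff.1 hl).2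
        refine fun c => ⟨?_, ?_⟩
        · by_contra hne
          exact hl' (Finset.mem_biUnion.2 ⟨i, (Finset.mem_inter.1 hi).2, hb.supp c _ _ hne⟩)
        · by_contra hne
          exact hl' (Finset.mem_biUnion.2
            ⟨i, (Finset.mem_inter.1 hi).2, hb.symm _ _ (hb.supp c _ _ hne)⟩)
  rcases step k with h | h
  · exact h
  · have : S ∩ nball nb k ψ = S := Finset.eq_of_subset_of_card_le Finset.inter_subset_left
      (by omega)
    exact Finset.inter_eq_left.1 this

lemma pkap_support (hp : ∀ v, ∑ c, p v c = 1) (hb : Banded x nb) {k : ℕ} {S : Finset V}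
    (h : pkap x p ψ k S ≠ 0) : ψ ∈ S ∧ S ⊆ nball nb k ψ := by
  have hψ : ψ ∈ S := by
    by_contra hn
    exact h (pkap_notMem hn)
  refine ⟨hψ, subset_nball hb hψ ?_ (fun A B e hs hA hB => h (e ▸ pkap_separated hp hs hA hB k))⟩
  by_contra hc
  exact h (pkap_card (by omega))

lemma kappa_support (hp : ∀ v, ∑ c, p v c = 1) (hb : Banded x nb) {k : ℕ} {S : Finset V}
    (h : kappa x p k S ≠ 0) (hψ : ψ ∈ S) : S ⊆ nball nb k ψ := by
  refine subset_nball hb hψ ?_ (fun A B e hs hA hB =>
    h (e ▸ kappa_separated hp hs ⟨ψ, hA⟩ hB k))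
  by_contra hc
  exact h (kappa_card (by omega))

end Vale.Agent.P078.Mss2
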