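import Vale.Agent.P078.Mss2.Signed
import Vale.Agent.P078.Mss2.Arrow

/-!
# Removing a sign lowers even power sums

Two monic polynomials `ρ, σ` with `Im w ≤ Im (σ/τ) ≤ Im (ρ/τ)` on the upper half-plane are
characteristic polynomials of arrow matrices over `τ` with nested borders, so the even power
sums of `σ` are below those of `ρ`.
-/

namespace Vale.Agent.P078.Mss2

open Vale.Agent.P078.Mss

open Finset Matrix Polynomial Filter Topology

section Residues

variable {ι : Type*}

/-- The limit of a Herglotz quotient at a root, in every direction of the upper half-plane. -/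
lemma residue_dir (s : Finset ι) (τ : ι → ℝ) (P : ℝ[X]) (lam : ℝ)
    (h : ∀ w : ℂ, 0 < w.im → (aeval w P / ∏ j ∈ s, (w - τ j)).im ≤ 0) {u : ℂ} (hu : 0 < u.im) :
    P.eval lam / (∏ j ∈ s.filter (fun j => τ j ≠ lam), (lam - τ j))
      * ((u ^ (s.filter (fun j => τ j = lam)).card)⁻¹).im ≤ 0 := by
  set m := (s.filter (fun j => τ j = lam)).card with hm
  set H : ℂ → ℂ := fun z => ∏ j ∈ s.filter (fun j => τ j ≠ lam), (z - τ j) with hH
  set f : ℝ → ℂ := fun ε => aeval ((lam : ℂ) + ε * u) P / H ((lam : ℂ) + ε * u) * (u ^ m)⁻¹ with hf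
  have hH0 : H (lam : ℂ) ≠ 0 := Finset.prod_ne_zero_iff.2 (fun j hj => by
    rw [sub_ne_zero]
    exact_mod_cast (Finset.mem_filter.1 hj).2.symm)
  have hf0 : f 0 = ((P.eval lam / (∏ j ∈ s.filter (fun j => τ j ≠ lam), (lam - τ j)) : ℝ) : ℂ)
      * (u ^ m)⁻¹ := by
    simp only [f, H, Complex.ofReal_zero, zero_mul, add_zero, Complex.ofReal_div,
      Complex.ofReal_prod, Complex.ofReal_sub]
    rw [← Complex.coe_algebraMap, Polynomial.aeval_algebraMap_apply_eq_algebraMap_eval]
  have hcont : ContinuousAt f 0 := by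
    refine ((Continuous.continuousAt ?_).div (Continuous.continuousAt ?_) ?_).mul continuousAt_const
    · exact (Polynomial.continuous_aeval P).comp (by fun_prop)
    · exact continuous_finsetProd _ (fun j _ => by fun_prop)
    · simpa [H] using hH0
  have hneg : ∀ᶠ ε in 𝓝[>] (0 : ℝ), (f ε).im ≤ 0 := by
    filter_upwards [self_mem_nhdsWithin] with ε hε
    rw [Set.mem_Ioi] at hε
    have hw : 0 < ((lam : ℂ) + ε * u).im := by
      simp only [Complex.add_im, Complex.ofReal_im, Complex.im_ofReal_mul, zero_add]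
      exact mul_pos hε hu
    have h1 := h _ hw
    rw [← Finset.prod_filter_mul_prod_filter_not s (fun j => τ j = lam),
      Finset.prod_congr rfl (g := fun _ => (ε : ℂ) * u) (fun j hj => by
        rw [(Finset.mem_filter.1 hj).2]; ring), Finset.prod_const, ← hm] at h1
    have e : aeval ((lam : ℂ) + ε * u) P / (((ε : ℂ) * u) ^ m * H ((lam : ℂ) + ε * u))
        = (((ε ^ m)⁻¹ : ℝ) : ℂ) * f ε := by
      simp only [f]
      push_cast
      rw [mul_pow]
      simp only [div_eq_mul_inv, mul_inv]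
      ring
    change (aeval ((lam : ℂ) + ε * u) P / (((ε : ℂ) * u) ^ m * H ((lam : ℂ) + ε * u))).im ≤ 0 at h1
    rw [e, Complex.im_ofReal_mul] at h1
    exact nonpos_of_mul_nonpos_right h1 (by positivity) |>.trans le_rfl
  have h2 := le_of_tendsto ((Complex.continuous_im.continuousAt.comp hcont).tendsto.mono_left
    nhdsWithin_le_nhds) hneg
  simp only [Function.comp_apply, hf0, Complex.im_ofReal_mul] at h2
  exact h2

lemma im_exp_mul_I_pos {θ : ℝ} (h1 : 0 < θ) (h2 : θ < Real.pi) :
    0 < (Complex.exp ((θ : ℂ) * Complex.I)).im := by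
  rw [Complex.exp_ofReal_mul_I_im]
  exact Real.sin_pos_of_pos_of_lt_pi h1 h2

/-- Partial fractions of a Herglotz quotient with real poles, repeated poles allowed. -/
theorem exists_residues [DecidableEq ι] (τ : ι → ℝ) (s : Finset ι) : ∀ P : ℝ[X], P.degree < (s.card : ℕ) →
    (∀ w : ℂ, 0 < w.im → (aeval w P / ∏ j ∈ s, (w - τ j)).im ≤ 0) →
    ∃ β : ι → ℝ, (∀ i, 0 ≤ β i) ∧
      P = ∑ i ∈ s, C (β i) * ∏ j ∈ s.erase i, (X - C (τ j)) := by
  induction s using Finset.strongInduction with
  | H s ih =>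
  intro P hdeg h
  by_cases hinj : Set.InjOn τ s
  · refine ⟨fun i => if i ∈ s then P.eval (τ i) / ∏ j ∈ s.erase i, (τ i - τ j) else 0,
      fun i => ?_, ?_⟩
    · dsimp only
      split_ifs with hi
      swap
      · exact le_rfl
      have h1 := residue_dir s τ P (τ i) h (u := Complex.I) (by simp)
      have e1 : s.filter (fun j => τ j ≠ τ i) = s.erase i := by
        ext j
        simp only [Finset.mem_filter, Finset.mem_erase]
        exact ⟨fun hj => ⟨fun e => hj.2 (e ▸ rfl), hj.1⟩,
          fun hj => ⟨hj.2, fun e => hj.1 (hinj hj.2 hi e)⟩⟩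
      have e2 : s.filter (fun j => τ j = τ i) = {i} := by
        ext j
        simp only [Finset.mem_filter, Finset.mem_singleton]
        exact ⟨fun hj => hinj hj.1 hi hj.2, fun e => ⟨e ▸ hi, e ▸ rfl⟩⟩
      rw [e1, e2, Finset.card_singleton, pow_one, Complex.inv_I, Complex.neg_im, Complex.I_im]
        at h1
      linarith
    · conv_lhs => rw [Lagrange.eq_interpolate hinj hdeg, Lagrange.interpolate_apply]
      refine Finset.sum_congr rfl (fun i hi => ?_)
      simp only [if_pos hi]
      rw [Lagrange.basis]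
      simp only [Lagrange.basisDivisor, Finset.prod_mul_distrib, ← map_prod, ← mul_assoc,
        ← map_mul, Finset.prod_inv_distrib, div_eq_mul_inv]
  · obtain ⟨i, hi, k, hk, hτ, hik⟩ : ∃ i ∈ s, ∃ k ∈ s, τ i = τ k ∧ i ≠ k := by
      simp only [Set.InjOn, Finset.mem_coe] at hinj
      push Not at hinj
      obtain ⟨i, hi, k, hk, h1, h2⟩ := hinj
      exact ⟨i, hi, k, hk, h1, h2⟩
    set lam := τ i with hlam
    set T := s.filter (fun j => τ j = lam) with hT
    have hm : 2 ≤ T.card := by
      exact Finset.one_lt_card.2 ⟨i, Finset.mem_filter.2 ⟨hi, rfl⟩, k,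
        Finset.mem_filter.2 ⟨hk, hτ.symm⟩, hik⟩
    set d := P.eval lam / (∏ j ∈ s.filter (fun j => τ j ≠ lam), (lam - τ j)) with hd
    have hm' : (2 : ℝ) ≤ T.card := by exact_mod_cast hm
    have hdir : ∀ a : ℝ, 0 < a → a < 2 →
        d * ((Complex.exp ((a * Real.pi : ℝ) * Complex.I))⁻¹).im ≤ 0 := by
      intro a ha ha2
      have h1 := residue_dir s τ P lam h
        (u := Complex.exp ((a * Real.pi / T.card : ℝ) * Complex.I))
        (im_exp_mul_I_pos (by positivity) (by
          rw [div_lt_iff₀ (by linarith)]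
          nlinarith [Real.pi_pos]))
      rw [← hT, ← hd, ← Complex.exp_nat_mul] at h1
      have hne : (T.card : ℂ) ≠ 0 := by exact_mod_cast (show T.card ≠ 0 by omega)
      convert h1 using 5
      push_cast
      field_simp
    have hd0 : d = 0 := by
      have h1 := hdir (1 / 2) (by norm_num) (by norm_num)
      have h2 := hdir (3 / 2) (by norm_num) (by norm_num)
      rw [← Complex.exp_neg, ← neg_mul, ← Complex.ofReal_neg, Complex.exp_ofReal_mul_I_im,
        Real.sin_neg] at h1 h2
      rw [show (1 / 2 : ℝ) * Real.pi = Real.pi / 2 by ring, Real.sin_pi_div_two] at h1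
      rw [show (3 / 2 : ℝ) * Real.pi = Real.pi / 2 + Real.pi by ring, Real.sin_add_pi,
        Real.sin_pi_div_two] at h2
      linarith
    have hroot : P.IsRoot lam := by
      rcases div_eq_zero_iff.1 hd0 with h0 | h0
      · exact h0
      · exact absurd h0 (Finset.prod_ne_zero_iff.2 (fun j hj =>
          sub_ne_zero.2 (Finset.mem_filter.1 hj).2.symm))
    obtain ⟨P', rfl⟩ := Polynomial.dvd_iff_isRoot.2 hroot
    have hcard : (s.erase i).card + 1 = s.card := Finset.card_erase_add_one hi
    have hdeg' : P'.degree < ((s.erase i).card : ℕ) := by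
      rcases eq_or_ne P' 0 with rfl | hne
      · rw [Polynomial.degree_zero]; exact WithBot.bot_lt_coe _
      · rw [Polynomial.degree_eq_natDegree hne]
        rw [Polynomial.degree_eq_natDegree (mul_ne_zero (X_sub_C_ne_zero lam) hne),
          natDegree_mul (X_sub_C_ne_zero lam) hne, natDegree_X_sub_C] at hdeg
        have : 1 + P'.natDegree < s.card := by exact_mod_cast hdeg
        exact_mod_cast (show P'.natDegree < (s.erase i).card by omega)
    have h' : ∀ w : ℂ, 0 < w.im → (aeval w P' / ∏ j ∈ s.erase i, (w - τ j)).im ≤ 0 := by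
      intro w hw
      have h1 := h w hw
      have hne : w - (lam : ℂ) ≠ 0 := fun e => hw.ne' (by simpa using congrArg Complex.im e)
      rw [map_mul, map_sub, aeval_X, aeval_C, ← Finset.mul_prod_erase s _ hi, ← hlam,
        Complex.coe_algebraMap, mul_div_mul_left _ _ hne] at h1
      exact h1
    obtain ⟨β, hβ, hP⟩ := ih (s.erase i) (Finset.erase_ssubset hi) P' hdeg' h'
    refine ⟨Function.update β i 0, fun j => ?_, ?_⟩
    · by_cases hj : j = i
      · subst hj; simp
      · rw [Function.update_of_ne hj]; exact hβ j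
    · rw [hP, Finset.mul_sum, ← Finset.add_sum_erase s _ hi, Function.update_self, map_zero,
        zero_mul, zero_add]
      refine Finset.sum_congr rfl (fun j hj => ?_)
      obtain ⟨hji, hjs⟩ := Finset.mem_erase.1 hj
      rw [Function.update_of_ne hji,
        ← Finset.mul_prod_erase (s.erase j) _ (Finset.mem_erase.2 ⟨hji.symm, hi⟩),
        Finset.erase_right_comm, ← hlam]
      ring

end Residues

variable {n : ℕ}

lemma aeval_prodX (ρ : Fin n → ℝ) (w : ℂ) : aeval w (∏ i, (X - C (ρ i))) = rootProd ρ w := by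
  simp [rootProd]

/-- Two monic polynomials with the same root sum differ in degree below `n`. -/
lemma degree_sub_lt' {p q : ℝ[X]} (hp : p.Monic) (hq : q.Monic) (hpn : p.natDegree = n + 1)
    (hqn : q.natDegree = n + 1) (h : p.nextCoeff = q.nextCoeff) : (p - q).degree < (n : ℕ) := by
  rw [Polynomial.degree_lt_iff_coeff_zero]
  intro m hm
  rw [coeff_sub, sub_eq_zero]
  rcases Nat.lt_or_ge (n + 1) m with h1 | h1
  · rw [coeff_eq_zero_of_natDegree_lt (by omega), coeff_eq_zero_of_natDegree_lt (by omega)]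
  rcases Nat.eq_or_lt_of_le h1 with h2 | h2
  · have a := hp.coeff_natDegree
    have b := hq.coeff_natDegree
    rw [hpn] at a
    rw [hqn] at b
    rw [h2, a, b]
  · have h3 : m = n := by omega
    rw [nextCoeff_of_natDegree_pos (by omega), nextCoeff_of_natDegree_pos (by omega), hpn, hqn,
      Nat.add_sub_cancel] at h
    rw [h3, h]

lemma trace_arrow_pow {a v : Fin n → ℝ} {ρ : Fin (n + 1) → ℝ}
    (h : (arrow a v).charpoly = ∏ i, (X - C (ρ i))) (N : ℕ) :
    ((arrow a v) ^ N).trace = ∑ i, ρ i ^ N := by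
  have hA : (arrow a v).IsHermitian := by
    change (arrow a v)ᴴ = arrow a v
    rw [Matrix.conjTranspose_eq_transpose_of_trivial, arrow_transpose]
  have hE := hA.spectral_theorem
  simp only [Unitary.conjStarAlgAut_apply] at hE
  have h1 := congrArg Polynomial.roots (hA.charpoly_eq.symm.trans h)
  simp only [RCLike.ofReal_real_eq_id, id_eq, Finset.prod_eq_multiset_prod] at h1
  have hc : ∀ {κ : Type} [Fintype κ] (f : κ → ℝ),
      ((Finset.univ.val : Multiset κ).map fun i => X - C (f i)).prod.roots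
        = Finset.univ.val.map f := fun f => by
    rw [show (fun i => X - C (f i)) = (fun b : ℝ => X - C b) ∘ f from rfl, ← Multiset.map_map,
      roots_multiset_prod_X_sub_C]
  rw [hc, hc] at h1
  conv_lhs => rw [hE]
  rw [trace_conj_pow (Unitary.coe_star_mul_self hA.eigenvectorUnitary), Matrix.diagonal_pow,
    Matrix.trace_diagonal]
  have := congrArg (fun M => (M.map (· ^ N)).sum) h1
  simp only [Multiset.map_map, Function.comp_def, ← Finset.sum_eq_multiset_sum] at this
  simpa [Pi.pow_apply] using this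

/-- Ordered Herglotz quotients over the same base have ordered even power sums. -/
theorem pow_sum_le_of_im_le {M : ℕ} (hM : M = n + 1) (τ : Fin n → ℝ) (ρ σ : Fin M → ℝ)
    (hρ : ∑ i, ρ i = ∑ j, τ j) (hσ : ∑ i, σ i = ∑ j, τ j)
    (h1 : ∀ w : ℂ, 0 < w.im → w.im ≤ (rootProd σ w / rootProd τ w).im)
    (h2 : ∀ w : ℂ, 0 < w.im →
      (rootProd σ w / rootProd τ w).im ≤ (rootProd ρ w / rootProd τ w).im)
    {j : ℕ} (hj : 1 ≤ j) : ∑ i, σ i ^ (2 ^ j) ≤ ∑ i, ρ i ^ (2 ^ j) := by
  subst hM
  set T : ℝ[X] := ∏ i, (X - C (τ i)) with hT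
  set P : (Fin (n + 1) → ℝ) → ℝ[X] := fun α => X * T - ∏ i, (X - C (α i)) with hP
  have hTm : T.Monic := monic_prod_X_sub_C _ _
  have hTn : T.natDegree = n := by simp [T]
  have hdeg : ∀ α, ∑ i, α i = ∑ i, τ i → (P α).degree < (n : ℕ) := by
    intro α hα
    refine degree_sub_lt' (monic_X.mul hTm) (monic_prod_X_sub_C _ _) ?_ (by simp) ?_
    · rw [monic_X.natDegree_mul hTm, natDegree_X, hTn, add_comm]
    · rw [monic_X.nextCoeff_mul hTm, prod_X_sub_C_nextCoeff, prod_X_sub_C_nextCoeff, hα]
      simp [nextCoeff]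
  have hIm : ∀ α (w : ℂ), 0 < w.im →
      (aeval w (P α) / rootProd τ w).im = w.im - (rootProd α w / rootProd τ w).im := by
    intro α w hw
    simp only [P, map_sub, map_mul, aeval_X, T, aeval_prodX]
    rw [sub_div, mul_div_cancel_right₀ _ (rootProd_ne_zero τ hw.ne'), Complex.sub_im]
  obtain ⟨β, hβ0, hβ⟩ := exists_residues τ Finset.univ (P σ) (by simpa using hdeg σ hσ)
    (fun w hw => by
      change (aeval w (P σ) / rootProd τ w).im ≤ 0
      rw [hIm σ w hw]; linarith [h1 w hw])
  obtain ⟨δ, hδ0, hδ⟩ := exists_residues τ Finset.univ (P ρ - P σ)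
    (by simpa using lt_of_le_of_lt (degree_sub_le _ _) (max_lt (hdeg ρ hρ) (hdeg σ hσ)))
    (fun w hw => by
      change (aeval w (P ρ - P σ) / rootProd τ w).im ≤ 0
      rw [map_sub, sub_div, Complex.sub_im, hIm ρ w hw, hIm σ w hw]; linarith [h2 w hw])
  have hchar : ∀ α (γ : Fin n → ℝ), (∀ i, 0 ≤ γ i) →
      P α = ∑ i, C (γ i) * ∏ k ∈ Finset.univ.erase i, (X - C (τ k)) →
      (arrow τ fun i => Real.sqrt (γ i)).charpoly = ∏ i, (X - C (α i)) := by
    intro α γ hγ hPα
    rw [arrow_charpoly]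
    simp only [Real.sq_sqrt (hγ _), ← hPα, P, T]
    ring
  have hcσ := hchar σ β hβ0 hβ
  have hcρ := hchar ρ (fun i => β i + δ i) (fun i => add_nonneg (hβ0 i) (hδ0 i)) (by
    calc P ρ = P σ + (P ρ - P σ) := by ring
      _ = _ := by rw [hδ, hβ, ← Finset.sum_add_distrib]; simp [add_mul])
  rw [← trace_arrow_pow hcσ, ← trace_arrow_pow hcρ]
  exact arrow_moment_le τ _ _ (fun i => Real.sqrt_nonneg _)
    (fun i => Real.sqrt_le_sqrt (le_add_of_nonneg_right (hδ0 i))) hj

variable {V : Type*} [DecidableEq V] {r : ℕ}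

/-- With zero diagonals the first coefficient vanishes. -/
lemma acoef_one {x : Fin r → Matrix V V ℂ} (h0 : ∀ c i, x c i i = 0) (p : V → Fin r → ℝ)
    (S : Finset V) : acoef x p 1 S = 0 := by
  unfold acoef ecoef
  split_ifs with hS
  swap
  · rfl
  obtain ⟨v, rfl⟩ := Finset.card_eq_one.1 hS
  rw [show (0 : Fin r → {a // a ∈ ({v} : Finset V)} → ℂ) = fun _ => 0 from rfl, mix_eq_pinched]
  refine Finset.sum_eq_zero (fun f _ => ?_)
  rw [Matrix.det_eq_zero_of_row_eq_zero ⟨v, Finset.mem_singleton_self v⟩ (fun l => ?_), mul_zero]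
  have hl : l = ⟨v, Finset.mem_singleton_self v⟩ := Subtype.ext (Finset.mem_singleton.1 l.2)
  subst hl
  simp [minorMat, pinched, sub, h0]
  exact Subsingleton.elim _ _

variable [Fintype V]

/-- With zero diagonals the roots add up to zero. -/
lemma sum_roots_eq_zero {x : Fin r → Matrix V V ℂ} (h0 : ∀ c i, x c i i = 0) {p : V → Fin r → ℝ}
    {ρ : Fin (Fintype.card V) → ℝ}
    (hρ : ∀ k, 0 < k → ∑ S ∈ (Finset.univ : Finset V).powerset, kappa x p k S
        = ((∑ i, ρ i ^ k : ℝ) : ℂ)) : ∑ i, ρ i = 0 := by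
  have h := hρ 1 one_pos
  rw [Finset.sum_eq_zero (fun S _ => by
    rw [kappa_eq, Finset.sum_range_one, acoef_one h0]
    simp [uconv, kappa_zero])] at h
  simpa using (Complex.ofReal_eq_zero.1 h.symm)

/-- The roots of the configuration without `u`. -/
lemma exists_erase_roots [NeZero r] {x : Fin r → Matrix V V ℂ} (hx : ∀ c, NumBound (x c) 1)
    (h0 : ∀ c i, x c i i = 0) {p : V → Fin r → ℝ} (hp : ∀ v c, 0 ≤ p v c)
    (hp1 : ∀ v, ∑ c, p v c = 1) (u : V) :
    ∃ τ : Fin (Fintype.card V - 1) → ℝ, ∑ i, τ i = 0 ∧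
      ∀ w, mix x p (fun _ _ => w) (Finset.univ.erase u) (fun _ => ∅) = rootProd τ w := by
  classical
  have hn : 0 < Fintype.card V := Fintype.card_pos_iff.2 ⟨u⟩
  have hlead : (muErase x p u).coeff (Fintype.card V - 1) = 1 := by
    have h := coeff_muErase (x := x) (ψ := u) hp1 hn
    rw [Nat.sub_zero] at h
    rw [h]
    simp [atot, acoef_zero_eq hp1]
  have hdeg : (muErase x p u).natDegree ≤ Fintype.card V - 1 :=
    natDegree_sum_le_of_forall_le _ _ (fun R _ =>
      (natDegree_C_mul_X_pow_le _ _).trans (Nat.sub_le _ _))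
  have hne : ∀ s : ℂ, 0 < s.im → (muErase x p u).eval s ≠ 0 := fun s hs => by
    rw [eval_muErase hp1]
    exact (mix_stable hx (upper0 1) hp hp1 (Finset.univ.erase u) (fun _ _ => s)
      (fun _ _ => by simpa using hs) (fun _ => ∅) (fun _ => Finset.disjoint_empty_right _)).1
  obtain ⟨τ, -, hτ⟩ := real_rooted_form hdeg (by rw [hlead]; exact one_ne_zero) (fun s hs => by
    rcases lt_trichotomy s.im 0 with h | h | h
    · refine absurd ?_ (hne (starRingEnd ℂ s) (by simpa using h))
      have h1 := congrArg (starRingEnd ℂ) hs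
      rw [eval_muErase hp1, mix_conj (fun c => (hx c).1), map_zero] at h1
      rw [eval_muErase hp1]
      exact h1
    · exact h
    · exact absurd hs (hne s h))
  rw [hlead] at hτ
  refine ⟨τ, ?_, fun w => ?_⟩
  · rcases Nat.eq_zero_or_pos (Fintype.card V - 1) with h | h
    · exact Finset.sum_eq_zero (fun i _ => absurd i.isLt (by omega))
    · have h1 := coeff_muErase (x := x) (ψ := u) hp1 (show 1 < Fintype.card V by omega)
      rw [hτ, coeff_pred_prod _ h, atot, Finset.sum_eq_zero (fun S _ => acoef_one h0 p S)] at h1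
      have h2 : ((∑ i, τ i : ℝ) : ℂ) = 0 := by simpa using h1
      exact_mod_cast h2
  · rw [← eval_muErase hp1, hτ, eval_form, one_mul]

/-- A zero kernel multiplies by the variable. -/
lemma mix_adj_zero {x : Fin r → Matrix V V ℂ} {p : V → Fin r → ℝ} (hp1 : ∀ v, ∑ c, p v c = 1)
    {o : Fin r} (ho : x o = 0) (u : V) (w : ℂ) :
    mix x p (fun _ _ => w) (Finset.univ.erase u) (adj (fun _ => ∅) o u)
      = w * mix x p (fun _ _ => w) (Finset.univ.erase u) (fun _ => ∅) := by
  have h := mix_affine' (x := x) (z := fun _ _ => w) hp1 (Finset.univ.erase u) (fun _ => ∅) o u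
    (Finset.notMem_erase _ _) (Finset.notMem_empty _) w
  rw [show setVar (fun (_ : Fin r) (_ : V) => w) o u w = fun _ _ => w by simp [setVar]] at h
  rw [h, add_eq_left]
  refine Finset.sum_eq_zero (fun f _ => mul_eq_zero_of_right _
    (Finset.prod_eq_zero (Finset.mem_univ o) (Matrix.det_eq_zero_of_row_eq_zero u (fun l => ?_))))
  by_cases hl : l = u
  · subst hl; simp [minorMat, adj, setVar, ho]
  · simp [minorMat, adj, setVar, ho, Ne.symm hl]

/-- **Removing a sign lowers even power sums.** -/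
theorem remove_sign [NeZero r] {x : Matrix V V ℂ} (hx : NumBound x 1) (h0 : ∀ i, x i i = 0)
    (m : V → Option (Fin r × Bool)) {u : V} {c : Fin r} (hu : m u = some (c, false)) {j : ℕ}
    (hj : 1 ≤ j) :
    ∑ S : Finset V, kapPoly (tk r x) (claw (Function.update m u (some (c, true)))) (X ^ (2 ^ j)) S
      ≤ ∑ S : Finset V, kapPoly (tk r x) (claw m) (X ^ (2 ^ j)) S := by
  classical
  have := neZero_options (r := r)
  set m' := Function.update m u (some (c, true)) with hm'
  have hX := tk_bound (r := r) hx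
  have hX0 : ∀ (o : Fin (r * 3)) i, tk r x o i i = 0 := fun o i => by simp [tk, h0]
  obtain ⟨ρ, -, hρ, -, hρk⟩ := exists_roots hX (claw_nonneg m) (claw_sum m)
  obtain ⟨σ, -, hσ, -, hσk⟩ := exists_roots hX (claw_nonneg m') (claw_sum m')
  obtain ⟨τ, hτ0, hτ⟩ := exists_erase_roots hX hX0 (claw_nonneg m) (claw_sum m) u
  rw [sum_kapPoly _ hσk, sum_kapPoly _ hρk]
  simp only [eval_pow, eval_X, coeff_X_pow, if_neg (Nat.two_pow_pos j).ne, mul_zero, sub_zero]
  have hM : Fintype.card V = Fintype.card V - 1 + 1 := by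
    have := Fintype.card_pos_iff.2 ⟨u⟩; omega
  set K := fun (o : Fin (r * 3)) (w : ℂ) =>
    mix (tk r x) (claw m) (fun _ _ => w) (Finset.univ.erase u) (adj (fun _ => ∅) o u) with hK
  have huU : u ∉ (Finset.univ : Finset V).erase u := Finset.notMem_erase _ _
  have hexp : ∀ m₁ : V → Option (Fin r × Bool), (∀ v ≠ u, m₁ v = m v) → ∀ w,
      mix (tk r x) (claw m₁) (fun _ _ => w) Finset.univ (fun _ => ∅)
        = ∑ o, (claw m₁ u o : ℂ) * K o w := by
    intro m₁ h₁ w
    have h := mix_insert (x := tk r x) (z := fun _ _ => w) (claw_sum m₁) huU (fun _ => ∅)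
    rw [Finset.insert_erase (Finset.mem_univ u)] at h
    rw [h]
    refine Finset.sum_congr rfl (fun o _ => congrArg _ ?_)
    exact mix_p_congr (claw_sum m₁) (claw_sum m) (fun v hv => by
      simp [claw, h₁ v (Finset.ne_of_mem_erase hv)]) _
  set o₀ : Fin 3 → Fin (r * 3) := fun t => finProdFinEquiv (c, t) with ho₀
  have hold : ∀ w, rootProd ρ w = (1 / 2) * K (o₀ 0) w + (1 / 2) * K (o₀ 1) w := fun w => by
    rw [← hρ w, hexp m (fun _ _ => rfl), ← finProdFinEquiv.sum_comp, Fintype.sum_prod_type,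
      Finset.sum_eq_single c (fun d _ hd => by simp [claw, markLaw, hu, actLaw, hd]) (by simp)]
    simp [claw, markLaw, hu, actLaw, Fin.sum_univ_three, o₀]
  have hnew : ∀ w, rootProd σ w = (1 / 2) * K (o₀ 0) w + (1 / 2) * (w * rootProd τ w) :=
    fun w => by
    have hz : K (o₀ 2) w = w * rootProd τ w := by
      rw [← hτ w]
      exact mix_adj_zero (claw_sum m) (by simp [o₀, tk, sgn]) u w
    rw [← hσ w, hexp m' (fun v hv => Function.update_of_ne hv _ _), ← finProdFinEquiv.sum_comp,
      Fintype.sum_prod_type,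
      Finset.sum_eq_single c (fun d _ hd => by simp [claw, markLaw, m', finLaw, hd]) (by simp)]
    rw [← hz]
    simp [claw, markLaw, m', finLaw, Fin.sum_univ_three, o₀]
  have hq : ∀ o w, 0 < w.im → w.im ≤ (K o w / rootProd τ w).im := fun o w hw => by
    obtain ⟨-, hr⟩ := mix_stable hX (upper0 1) (claw_nonneg m) (claw_sum m)
      (Finset.univ.erase u) (fun _ _ => w) (fun _ _ => by simpa using hw) (fun _ => ∅)
      (fun _ => Finset.disjoint_empty_right _)
    have := hr o u huU (by simp)
    rw [upper0_ht, hτ w] at this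
    simpa [upper0, K, adj] using this
  have hhalf : ∀ a b : ℂ, ((1 / 2) * a + (1 / 2) * b).im = (a.im + b.im) / 2 := fun a b => by
    simp [Complex.mul_im]; ring
  refine pow_sum_le_of_im_le hM τ ρ σ ((sum_roots_eq_zero hX0 hρk).trans hτ0.symm)
    ((sum_roots_eq_zero hX0 hσk).trans hτ0.symm) (fun w hw => ?_) (fun w hw => ?_) hj
  · rw [hnew w, add_div, mul_div_assoc, mul_div_assoc,
      mul_div_cancel_right₀ _ (rootProd_ne_zero τ hw.ne'), hhalf]
    linarith [hq (o₀ 0) w hw]
  · rw [hnew w, hold w]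
    simp only [add_div, mul_div_assoc, div_self (rootProd_ne_zero τ hw.ne'), mul_one]
    rw [hhalf, hhalf]
    linarith [hq (o₀ 1) w hw]

end Vale.Agent.P078.Mss2
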