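import Vale.Agent.P078.Mss2.Cumulant

/-!
# Pointed cumulants: the local root measure at a vertex
-/

namespace Vale.Agent.P078.Mss2

open Vale.Agent.P078.Mss

open Finset Matrix

variable {V : Type*} [DecidableEq V] {r : ℕ}

/-- Coefficient of the minor which omits `ψ`. -/
noncomputable def bcoef (x : Fin r → Matrix V V ℂ) (p : V → Fin r → ℝ) (ψ : V) (k : ℕ) (S : Finset V) : ℂ :=
  if ψ ∈ S then acoef x p k (S.erase ψ) else 0

/-- The cumulant of the `k`-th moment of the root measure at `ψ`. -/
noncomputable def pkap (x : Fin r → Matrix V V ℂ) (p : V → Fin r → ℝ) (ψ : V) : ℕ → Finset V → ℂ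
  | k => fun S => bcoef x p ψ k S
      - ∑ i ∈ (Finset.range k).attach, uconv (pkap x p ψ i.1) (acoef x p (k - i.1)) S
decreasing_by exact Finset.mem_range.1 i.2

variable {x : Fin r → Matrix V V ℂ} {p : V → Fin r → ℝ} {ψ : V}

lemma pkap_eq (k : ℕ) (S : Finset V) :
    pkap x p ψ k S = bcoef x p ψ k S
      - ∑ i ∈ Finset.range k, uconv (pkap x p ψ i) (acoef x p (k - i)) S := by
  rw [pkap]
  simp only
  rw [Finset.sum_attach (Finset.range k) (fun i => uconv (pkap x p ψ i) (acoef x p (k - i)) S)]

lemma pkap_identity (hp : ∀ v, ∑ c, p v c = 1) (k : ℕ) (S : Finset V) :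
    ∑ i ∈ Finset.range (k + 1), uconv (pkap x p ψ i) (acoef x p (k - i)) S = bcoef x p ψ k S := by
  rw [Finset.sum_range_succ, Nat.sub_self, uconv_one _ _ hp, pkap_eq k S]
  ring

lemma pkap_zero (hp : ∀ v, ∑ c, p v c = 1) (S : Finset V) :
    pkap x p ψ 0 S = if S = {ψ} then 1 else 0 := by
  rw [pkap_eq, Finset.sum_range_zero, sub_zero, bcoef]
  by_cases h : S = {ψ}
  · subst h; simp [acoef, ecoef_empty hp]
  · by_cases hm : ψ ∈ S
    · have : S.erase ψ ≠ ∅ := fun h0 => h (by
        rw [← Finset.insert_erase hm, h0]; rfl)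
      simp [h, hm, acoef_zero_eq hp, this]
    · simp [h, hm]

lemma pkap_notMem {k : ℕ} {S : Finset V} (h : ψ ∉ S) : pkap x p ψ k S = 0 := by
  induction k using Nat.strong_induction_on generalizing S with
  | h k ih =>
    rw [pkap_eq, bcoef, if_neg h, zero_sub, neg_eq_zero]
    refine Finset.sum_eq_zero (fun i hi => Finset.sum_eq_zero (fun a ha => ?_))
    simp only [Finset.mem_filter, Finset.mem_product, Finset.mem_powerset] at ha
    rw [ih i (Finset.mem_range.1 hi) (fun h' => h (ha.1.1 h')), zero_mul]

lemma pkap_card {k : ℕ} {S : Finset V} (h : k + 1 < S.card) : pkap x p ψ k S = 0 := by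
  induction k using Nat.strong_induction_on generalizing S with
  | h k ih =>
    have hb : bcoef x p ψ k S = 0 := by
      rw [bcoef]
      split_ifs with hm
      · rw [acoef, if_neg]
        rw [Finset.card_erase_of_mem hm]
        omega
      · rfl
    rw [pkap_eq, hb, zero_sub, neg_eq_zero]
    refine Finset.sum_eq_zero (fun i hi => Finset.sum_eq_zero (fun a ha => ?_))
    simp only [Finset.mem_filter] at ha
    by_cases h2 : a.2.card = k - i
    · have h1 : i + 1 < a.1.card := by
        have := Finset.card_union_le a.1 a.2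
        rw [ha.2] at this
        have := Finset.mem_range.1 hi
        omega
      rw [ih i (Finset.mem_range.1 hi) h1, zero_mul]
    · simp [acoef, h2]

lemma acoef_congr {x' : Fin r → Matrix V V ℂ} {p' : V → Fin r → ℝ} {T : Finset V}
    (hx : ∀ c, ∀ i ∈ T, ∀ j ∈ T, x c i j = x' c i j) (hp : ∀ v ∈ T, p v = p' v) (j : ℕ) :
    acoef x p j T = acoef x' p' j T := by
  unfold acoef ecoef
  split_ifs
  · have e1 : sub x (Subtype.val : {v // v ∈ T} → V)
        = sub x' Subtype.val :=
      funext (fun c => Matrix.ext (fun a b => hx c _ a.2 _ b.2))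
    have e2 : (fun v : {v // v ∈ T} => p v.1) = fun v => p' v.1 :=
      funext (fun v => hp _ v.2)
    rw [e1, e2]
  · rfl

lemma pkap_congr {x' : Fin r → Matrix V V ℂ} {p' : V → Fin r → ℝ} {S : Finset V}
    (hx : ∀ c, ∀ i ∈ S, ∀ j ∈ S, x c i j = x' c i j) (hp : ∀ v ∈ S, p v = p' v) (k : ℕ) :
    pkap x p ψ k S = pkap x' p' ψ k S := by
  induction k using Nat.strong_induction_on generalizing S with
  | h k ih =>
    have hres : ∀ T ⊆ S, ∀ j, acoef x p j T = acoef x' p' j T := fun T hT j =>
      acoef_congr (fun c i hi j hj => hx c i (hT hi) j (hT hj)) (fun v hv => hp v (hT hv)) j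
    rw [pkap_eq, pkap_eq]
    congr 1
    · unfold bcoef
      rw [hres _ (Finset.erase_subset _ _)]
    refine Finset.sum_congr rfl (fun i hi => Finset.sum_congr rfl (fun a ha => ?_))
    simp only [Finset.mem_filter, Finset.mem_product, Finset.mem_powerset] at ha
    rw [ih i (Finset.mem_range.1 hi) (fun c a' h' b' h'' => hx c a' (ha.1.1 h') b' (ha.1.1 h''))
      (fun v hv => hp v (ha.1.1 hv)), hres _ ha.1.2]

/-- Only sets connected to `ψ` carry pointed cumulants. -/
theorem pkap_separated (hp : ∀ v, ∑ c, p v c = 1) {A B : Finset V} (h : Separated x A B)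
    (hψ : ψ ∈ A) (hB : B.Nonempty) (k : ℕ) : pkap x p ψ k (A ∪ B) = 0 := by
  induction k using Nat.strong_induction_on generalizing A B with
  | h k ih =>
    rw [pkap_eq]
    have side : ∀ i ∈ Finset.range k, uconv (pkap x p ψ i) (acoef x p (k - i)) (A ∪ B)
        = if B.card ≤ k - i then
            ecoef x p B * uconv (pkap x p ψ i) (acoef x p (k - i - B.card)) A else 0 := by
      intro i hi
      rw [← uconv_side hp h, uconv]
      refine (Finset.sum_filter_of_ne (fun a ha hne => ?_)).symm
      simp only [Finset.mem_filter, Finset.mem_product, Finset.mem_powerset] at ha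
      by_contra hsub
      refine hne ?_
      by_cases hψ1 : ψ ∈ a.1
      swap
      · rw [pkap_notMem hψ1, zero_mul]
      have e : a.1 = (a.1 ∩ A) ∪ (a.1 ∩ B) := by
        rw [← Finset.inter_union_distrib_left, Finset.inter_eq_left.2 ha.1.1]
      rw [e, ih i (Finset.mem_range.1 hi) ⟨h.1.mono Finset.inter_subset_right
        Finset.inter_subset_right, fun u hu v hv => h.2 u (Finset.mem_inter.1 hu).2 v
        (Finset.mem_inter.1 hv).2⟩ (Finset.mem_inter.2 ⟨hψ1, hψ⟩) ?_, zero_mul]
      rw [Finset.nonempty_iff_ne_empty]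
      intro h0
      exact hsub (by rw [e, h0, Finset.union_empty]; exact Finset.inter_subset_right)
    rw [Finset.sum_congr rfl side]
    have hb : 0 < B.card := Finset.card_pos.2 hB
    have hψB : ψ ∉ B := Finset.disjoint_left.1 h.1 hψ
    have hsep : Separated x (A.erase ψ) B :=
      ⟨h.1.mono_left (Finset.erase_subset _ _), fun i hi => h.2 i (Finset.mem_of_mem_erase hi)⟩
    have he : (A ∪ B).erase ψ = A.erase ψ ∪ B := by
      rw [Finset.erase_union_distrib, Finset.erase_eq_of_notMem hψB]
    have hc : (A.erase ψ ∪ B).card = (A.erase ψ).card + B.card :=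
      Finset.card_union_of_disjoint hsep.1
    rw [sub_eq_zero, bcoef, if_pos (Finset.mem_union_left B hψ), he, acoef, hc, ecoef_union hp hsep]
    by_cases hk : B.card ≤ k
    · trans ∑ i ∈ Finset.range (k - B.card + 1),
        ecoef x p B * uconv (pkap x p ψ i) (acoef x p (k - B.card - i)) A
      · rw [← Finset.mul_sum, pkap_identity hp, bcoef, if_pos hψ, acoef]
        split_ifs <;> first | ring1 | (exfalso; omega)
      · rw [← Finset.sum_filter]
        refine Finset.sum_congr ?_ (fun i hi => ?_)
        · ext i; simp only [Finset.mem_filter, Finset.mem_range]; omega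
        · simp only [Finset.mem_filter, Finset.mem_range] at hi
          rw [show k - i - B.card = k - B.card - i by omega]
    · rw [Finset.sum_eq_zero (fun i _ => if_neg (by omega)), if_neg (by omega)]

/-- The pointed cumulants add up to the cumulants. -/
theorem sum_pkap (hp : ∀ v, ∑ c, p v c = 1) (k : ℕ) (S : Finset V) :
    ∑ φ ∈ S, pkap x p φ k S = kappa x p k S + if k = 0 ∧ S.card = 1 then 1 else 0 := by
  induction k using Nat.strong_induction_on generalizing S with
  | h k ih =>
    rcases Nat.eq_zero_or_pos k with rfl | hk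
    · simp only [pkap_zero hp, kappa_zero, zero_add, true_and]
      by_cases h1 : S.card = 1
      · obtain ⟨a, rfl⟩ := Finset.card_eq_one.1 h1
        simp
      · rw [if_neg h1]
        refine Finset.sum_eq_zero (fun φ _ => if_neg (fun h => h1 ?_))
        rw [h]; simp
    rw [if_neg (fun h => by omega), add_zero, kappa_eq]
    simp only [pkap_eq (k := k), Finset.sum_sub_distrib]
    rw [Finset.sum_comm]
    have swap : ∀ i, ∑ φ ∈ S, uconv (pkap x p φ i) (acoef x p (k - i)) S
        = uconv (fun T => ∑ φ ∈ T, pkap x p φ i T) (acoef x p (k - i)) S := by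
      intro i
      simp only [uconv]
      rw [Finset.sum_comm]
      refine Finset.sum_congr rfl (fun a ha => ?_)
      simp only [Finset.mem_filter, Finset.mem_product, Finset.mem_powerset] at ha
      rw [Finset.sum_mul]
      exact (Finset.sum_subset ha.1.1 (fun φ _ h => by rw [pkap_notMem h, zero_mul])).symm
    simp only [swap]
    rw [Finset.range_eq_Ico, Finset.sum_eq_sum_Ico_succ_bot hk,
      Finset.sum_eq_sum_Ico_succ_bot hk]
    have rest : ∀ i ∈ Finset.Ico (0 + 1) k,
        uconv (fun T => ∑ φ ∈ T, pkap x p φ i T) (acoef x p (k - i)) S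
          = uconv (kappa x p i) (acoef x p (k - i)) S := fun i hi => by
      simp only [Finset.mem_Ico] at hi
      simp only [uconv]
      exact Finset.sum_congr rfl (fun a _ => by
        rw [ih i hi.2, if_neg (fun h => by omega), add_zero])
    rw [Finset.sum_congr rfl rest]
    have hz : uconv (kappa x p 0) (acoef x p (k - 0)) S = 0 :=
      Finset.sum_eq_zero (fun a _ => by rw [kappa_zero, zero_mul])
    rw [hz, zero_add]
    have hone : uconv (fun T => ∑ φ ∈ T, pkap x p φ 0 T) (acoef x p (k - 0)) S
        = (S.card : ℂ) * acoef x p k S + ∑ φ ∈ S, bcoef x p φ k S := by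
      rw [Nat.sub_zero, ← swap_zero hp k S]
      rw [← Nat.sub_zero k, ← swap 0, Nat.sub_zero]
    rw [hone]
    have hck : (S.card : ℂ) * acoef x p k S = (k : ℂ) * acoef x p k S := by
      unfold acoef
      split_ifs with h
      · rw [h]
      · simp
    rw [hck]
    ring
where
  swap_zero (hp : ∀ v, ∑ c, p v c = 1) (k : ℕ) (S : Finset V) :
      ∑ φ ∈ S, uconv (pkap x p φ 0) (acoef x p k) S
        = (S.card : ℂ) * acoef x p k S + ∑ φ ∈ S, bcoef x p φ k S := by
    have e : (S.card : ℂ) * acoef x p k S = ∑ _φ ∈ S, acoef x p k S := by simp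
    rw [e, ← Finset.sum_add_distrib]
    refine Finset.sum_congr rfl (fun φ hφ => ?_)
    rw [bcoef, if_pos hφ, uconv, Finset.sum_eq_add_of_mem ({φ}, S) ({φ}, S.erase φ)]
    · simp [pkap_zero hp]
    · simp [hφ]
    · simp [hφ, Finset.erase_subset, Finset.insert_erase hφ, Finset.singleton_union]
    · intro h
      have := congrArg Prod.snd h
      simp only at this
      exact (Finset.notMem_erase φ S) (this ▸ hφ)
    · intro a ha hne
      simp only [Finset.mem_filter, Finset.mem_product, Finset.mem_powerset] at ha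
      rw [pkap_zero hp]
      by_cases h1 : a.1 = {φ}
      · exfalso
        rcases Finset.eq_empty_or_nonempty ({φ} \ a.2) with h2 | h2
        · refine hne.1 (Prod.ext h1 ?_)
          rw [Finset.sdiff_eq_empty_iff_subset, Finset.singleton_subset_iff] at h2
          conv_rhs => rw [← ha.2, h1, Finset.singleton_union, Finset.insert_eq_of_mem h2]
        · refine hne.2 (Prod.ext h1 ?_)
          have h3 : φ ∉ a.2 := by
            obtain ⟨u, hu⟩ := h2
            simp only [Finset.mem_sdiff, Finset.mem_singleton] at hu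
            exact hu.1 ▸ hu.2
          conv_rhs => rw [← ha.2, h1, Finset.singleton_union, Finset.erase_insert h3]
      · simp [h1]

/-- The moments of the root measure at `ψ` in a window `U`. -/
lemma sum_pkap_identity (hp : ∀ v, ∑ c, p v c = 1) {U : Finset V} (hψ : ψ ∈ U) (k : ℕ) :
    ∑ i ∈ Finset.range (k + 1),
        (∑ S ∈ U.powerset, pkap x p ψ i S) * ∑ S ∈ U.powerset, acoef x p (k - i) S
      = ∑ S ∈ (U.erase ψ).powerset, acoef x p k S := by
  simp only [← sum_uconv]
  rw [Finset.sum_comm, Finset.sum_congr rfl (fun S _ => pkap_identity hp k S)]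
  simp only [bcoef]
  rw [← Finset.sum_filter]
  refine Finset.sum_nbij' (fun S => S.erase ψ) (fun S => insert ψ S) ?_ ?_ ?_ ?_ (fun S _ => rfl)
  all_goals intro S hS
  all_goals simp only [Finset.mem_coe, Finset.mem_filter, Finset.mem_powerset] at hS ⊢
  · exact Finset.erase_subset_erase _ hS.1
  · exact ⟨Finset.insert_subset hψ (hS.trans (Finset.erase_subset _ _)), Finset.mem_insert_self _ _⟩
  · exact Finset.insert_erase hS.2
  · exact Finset.erase_insert (fun h => Finset.notMem_erase ψ U (hS h))

end Vale.Agent.P078.Mss2
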