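import Vale.Agent.P078.Mss2.Flip
import Vale.Agent.P078.Mss2.Pointed
import Mathlib.RingTheory.PowerSeries.Derivative

/-!
# The root measure at a vertex lies below the largest root
-/

namespace Vale.Agent.P078.Mss2

open Vale.Agent.P078.Mss

open Finset Matrix Polynomial Filter Topology

/-- Newton's identities for a finite list of real roots. -/
lemma newton_roots {n : ℕ} (ρ : Fin n → ℝ) (A : ℕ → ℂ)
    (hA : ∀ j, A j = (-1) ^ j * (Finset.univ.val.map (fun i => ((ρ i : ℝ) : ℂ))).esymm j) (k : ℕ) :
    ∑ i ∈ Finset.range (k + 1),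
        (if i = 0 then 0 else ∑ l, ((ρ l : ℝ) : ℂ) ^ i) * A (k - i) = -(k : ℂ) * A k := by
  set m : Multiset ℂ := Finset.univ.val.map (fun i => ((ρ i : ℝ) : ℂ)) with hm
  rcases Nat.eq_zero_or_pos k with rfl | hk
  · simp
  have h2 := congrArg (MvPolynomial.aeval (fun i => ((ρ i : ℝ) : ℂ)))
    (MvPolynomial.psum_eq_mul_esymm_sub_sum (Fin n) ℤ k hk)
  simp only [map_sub, map_mul, map_pow, map_neg, map_one, map_natCast, map_sum,
    MvPolynomial.psum, MvPolynomial.aeval_X] at h2
  have h2' : ∀ j, MvPolynomial.aeval (fun i => ((ρ i : ℝ) : ℂ))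
      (MvPolynomial.esymm (Fin n) ℤ j) = m.esymm j :=
    fun j => MvPolynomial.aeval_esymm_eq_multiset_esymm (Fin n) ℤ j _
  simp only [h2'] at h2
  have h3 : ∑ i ∈ Finset.range k,
        (if i = 0 then 0 else ∑ l, ((ρ l : ℝ) : ℂ) ^ i) * A (k - i)
      = ∑ a ∈ Finset.HasAntidiagonal.antidiagonal k with a.1 ∈ Set.Ioo 0 k,
        (-1) ^ a.1 * m.esymm a.1 * ∑ i, ((ρ i : ℝ) : ℂ) ^ a.2 := by
    trans ∑ i ∈ (Finset.range k).filter (fun i => 0 < i),
      (if i = 0 then 0 else ∑ l, ((ρ l : ℝ) : ℂ) ^ i) * A (k - i)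
    · refine (Finset.sum_filter_of_ne (fun i _ hne' => ?_)).symm
      by_contra h0
      rw [not_lt, Nat.le_zero] at h0
      subst h0
      simp at hne'
    · refine Finset.sum_nbij' (fun i => (k - i, i)) (fun a => a.2) ?_ ?_ ?_ ?_ ?_
      · intro i hi
        simp only [Finset.mem_coe, Finset.mem_filter, Finset.mem_range] at hi ⊢
        exact ⟨Finset.HasAntidiagonal.mem_antidiagonal.2 (by dsimp only; omega),
          Set.mem_Ioo.2 ⟨by omega, by omega⟩⟩
      · intro a ha
        simp only [Finset.mem_coe, Finset.mem_filter, Finset.mem_range] at ha ⊢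
        obtain ⟨h5, h6, h7⟩ := ha
        have := Finset.HasAntidiagonal.mem_antidiagonal.1 h5
        omega
      · intro i _; rfl
      · intro a ha
        simp only [Finset.mem_coe, Finset.mem_filter] at ha
        have := Finset.HasAntidiagonal.mem_antidiagonal.1 ha.1
        exact Prod.ext (by simp only; omega) rfl
      · intro i hi
        simp only [Finset.mem_filter, Finset.mem_range] at hi
        rw [if_neg (by omega), hA]
        ring
  have hA0 : A 0 = 1 := by simp [hA, Multiset.esymm]
  rw [Finset.sum_range_succ, Nat.sub_self, hA0, mul_one, if_neg (by omega), h2, ← h3, hA k, pow_succ]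
  ring

variable {V : Type*} [Fintype V] [DecidableEq V] {r : ℕ}
variable {x : Fin r → Matrix V V ℂ} {p : V → Fin r → ℝ} {ψ : V}

/-- Total of the coefficients in a window. -/
noncomputable def atot (x : Fin r → Matrix V V ℂ) (p : V → Fin r → ℝ) (U : Finset V) (j : ℕ) : ℂ :=
  ∑ S ∈ U.powerset, acoef x p j S

/-- The moments of the root measure at `ψ`. -/
noncomputable def moment (x : Fin r → Matrix V V ℂ) (p : V → Fin r → ℝ) (ψ : V) (k : ℕ) : ℂ :=
  ∑ S : Finset V, pkap x p ψ k S

lemma moment_identity (hp1 : ∀ v, ∑ c, p v c = 1) (k : ℕ) :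
    ∑ i ∈ Finset.range (k + 1), moment x p ψ i * atot x p Finset.univ (k - i)
      = atot x p (Finset.univ.erase ψ) k := by
  have h := sum_pkap_identity (x := x) hp1 (Finset.mem_univ ψ) k
  simp only [Finset.powerset_univ] at h
  simp only [moment, atot, Finset.powerset_univ]
  exact h

/-- Expected polynomial of the configuration without `ψ`. -/
noncomputable def muErase (x : Fin r → Matrix V V ℂ) (p : V → Fin r → ℝ) (ψ : V) : ℂ[X] :=
  ∑ R ∈ (Finset.univ.erase ψ).powerset,
    Polynomial.C (mix x p 0 R (fun _ => ∅)) * X ^ (Fintype.card V - 1 - R.card)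

lemma eval_muErase (hp1 : ∀ v, ∑ c, p v c = 1) (w : ℂ) :
    (muErase x p ψ).eval w = mix x p (fun _ _ => w) (Finset.univ.erase ψ) (fun _ => ∅) := by
  classical
  let ι : {v // v ≠ ψ} ↪ V := Function.Embedding.subtype _
  have hU : (Finset.univ : Finset {v // v ≠ ψ}).map ι = Finset.univ.erase ψ := by
    ext v; simp [ι]
  have h := mix_embed (r := r) ι x hp1 (fun _ _ => w) Finset.univ (fun _ => ∅)
  simp only [Finset.map_empty, hU] at h
  rw [h, mix_expand, muErase, eval_finsetSum]
  symm
  refine Finset.sum_nbij' (fun R => R.map ι) (fun R => R.subtype (fun v => v ≠ ψ)) ?_ ?_ ?_ ?_ ?_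
  · intro R _
    simp only [Finset.mem_coe, Finset.mem_powerset]
    rw [← hU]
    exact Finset.map_subset_map.2 (Finset.subset_univ R)
  · intro R _; simp
  · intro R _
    ext v
    simp only [ι, Finset.mem_subtype, Finset.mem_map, Function.Embedding.coe_subtype]
    exact ⟨fun ⟨a, ha, e⟩ => Subtype.ext e ▸ ha, fun hv => ⟨v, hv, rfl⟩⟩
  · intro R hR
    simp only [Finset.mem_coe, Finset.mem_powerset] at hR
    ext v
    simp only [Finset.mem_map, Finset.mem_subtype, ι, Function.Embedding.coe_subtype]
    exact ⟨fun ⟨a, ha, e⟩ => e ▸ ha,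
      fun hv => ⟨⟨v, Finset.ne_of_mem_erase (hR hv)⟩, hv, rfl⟩⟩
  · intro R _
    have h2 := mix_embed (r := r) ι x hp1 0 R (fun _ => ∅)
    simp only [Finset.map_empty] at h2
    rw [eval_mul, eval_C, eval_pow, eval_X, h2, Finset.card_map,
      Fintype.card_subtype_compl, Fintype.card_subtype_eq, mul_comm]
    rfl

lemma coeff_muErase (hp1 : ∀ v, ∑ c, p v c = 1) {j : ℕ} (hj : j < Fintype.card V) :
    (muErase x p ψ).coeff (Fintype.card V - 1 - j) = atot x p (Finset.univ.erase ψ) j := by
  rw [muErase, finsetSum_coeff, atot]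
  refine Finset.sum_congr rfl (fun R hR => ?_)
  have hR' : R.card ≤ Fintype.card V - 1 := by
    have := Finset.card_le_card (Finset.mem_powerset.1 hR)
    rwa [Finset.card_erase_of_mem (Finset.mem_univ ψ), Finset.card_univ] at this
  rw [coeff_C_mul_X_pow, acoef]
  by_cases h : R.card = j
  · rw [if_pos (by omega), if_pos h]
    have := ecoef_eq (x := x) (p := p) hp1 (Function.Embedding.refl V) R
    rw [Finset.map_refl] at this
    rw [this]
    rfl
  · rw [if_neg (by omega), if_neg h]

/-- The coefficients after moving the variable of `ψ` by `t`. -/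
noncomputable def atotShift (x : Fin r → Matrix V V ℂ) (p : V → Fin r → ℝ) (ψ : V) (t : ℝ) : ℕ → ℂ
  | 0 => atot x p Finset.univ 0
  | j + 1 => atot x p Finset.univ (j + 1) + (t : ℂ) * atot x p (Finset.univ.erase ψ) j

theorem exists_shift_roots [NeZero r] (hx : ∀ c, NumBound (x c) 1) (hp : ∀ v c, 0 ≤ p v c)
    (hp1 : ∀ v, ∑ c, p v c = 1) {ρ : Fin (Fintype.card V) → ℝ} (hρm : Monotone ρ)
    (hρ : ∀ w, mix x p (fun _ _ => w) Finset.univ (fun _ => ∅) = rootProd ρ w) {t : ℝ}
    (ht : 0 < t) :
    ∃ σ : Fin (Fintype.card V) → ℝ, (∀ i, σ i ≤ ρ i) ∧ (∀ i, -1 - t ≤ σ i) ∧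
      ∀ k, ∑ i ∈ Finset.range (k + 1),
        (if i = 0 then 0 else ∑ l, ((σ l : ℝ) : ℂ) ^ i) * atotShift x p ψ t (k - i)
          = -(k : ℂ) * atotShift x p ψ t k := by
  classical
  have hn0 : 0 < (Fintype.card V) := Fintype.card_pos_iff.2 ⟨ψ⟩
  set F := muPoly x p + Polynomial.C (t : ℂ) * muErase x p ψ with hF
  have hmu : (muPoly x p).coeff (Fintype.card V) = 1 := by
    have h := coeff_muPoly (x := x) hp1 (Nat.zero_le (Fintype.card V))
    rw [Nat.sub_zero] at h
    rw [h]
    simp [acoef_zero_eq hp1]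
  have hEdeg : (muErase x p ψ).natDegree ≤ (Fintype.card V) - 1 :=
    natDegree_sum_le_of_forall_le _ _ (fun R _ =>
      (natDegree_C_mul_X_pow_le _ _).trans (Nat.sub_le _ _))
  have hEn : (muErase x p ψ).coeff (Fintype.card V) = 0 := coeff_eq_zero_of_natDegree_lt (by omega)
  have hFdeg : F.natDegree ≤ (Fintype.card V) := (natDegree_add_le _ _).trans (max_le natDegree_muPoly
    ((natDegree_C_mul_le _ _).trans (by omega)))
  have hFn : F.coeff (Fintype.card V) = 1 := by rw [hF, coeff_add, coeff_C_mul, hEn, mul_zero, add_zero, hmu]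
  set zt : ℂ → Fin r → V → ℂ := fun w _ v => if v = ψ then w + t else w with hzt
  have hFev : ∀ w, F.eval w = mix x p (zt w) Finset.univ (fun _ => ∅) := by
    intro w
    rw [hF, eval_add, eval_mul, eval_C, eval_muPoly, eval_muErase hp1]
    have hψU : ψ ∉ (Finset.univ : Finset V).erase ψ := Finset.notMem_erase _ _
    conv_rhs => rw [← Finset.insert_erase (Finset.mem_univ ψ), mix_insert hp1 hψU]
    conv_lhs => arg 1; rw [← Finset.insert_erase (Finset.mem_univ ψ), mix_insert hp1 hψU]
    have hsum : mix x p (fun _ _ => w) (Finset.univ.erase ψ) (fun _ => ∅)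
        = ∑ c, (p ψ c : ℂ) * mix x p (fun _ _ => w) (Finset.univ.erase ψ) (fun _ => ∅) := by
      rw [← Finset.sum_mul, ← Complex.ofReal_sum, hp1, Complex.ofReal_one, one_mul]
    rw [hsum, Finset.mul_sum, ← Finset.sum_add_distrib]
    refine Finset.sum_congr rfl (fun c _ => ?_)
    have e1 := mix_affine' (x := x) (z := fun (_ : Fin r) (_ : V) => w) hp1 (Finset.univ.erase ψ)
      (fun _ => ∅) c ψ hψU (Finset.notMem_empty _)
    have h1 := e1 w
    have h2 := e1 (w + t)
    have e2 : setVar (fun (_ : Fin r) (_ : V) => w) c ψ w = fun _ _ => w := by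
      funext d v
      by_cases hd : d = c
      · subst hd
        by_cases hv : v = ψ
        · subst hv; simp [setVar]
        · simp [setVar, Function.update_of_ne hv]
      · simp [setVar, Function.update_of_ne hd]
    rw [e2] at h1
    have e3 : mix x p (zt w) (Finset.univ.erase ψ) (adj (fun _ => ∅) c ψ)
        = mix x p (setVar (fun _ _ => w) c ψ (w + t)) (Finset.univ.erase ψ)
            (adj (fun _ => ∅) c ψ) := by
      refine mix_congr (fun d v hv => ?_)
      by_cases hd : d = c
      · subst hd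
        by_cases hv' : v = ψ
        · subst hv'; simp [zt, setVar]
        · simp [zt, setVar, Function.update_of_ne hv', hv']
      · have : v ≠ ψ := by
          rintro rfl
          rcases hv with hv | hv
          · exact hψU hv
          · simp [adj, Function.update_of_ne hd] at hv
        simp [zt, setVar, Function.update_of_ne hd, this]
    change _ = _ * mix x p (zt w) (Finset.univ.erase ψ) (adj (fun _ => ∅) c ψ)
    rw [e3, h2]
    change _ * mix x p (fun _ _ => w) (Finset.univ.erase ψ) (adj (fun _ => ∅) c ψ) + _ = _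
    rw [h1]
    ring
  have hne : ∀ (P : HalfPlane 1) (s : ℂ), 0 < P.ht s → 0 < P.ht (s + t) → F.eval s ≠ 0 := by
    intro P s h1 h2
    rw [hFev]
    exact (mix_stable hx P hp hp1 Finset.univ (zt s) (fun c v => by
      by_cases hv : v = ψ <;> simp only [zt, hv, if_true, if_false] <;> assumption) (fun _ => ∅)
      (fun _ => Finset.disjoint_empty_right _)).1
  have hroot : ∀ s : ℂ, F.eval s = 0 → s.im = 0 := by
    intro s hs
    rcases lt_trichotomy s.im 0 with h | h | h
    · refine absurd ?_ (hne (upper0 1) (starRingEnd ℂ s) (by simpa using h) (by simpa using h))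
      have h1 := congrArg (starRingEnd ℂ) hs
      rw [hFev, mix_conj (fun c => (hx c).1), map_zero] at h1
      rw [hFev, ← h1]
      congr 1
      funext c v
      by_cases hv : v = ψ <;> simp [zt, hv]
    · exact h
    · exact absurd hs (hne (upper0 1) s (by simpa using h) (by simpa using h))
  obtain ⟨σ, hσm, hσ⟩ := real_rooted_form hFdeg (by rw [hFn]; exact one_ne_zero) hroot
  rw [hFn, map_one, one_mul] at hσ
  have hσev : ∀ w, F.eval w = rootProd σ w := fun w => by
    rw [hσ, rootProd, eval_prod]; simp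
  -- the ratio of the two polynomials
  have hkey : ∀ w : ℂ, 0 < w.im → (rootProd σ w / rootProd ρ w).im < 0 := by
    intro w hw
    obtain ⟨hne0, hr⟩ := mix_stable hx (upper0 1) hp hp1 (Finset.univ.erase ψ) (fun _ _ => w)
      (fun _ _ => by simpa using hw) (fun _ => ∅) (fun _ => Finset.disjoint_empty_right _)
    set K0 := mix x p (fun _ _ => w) (Finset.univ.erase ψ) (fun _ => ∅)
    have hb : 0 < (rootProd ρ w / K0).im := by
      have h := mix_insert (x := x) (z := fun _ _ => w) hp1 (Finset.notMem_erase ψ Finset.univ)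
        (fun _ => ∅)
      rw [Finset.insert_erase (Finset.mem_univ ψ), hρ] at h
      rw [h, Finset.sum_div, Complex.im_sum]
      obtain ⟨c, hc⟩ : ∃ c, 0 < p ψ c := by
        by_contra hn'
        push Not at hn'
        have : ∑ c, p ψ c ≤ 0 := Finset.sum_nonpos (fun c _ => hn' c)
        linarith [hp1 ψ]
      have hq : ∀ d, 0 < (mix x p (fun _ _ => w) (Finset.univ.erase ψ)
          (Function.update (fun _ => ∅) d (insert ψ ((fun _ => (∅ : Finset V)) d))) / K0).im :=
        fun d => by
        have := hr d ψ (Finset.notMem_erase ψ _) (by simp)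
        rw [upper0_ht] at this
        simp only [upper0, one_mul] at this
        exact hw.trans_le this
      refine Finset.sum_pos' (fun d _ => ?_) ⟨c, Finset.mem_univ c, ?_⟩
      · rw [mul_div_assoc, Complex.im_ofReal_mul]; exact mul_nonneg (hp _ _) (hq d).le
      · rw [mul_div_assoc, Complex.im_ofReal_mul]; exact mul_pos hc (hq c)
    have hρ0 : rootProd ρ w ≠ 0 := rootProd_ne_zero _ hw.ne'
    have e : rootProd σ w / rootProd ρ w = 1 + (t : ℂ) * (rootProd ρ w / K0)⁻¹ := by
      rw [← hσev, hF, eval_add, eval_mul, eval_C, eval_muPoly, eval_muErase hp1, hρ, inv_div]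
      change (rootProd ρ w + (t : ℂ) * K0) / rootProd ρ w = _
      field_simp
    rw [e, Complex.add_im, Complex.one_im, zero_add, Complex.im_ofReal_mul, Complex.inv_im]
    refine mul_neg_of_pos_of_neg ht (div_neg_of_neg_of_pos (by linarith) (Complex.normSq_pos.2 ?_))
    intro h0
    rw [h0] at hb; simp at hb
  refine ⟨σ, fun i => le_of_above_le hρm hσm (fun s a b => above_mono one_pos
    (fun w hw => ?_) (fun w hw => (hkey w hw).le) a b) i, fun i => ?_, ?_⟩
  · rw [Complex.ofReal_one, one_mul, Complex.mem_slitPlane_iff]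
    exact Or.inr (hkey w hw).ne
  · by_contra hlt
    push Not at hlt
    refine hne (sidePlane (-1) (Or.inr rfl)) ((σ i : ℝ) : ℂ)
      (by simp [sidePlane, HalfPlane.ht]; linarith) (by simp [sidePlane, HalfPlane.ht]; linarith) ?_
    rw [hσev, rootProd]
    exact Finset.prod_eq_zero (Finset.mem_univ i) (sub_self _)
  refine newton_roots σ _ (fun j => ?_)
  set m : Multiset ℂ := Finset.univ.val.map (fun i => ((σ i : ℝ) : ℂ)) with hm
  have hcard : Multiset.card m = (Fintype.card V) := by simp [m]
  have hprod : F = (m.map fun t => X - Polynomial.C t).prod := by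
    rw [hσ, hm, Multiset.map_map]; rfl
  rcases le_or_gt j (Fintype.card V) with hj | hj
  · have h := Multiset.prod_X_sub_C_coeff (s := m) (k := (Fintype.card V) - j) (by omega)
    rw [← hprod, hcard, show (Fintype.card V) - ((Fintype.card V) - j) = j by omega] at h
    rw [← h, hF, coeff_add, coeff_C_mul, coeff_muPoly hp1 hj]
    cases j with
    | zero =>
      rw [Nat.sub_zero, hEn, mul_zero, add_zero]
      rfl
    | succ j =>
      rw [show (Fintype.card V) - (j + 1) = (Fintype.card V) - 1 - j by omega, coeff_muErase hp1 (by omega)]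
      rfl
  · rw [Multiset.esymm, Multiset.powersetCard_eq_empty _ (by omega)]
    simp only [Multiset.map_zero, Multiset.sum_zero, mul_zero]
    cases j with
    | zero => omega
    | succ j =>
      have z : ∀ (U : Finset V) (i : ℕ), U.card < i → atot x p U i = 0 := fun U i hi =>
        Finset.sum_eq_zero (fun S hS => by
          rw [acoef, if_neg]
          have := Finset.card_le_card (Finset.mem_powerset.1 hS)
          omega)
      rw [atotShift, z _ _ (by rw [Finset.card_univ]; omega), z _ _ (by
        rw [Finset.card_erase_of_mem (Finset.mem_univ ψ), Finset.card_univ]; omega), mul_zero,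
        add_zero]

lemma series_identity (A B H P L : ℕ → ℂ) (hA : A 0 = 1)
    (hB : ∀ k, ∑ i ∈ Finset.range (k + 1), H i * A (k - i) = B k)
    (hP : ∀ k, ∑ i ∈ Finset.range (k + 1), P i * A (k - i) = -(k : ℂ) * A k)
    (hL0 : ∑ i ∈ Finset.range 1, L i * A (0 - i) = 0)
    (hL : ∀ k, ∑ i ∈ Finset.range (k + 2), L i * A (k + 1 - i)
        + ∑ i ∈ Finset.range (k + 1), P i * B (k - i) = -((k : ℂ) + 1) * B k) (k : ℕ) :
    L (k + 1) = -((k : ℂ) + 1) * H k := by
  open PowerSeries in
  have conv : ∀ (f g : ℕ → ℂ) (m : ℕ), PowerSeries.coeff m (mk f * mk g)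
      = ∑ i ∈ Finset.range (m + 1), f i * g (m - i) := by
    intro f g m
    rw [PowerSeries.coeff_mul, Finset.Nat.sum_antidiagonal_eq_sum_range_succ
      (fun a b => PowerSeries.coeff a (mk f) * PowerSeries.coeff b (mk g))]
    simp
  open PowerSeries in
  have eB : PowerSeries.mk H * PowerSeries.mk A = PowerSeries.mk B := PowerSeries.ext (fun m => by rw [conv, hB]; simp)
  open PowerSeries in
  have eP : PowerSeries.mk P * PowerSeries.mk A = -(PowerSeries.X * d⁄dX ℂ (PowerSeries.mk A)) := PowerSeries.ext (fun m => by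
    rw [conv, hP, map_neg]
    cases m with
    | zero => simp
    | succ m => simp [PowerSeries.coeff_derivative]; ring)
  open PowerSeries in
  have eL : PowerSeries.mk L * PowerSeries.mk A + PowerSeries.X * (PowerSeries.mk P * PowerSeries.mk B)
      = -(PowerSeries.X * d⁄dX ℂ (PowerSeries.X * PowerSeries.mk B)) := PowerSeries.ext (fun m => by
    rw [map_add, map_neg]
    cases m with
    | zero => rw [conv]; simpa using hL0
    | succ m =>
      rw [PowerSeries.coeff_succ_X_mul, PowerSeries.coeff_succ_X_mul, conv, conv, PowerSeries.coeff_derivative, PowerSeries.coeff_succ_X_mul]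
      rw [PowerSeries.coeff_mk, hL m]
      ring)
  open PowerSeries in
  have e : PowerSeries.mk L = -(PowerSeries.X * d⁄dX ℂ (PowerSeries.X * PowerSeries.mk H)) := by
    refine mul_right_cancel₀ (b := PowerSeries.mk A) (fun h => ?_) ?_
    · have := congrArg (PowerSeries.coeff 0) h
      simp [hA] at this
    · rw [← eB, ← mul_assoc (PowerSeries.X), Derivation.leibniz, Derivation.leibniz] at eL
      simp only [smul_eq_mul, PowerSeries.derivative_X] at eL ⊢
      rw [Derivation.leibniz]
      simp only [smul_eq_mul, PowerSeries.derivative_X]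
      linear_combination eL - (PowerSeries.X * PowerSeries.mk H) * eP
  open PowerSeries in
  have h := congrArg (PowerSeries.coeff (k + 1)) e
  open PowerSeries in
  simp only [PowerSeries.coeff_mk, map_neg, PowerSeries.coeff_succ_X_mul, PowerSeries.coeff_derivative] at h
  rw [h]
  ring

/-- The moments of the root measure at `ψ`, paired with `g`. -/
noncomputable def localVal (x : Fin r → Matrix V V ℂ) (p : V → Fin r → ℝ) (ψ : V) (g : ℝ[X]) : ℝ :=
  ∑ k ∈ Finset.range (g.natDegree + 1), g.coeff k * (moment x p ψ k).re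

/-- An antiderivative. -/
noncomputable def antideriv (g : ℝ[X]) : ℝ[X] :=
  ∑ k ∈ Finset.range (g.natDegree + 1), Polynomial.C (g.coeff k / (k + 1)) * X ^ (k + 1)

lemma derivative_antideriv (g : ℝ[X]) : (antideriv g).derivative = g := by
  conv_rhs => rw [g.as_sum_range_C_mul_X_pow]
  rw [antideriv, map_sum]
  refine Finset.sum_congr rfl (fun k _ => ?_)
  rw [derivative_C_mul_X_pow, Nat.add_sub_cancel]
  congr 2
  push_cast
  field_simp

/-- The root measure at any vertex lives between `-1` and the largest root. -/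
theorem pointed_bound [NeZero r] (hx : ∀ c, NumBound (x c) 1) (hp : ∀ v c, 0 ≤ p v c)
    (hp1 : ∀ v, ∑ c, p v c = 1) {b : ℝ}
    (hb : ∀ w : ℝ, b < w → mix x p (fun _ _ => (w : ℂ)) Finset.univ (fun _ => ∅) ≠ 0)
    {g : ℝ[X]} {C : ℝ} (hg : ∀ s ∈ Set.Icc (-1 : ℝ) b, g.eval s ≤ C) :
    localVal x p ψ g ≤ C := by
  classical
  obtain ⟨ρ, hρm, hρ, hρ1, hρk⟩ := exists_roots hx hp hp1
  have hρb : ∀ i, ρ i ≤ b := fun i => by
    by_contra h
    push Not at h
    refine hb _ h ?_
    rw [hρ, rootProd, Finset.prod_eq_zero (Finset.mem_univ i) (sub_self _)]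
  have hn0 : 0 < Fintype.card V := Fintype.card_pos_iff.2 ⟨ψ⟩
  have hb1 : -1 ≤ b := (abs_le.1 (hρ1 ⟨0, hn0⟩)).1.trans (hρb _)
  set A := atot x p Finset.univ with hA
  set B := atot x p (Finset.univ.erase ψ) with hB
  set P : ℕ → ℂ := fun i => if i = 0 then 0 else ∑ l, ((ρ l : ℝ) : ℂ) ^ i with hP
  have hA0 : A 0 = 1 := by simp [A, atot, acoef_zero_eq hp1]
  have hB0 : B 0 = 1 := by simp [B, atot, acoef_zero_eq hp1]
  have hPid : ∀ k, ∑ i ∈ Finset.range (k + 1), P i * A (k - i) = -(k : ℂ) * A k := by
    intro k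
    have h := sum_kappa_identity (x := x) hp1 (Finset.univ : Finset V) k
    refine Eq.trans ?_ h
    refine Finset.sum_congr rfl (fun i _ => ?_)
    congr 1
    simp only [P]
    split_ifs with hi
    · subst hi; simp [kappa_zero]
    · rw [hρk i (Nat.pos_of_ne_zero hi)]
      push_cast
      rfl
  choose σ hσρ hσlo hσid using fun (t : {t : ℝ // 0 < t}) =>
    exists_shift_roots (ψ := ψ) hx hp hp1 hρm hρ t.2
  set tt : ℕ → {t : ℝ // 0 < t} := fun m => ⟨1 / ((m : ℝ) + 1), by positivity⟩ with htt
  set Q : ℕ → ℕ → ℂ := fun m i => if i = 0 then 0 else ∑ l, ((σ (tt m) l : ℝ) : ℂ) ^ i with hQ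
  set D : ℕ → ℕ → ℂ := fun m i => (Q m i - P i) / ((tt m).1 : ℂ) with hD
  have ht0 : Tendsto (fun m => (tt m).1) atTop (𝓝 0) := tendsto_one_div_add_atTop_nhds_zero_nat
  have hrec : ∀ m k, ∑ i ∈ Finset.range (k + 2), D m i * A (k + 1 - i)
      + ∑ i ∈ Finset.range (k + 1), Q m i * B (k - i) = -((k : ℂ) + 1) * B k := by
    intro m k
    have h := hσid (tt m) (k + 1)
    have h' := hPid (k + 1)
    have e : ∑ i ∈ Finset.range (k + 1 + 1), Q m i * atotShift x p ψ (tt m).1 (k + 1 - i)
        = ∑ i ∈ Finset.range (k + 2), Q m i * A (k + 1 - i)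
          + ((tt m).1 : ℂ) * ∑ i ∈ Finset.range (k + 1), Q m i * B (k - i) := by
      rw [Finset.sum_range_succ, Finset.sum_range_succ (n := k + 1), Nat.sub_self, atotShift,
        add_right_comm]
      congr 1
      rw [Finset.mul_sum, ← Finset.sum_add_distrib]
      refine Finset.sum_congr rfl (fun i hi => ?_)
      rw [Finset.mem_range] at hi
      rw [show k + 1 - i = (k - i) + 1 by omega, atotShift]
      ring
    rw [show (∑ i ∈ Finset.range (k + 1 + 1),
      (if i = 0 then 0 else ∑ l, ((σ (tt m) l : ℝ) : ℂ) ^ i) * atotShift x p ψ (tt m).1 (k + 1 - i))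
      = ∑ i ∈ Finset.range (k + 1 + 1), Q m i * atotShift x p ψ (tt m).1 (k + 1 - i) from rfl, e,
      atotShift] at h
    have ht : ((tt m).1 : ℂ) ≠ 0 := by exact_mod_cast (tt m).2.ne'
    refine mul_left_cancel₀ ht ?_
    rw [mul_add, Finset.mul_sum]
    have e2 : ∀ i ∈ Finset.range (k + 2), ((tt m).1 : ℂ) * (D m i * A (k + 1 - i))
        = Q m i * A (k + 1 - i) - P i * A (k + 1 - i) := fun i _ => by
      simp only [D]; field_simp
    rw [Finset.sum_congr rfl e2, Finset.sum_sub_distrib, h']
    push_cast at h ⊢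
    linear_combination h
  have hlim : ∀ i, (∃ L, Tendsto (fun m => D m i) atTop (𝓝 L)) ∧
      Tendsto (fun m => Q m i) atTop (𝓝 (P i)) := by
    intro i
    induction i using Nat.strong_induction_on with
    | h i ih =>
      have hD0 : ∃ L, Tendsto (fun m => D m i) atTop (𝓝 L) := by
        rcases i with _ | k
        · exact ⟨0, by simp [D, Q, P]⟩
        choose Lf hLf using fun j (hj : j < k + 1) => (ih j hj).1
        let L' : ℕ → ℂ := fun j => if hj : j < k + 1 then Lf j hj else 0
        refine ⟨-((k : ℂ) + 1) * B k - (∑ j ∈ Finset.range (k + 1), L' j * A (k + 1 - j))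
          - ∑ j ∈ Finset.range (k + 1), P j * B (k - j), ?_⟩
        have e : ∀ m, D m (k + 1) = -((k : ℂ) + 1) * B k
            - (∑ j ∈ Finset.range (k + 1), D m j * A (k + 1 - j))
            - ∑ j ∈ Finset.range (k + 1), Q m j * B (k - j) := fun m => by
          have h := hrec m k
          rw [Finset.sum_range_succ, Nat.sub_self, hA0, mul_one] at h
          linear_combination h
        simp only [e]
        refine (tendsto_const_nhds.sub (tendsto_finsetSum _ (fun j hj => ?_))).sub
          (tendsto_finsetSum _ (fun j hj => ((ih j (Finset.mem_range.1 hj)).2).mul_const _))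
        simp only [L', dif_pos (Finset.mem_range.1 hj)]
        exact (hLf j (Finset.mem_range.1 hj)).mul_const _
      refine ⟨hD0, ?_⟩
      obtain ⟨L, hL⟩ := hD0
      have h := (((Complex.continuous_ofReal.tendsto 0).comp ht0).mul hL).const_add (P i)
      rw [Complex.ofReal_zero, zero_mul, add_zero] at h
      refine h.congr (fun m => ?_)
      have ht : ((tt m).1 : ℂ) ≠ 0 := by exact_mod_cast (tt m).2.ne'
      simp only [D, Function.comp_apply]
      field_simp
      ring
  choose L hL using fun i => (hlim i).1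
  have hLval : ∀ k, L (k + 1) = -((k : ℂ) + 1) * moment x p ψ k := by
    refine series_identity A B (moment x p ψ) P L hA0 (fun k => moment_identity hp1 k) hPid ?_
      (fun k => ?_)
    · have : L 0 = 0 := tendsto_nhds_unique (hL 0) (by simp [D, Q, P])
      simp [this]
    · refine tendsto_nhds_unique
        (((tendsto_finsetSum _ (fun i _ => (hL i).mul_const _)).add
        (tendsto_finsetSum _ (fun i _ => (hlim i).2.mul_const _))).congr (fun m => hrec m k))
        tendsto_const_nhds
  set G := antideriv g with hG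
  set E : ℕ → ℝ := fun m => ∑ l, (G.eval (ρ l) - G.eval (σ (tt m) l)) / (tt m).1 with hE
  have hElim : Tendsto E atTop (𝓝 (localVal x p ψ g)) := by
    have e : ∀ m, E m = ∑ k ∈ Finset.range (g.natDegree + 1),
        g.coeff k / ((k : ℝ) + 1) * (-(D m (k + 1)).re) := by
      intro m
      have e1 : ∀ k, (D m (k + 1)).re
          = (∑ l, (σ (tt m) l ^ (k + 1) - ρ l ^ (k + 1))) / (tt m).1 := by
        intro k
        simp only [D, Q, P, if_neg (Nat.succ_ne_zero k)]
        rw [Complex.div_ofReal_re, Complex.sub_re, Finset.sum_sub_distrib]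
        simp [Complex.re_sum, ← Complex.ofReal_pow]
      simp only [E, e1, G, antideriv, eval_finsetSum, eval_mul, eval_C, eval_pow, eval_X,
        ← Finset.sum_sub_distrib]
      rw [← Finset.sum_div, Finset.sum_comm]
      simp only [Finset.sum_div, Finset.mul_sum, ← neg_div, ← Finset.sum_neg_distrib]
      refine Finset.sum_congr rfl (fun k _ => Finset.sum_congr rfl (fun l _ => by ring))
    rw [show E = fun m => _ from funext e]
    simp only [localVal]
    refine tendsto_finsetSum _ (fun k _ => ?_)
    have h := (((Complex.continuous_re.tendsto _).comp (hL (k + 1))).neg).const_mul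
      (g.coeff k / ((k : ℝ) + 1))
    rw [hLval k] at h
    have hk : ((k : ℝ) + 1) ≠ 0 := by positivity
    have e2 : g.coeff k / ((k : ℝ) + 1) * -(-((k : ℂ) + 1) * moment x p ψ k).re
        = g.coeff k * (moment x p ψ k).re := by
      rw [show -((k : ℂ) + 1) * moment x p ψ k
        = ((-((k : ℝ) + 1) : ℝ) : ℂ) * moment x p ψ k by push_cast; ring, Complex.re_ofReal_mul]
      field_simp
    rw [e2] at h
    exact h
  have hsum : Tendsto (fun m => ∑ l, (ρ l - σ (tt m) l) / (tt m).1) atTop (𝓝 1) := by
    have e : ∀ m, ∑ l, (ρ l - σ (tt m) l) / (tt m).1 = -(D m 1).re := by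
      intro m
      simp only [D, Q, P, if_neg one_ne_zero, pow_one]
      rw [Complex.div_ofReal_re, Complex.sub_re, ← Finset.sum_div, Finset.sum_sub_distrib]
      simp [Complex.re_sum]
      ring
    simp only [e]
    have h := ((Complex.continuous_re.tendsto _).comp (hL 1)).neg
    rw [hLval 0] at h
    have : moment x p ψ 0 = 1 := by
      have h := moment_identity (x := x) (ψ := ψ) hp1 0
      simpa [hA0, hB0, A, B] using h
    simpa [this] using h
  refine le_of_forall_pos_le_add (fun δ hδ => ?_)
  obtain ⟨d, hd, hd'⟩ := Metric.continuousAt_iff.1 (g.continuous.continuousAt (x := (-1 : ℝ))) δ hδ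
  have hev : ∀ᶠ m in atTop, E m ≤ (C + δ) * ∑ l, (ρ l - σ (tt m) l) / (tt m).1 := by
    filter_upwards [ht0.eventually (gt_mem_nhds hd)] with m hm
    simp only [E, Finset.mul_sum]
    refine Finset.sum_le_sum (fun l _ => ?_)
    rw [← mul_div_assoc]
    refine div_le_div_of_nonneg_right ?_ (tt m).2.le
    refine Convex.image_sub_le_mul_sub_of_deriv_le (convex_Icc (-1 - (tt m).1) b)
      G.continuous.continuousOn G.differentiable.differentiableOn (fun s hs => ?_) _
      ⟨hσlo _ l, (hσρ _ l).trans (hρb l)⟩ _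
      ⟨(hσlo _ l).trans (hσρ _ l), hρb l⟩ (hσρ _ l)
    rw [interior_Icc] at hs
    rw [Polynomial.deriv, derivative_antideriv]
    rcases le_or_gt (-1 : ℝ) s with h | h
    · linarith [hg s ⟨h, hs.2.le⟩]
    · have h1 := hg (-1) ⟨le_rfl, hb1⟩
      have h2 := hd' (x := s) (by
        rw [Real.dist_eq, abs_lt]; constructor <;> linarith [hs.1])
      rw [Real.dist_eq] at h2
      linarith [(abs_lt.1 h2).2]
  have := le_of_tendsto_of_tendsto hElim (hsum.const_mul (C + δ)) hev
  linarith

/-- For a full colouring the root measure at `ψ` is the spectral measure of the pinched matrix. -/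
theorem moment_full [NeZero r] (col : V → Fin r) (ψ : V) (k : ℕ) :
    moment x (law fun v => some (col v)) ψ k = (pinched x col ^ k) ψ ψ := by
  classical
  set p := law (fun v => some (col v)) with hpdef
  have hp1 : ∀ v, ∑ c, p v c = 1 := law_sum _
  set M := pinched x col with hM
  have hmix : ∀ R : Finset V, mix x p 0 R (fun _ => ∅) = (minorMat M 0 R).det := by
    intro R
    rw [show (0 : Fin r → V → ℂ) = fun _ => (0 : V → ℂ) from rfl, mix_eq_pinched,
      Finset.sum_eq_single col]
    · simp [p, law, M]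
    · intro f _ hf
      obtain ⟨v, hv⟩ := Function.ne_iff.1 hf
      rw [Finset.prod_eq_zero (Finset.mem_univ v) (by simp [p, law, hv]), zero_mul]
    · simp
  have hco : ∀ (U : Finset V) (j : ℕ), atot x p U j
      = ∑ R ∈ U.powerset, if R.card = j then (minorMat M 0 R).det else 0 := by
    intro U j
    refine Finset.sum_congr rfl (fun R _ => ?_)
    rw [acoef]
    split_ifs
    · have := ecoef_eq (x := x) (p := p) hp1 (Function.Embedding.refl V) R
      rw [Finset.map_refl] at this
      rw [this, ← hmix]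
      rfl
    · rfl
  -- the determinant of `1 - s M` on `U`
  set Φ : Finset V → ℂ[X] := fun U =>
    ∑ R ∈ U.powerset, Polynomial.C (minorMat M 0 R).det * X ^ R.card with hΦ
  have hΦc : ∀ U j, (Φ U).coeff j = atot x p U j := fun U j => by
    rw [hco, hΦ, finsetSum_coeff]
    exact Finset.sum_congr rfl (fun R _ => by rw [coeff_C_mul_X_pow]; simp [eq_comm])
  have hΦe : ∀ (U : Finset V) (s : ℂ), (minorMat (s • M) (fun _ => 1) U).det = (Φ U).eval s := by
    intro U s
    rw [minorMat_det_expand_const, hΦ, eval_finsetSum]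
    refine Finset.sum_congr rfl (fun R _ => ?_)
    have e : minorMat (s • M) 0 R
        = Matrix.diagonal (fun i => if i ∈ R then s else 1) * minorMat M 0 R := by
      refine Matrix.ext (fun i j => ?_)
      rw [Matrix.diagonal_mul]
      by_cases hi : i ∈ R <;> by_cases hj : j ∈ R <;> by_cases hij : i = j <;>
        simp_all [minorMat]
    rw [e, Matrix.det_mul, Matrix.det_diagonal, Finset.prod_ite_mem, Finset.univ_inter,
      Finset.prod_const, eval_mul, eval_C, eval_pow, eval_X, one_pow]
    ring
  set N : Matrix V V ℂ[X] := 1 - (X : ℂ[X]) • M.map Polynomial.C with hN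
  have hNs : ∀ s : ℂ, N.map (Polynomial.evalRingHom s)
      = minorMat (s • M) (fun _ => 1) Finset.univ := by
    intro s
    refine Matrix.ext (fun i j => ?_)
    by_cases hij : i = j <;> simp [N, minorMat, hij] <;> ring
  have hdet : N.det = Φ Finset.univ := Polynomial.funext (fun s => by
    rw [← Polynomial.coe_evalRingHom, RingHom.map_det, RingHom.mapMatrix_apply, hNs, hΦe]; rfl)
  have hadj : N.adjugate ψ ψ = Φ (Finset.univ.erase ψ) := Polynomial.funext (fun s => by
    have e : (Polynomial.evalRingHom s) (N.adjugate ψ ψ)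
        = ((minorMat (s • M) (fun _ => 1) Finset.univ).adjugate) ψ ψ := by
      rw [← hNs s, ← RingHom.mapMatrix_apply, ← RingHom.map_adjugate]; rfl
    rw [Polynomial.coe_evalRingHom] at e
    rw [e, ← hΦe, Matrix.adjugate_apply]
    refine det_eq_of_agree (w := ψ) (fun j hj => ?_) (fun j hj => ?_) ?_ (fun i j hi hj => ?_)
    · simp [Matrix.updateRow_self, hj]
    · simp [minorMat, Ne.symm hj]
    · simp [Matrix.updateRow_self, minorMat]
    · simp [Matrix.updateRow_ne hi, minorMat, hi, hj])
  have hY : ∀ φ m, ((N.adjugate) φ ψ).coeff m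
      = ∑ i ∈ Finset.range (m + 1), (M ^ i) φ ψ * atot x p Finset.univ (m - i) := by
    have hstep : ∀ φ, (N.det • (1 : Matrix V V ℂ[X])) φ ψ = (N.adjugate φ ψ)
        - X * ∑ χ, Polynomial.C (M φ χ) * N.adjugate χ ψ := fun φ => by
      rw [← Matrix.mul_adjugate, hN, Matrix.sub_mul, Matrix.one_mul, Matrix.sub_apply,
        Matrix.smul_mul, Matrix.smul_apply, Matrix.mul_apply, smul_eq_mul]
      simp [Matrix.map_apply]
    intro φ m
    induction m generalizing φ with
    | zero =>
      have h := congrArg (fun q => q.coeff 0) (hstep φ)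
      simp only [coeff_sub, mul_coeff_zero, coeff_X_zero, zero_mul, sub_zero] at h
      rw [← h, hdet]
      by_cases hφ : φ = ψ <;>
        simp [Matrix.one_apply, hφ, hΦc, mul_comm]
    | succ m ih =>
      have h := congrArg (fun q => q.coeff (m + 1)) (hstep φ)
      simp only [coeff_sub, coeff_X_mul, finsetSum_coeff, coeff_C_mul] at h
      simp only [ih] at h
      rw [Finset.sum_range_succ']
      have e : ((N.det • (1 : Matrix V V ℂ[X])) φ ψ).coeff (m + 1)
          = (M ^ 0) φ ψ * atot x p Finset.univ (m + 1 - 0) := by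
        by_cases hφ : φ = ψ <;> simp [hdet, hΦc, Matrix.one_apply, hφ]
      rw [← e]
      have e' : ∑ i ∈ Finset.range (m + 1), (M ^ (i + 1)) φ ψ
            * atot x p Finset.univ (m + 1 - (i + 1))
          = ∑ χ, M φ χ * ∑ i ∈ Finset.range (m + 1), (M ^ i) χ ψ
            * atot x p Finset.univ (m - i) := by
        simp only [pow_succ', Matrix.mul_apply, Finset.mul_sum, Finset.sum_mul]
        rw [Finset.sum_comm]
        exact Finset.sum_congr rfl (fun χ _ => Finset.sum_congr rfl (fun i _ => by
          rw [Nat.add_sub_add_right]; ring))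
      rw [e', h]
      ring
  induction k using Nat.strong_induction_on with
  | h k ih =>
    have h1 := moment_identity (x := x) (ψ := ψ) hp1 k
    have h2 := hY ψ k
    rw [hadj, hΦc] at h2
    rw [h2, Finset.sum_range_succ, Finset.sum_range_succ, Nat.sub_self,
      Finset.sum_congr rfl (fun i hi => by rw [ih i (Finset.mem_range.1 hi)])] at h1
    have hA0 : atot x p Finset.univ 0 = 1 := by simp [atot, acoef_zero_eq hp1]
    rw [hA0, mul_one, mul_one, add_left_cancel_iff] at h1
    exact h1

end Vale.Agent.P078.Mss2
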