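import Vale.Agent.P078.Mss2.PointedBound
import Vale.Agent.P078.Mss2.Locality

/-!
# Colours with signs

A colour `c` comes with three options: the kernel `x`, the kernel `-x` and the kernel `0`.
A coloured vertex averages `x` and `-x`; a finished vertex averages `x` and `0`.
-/

namespace Vale.Agent.P078.Mss2

open Vale.Agent.P078.Mss

open Finset Matrix Polynomial

variable {V : Type*} [DecidableEq V] {r : ℕ}

/-- The colour of an option. -/
def ocol (o : Fin (r * 3)) : Fin r := (finProdFinEquiv.symm o).1

/-- The kind of an option. -/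
def okind (o : Fin (r * 3)) : Fin 3 := (finProdFinEquiv.symm o).2

/-- The sign attached to a kind. -/
def sgn : Fin 3 → ℂ := ![1, -1, 0]

/-- The kernels of the options. -/
def tk (r : ℕ) (x : Matrix V V ℂ) : Fin (r * 3) → Matrix V V ℂ := fun o => sgn (okind o) • x

/-- The law of a coloured vertex. -/
noncomputable def actLaw (c : Fin r) (o : Fin (r * 3)) : ℝ :=
  if ocol o = c then ![1 / 2, 1 / 2, 0] (okind o) else 0

/-- The law of a finished vertex. -/
noncomputable def finLaw (c : Fin r) (o : Fin (r * 3)) : ℝ :=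
  if ocol o = c then ![1 / 2, 0, 1 / 2] (okind o) else 0

/-- The law of a vertex with no colour. -/
noncomputable def freeLaw (o : Fin (r * 3)) : ℝ := 1 / (r : ℝ) * ∑ c, actLaw c o

/-- The law attached to a mark. -/
noncomputable def markLaw : Option (Fin r × Bool) → Fin (r * 3) → ℝ
  | none => freeLaw
  | some (c, false) => actLaw c
  | some (c, true) => finLaw c

/-- The laws attached to a marking. -/
noncomputable def claw (m : V → Option (Fin r × Bool)) (v : V) : Fin (r * 3) → ℝ := markLaw (m v)

lemma sum_options (F : Fin (r * 3) → ℝ) : ∑ o, F o = ∑ c, ∑ t, F (finProdFinEquiv (c, t)) := by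
  rw [← finProdFinEquiv.sum_comp, Fintype.sum_prod_type]

@[simp] lemma ocol_mk (c : Fin r) (t : Fin 3) : ocol (finProdFinEquiv (c, t)) = c := by
  simp [ocol]

@[simp] lemma okind_mk (c : Fin r) (t : Fin 3) : okind (finProdFinEquiv (c, t)) = t := by
  simp [okind]

lemma actLaw_nonneg (c : Fin r) (o : Fin (r * 3)) : 0 ≤ actLaw c o := by
  unfold actLaw; split_ifs
  · generalize okind o = t; fin_cases t <;> norm_num
  · exact le_rfl

lemma finLaw_nonneg (c : Fin r) (o : Fin (r * 3)) : 0 ≤ finLaw c o := by
  unfold finLaw; split_ifs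
  · generalize okind o = t; fin_cases t <;> norm_num
  · exact le_rfl

lemma actLaw_sum (c : Fin r) : ∑ o, actLaw c o = 1 := by
  rw [sum_options]; simp [actLaw, Fin.sum_univ_three]; norm_num

lemma finLaw_sum (c : Fin r) : ∑ o, finLaw c o = 1 := by
  rw [sum_options]; simp [finLaw, Fin.sum_univ_three]; norm_num

lemma claw_nonneg (m : V → Option (Fin r × Bool)) (v : V) (o : Fin (r * 3)) : 0 ≤ claw m v o := by
  rcases hmv : m v with _ | ⟨c, _ | _⟩ <;> simp only [claw, markLaw, hmv]
  · exact mul_nonneg (by positivity) (Finset.sum_nonneg fun c _ => actLaw_nonneg c o)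
  · exact actLaw_nonneg _ o
  · exact finLaw_nonneg _ o

lemma claw_sum [NeZero r] (m : V → Option (Fin r × Bool)) (v : V) : ∑ o, claw m v o = 1 := by
  rcases hmv : m v with _ | ⟨c, _ | _⟩ <;> simp only [claw, markLaw, hmv]
  · simp only [freeLaw, ← Finset.mul_sum]
    rw [Finset.sum_comm]
    simp [actLaw_sum, NeZero.ne r]
  · exact actLaw_sum _
  · exact finLaw_sum _

variable [Fintype V]

lemma tk_bound {x : Matrix V V ℂ} (hx : NumBound x 1) (o : Fin (r * 3)) :
    NumBound (tk r x o) 1 := by
  unfold tk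
  generalize okind o = t
  refine ⟨?_, fun v => ?_⟩
  · fin_cases t <;> simp [sgn, hx.1, Matrix.IsHermitian.neg]
  · have h := hx.2 v
    have h0 : 0 ≤ ∑ i, Complex.normSq (v i) := Finset.sum_nonneg fun i _ => Complex.normSq_nonneg _
    fin_cases t <;> simp [sgn, Matrix.neg_mulVec] at h ⊢ <;> linarith

lemma neZero_options [NeZero r] : NeZero (r * 3) := ⟨by have := NeZero.ne r; omega⟩

/-- Colouring one vertex. -/
theorem flip_colour [NeZero r] {x : Matrix V V ℂ} (hx : NumBound x 1)
    (m : V → Option (Fin r × Bool)) {u : V} (hu : m u = none) {z₀ η ε : ℝ} (hη : 0 < η) {g : ℝ[X]}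
    (hg : Imitates g z₀ η ε) :
    ∃ c, ∑ S : Finset V, kapPoly (tk r x) (claw (Function.update m u (some (c, false)))) g S
      ≤ (∑ S : Finset V, kapPoly (tk r x) (claw m) g S) + 2 * ε := by
  haveI := neZero_options (r := r)
  obtain ⟨c, hc⟩ := flip_avg (tk_bound hx) (claw_nonneg m) (claw_sum m) (β := actLaw)
    actLaw_nonneg actLaw_sum (u := u) (fun o => by simp [claw, hu, markLaw, freeLaw]) hη hg
  refine ⟨c, ?_⟩
  have e : claw (Function.update m u (some (c, false)))
      = Function.update (claw m) u (actLaw c) := by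
    funext v
    by_cases hv : v = u
    · subst hv; simp [claw, markLaw]
    · simp [claw, Function.update_of_ne hv]
  rw [e]; exact hc

/-- Options of weight zero may be forgotten. -/
lemma mix_options {n R : ℕ} (ι : Fin n ↪ Fin R) (X : Fin R → Matrix V V ℂ) {p : V → Fin R → ℝ}
    (hp : ∀ v o, o ∉ Set.range ι → p v o = 0) (z : V → ℂ) :
    mix X p (fun _ => z) Finset.univ (fun _ => ∅)
      = mix (fun i => X (ι i)) (fun v i => p v (ι i)) (fun _ => z) Finset.univ (fun _ => ∅) := by
  classical
  simp only [mix]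
  symm
  refine Finset.sum_bij_ne_zero (fun f _ _ => ι ∘ f) (fun _ _ _ => Finset.mem_univ _)
    (fun f _ _ g _ _ h => funext fun v => ι.injective (congrFun h v)) (fun f _ hf => ?_)
    (fun f _ hf => ?_)
  · have hr : ∀ v, ∃ i, ι i = f v := fun v => by
      by_contra hne
      refine hf ?_
      rw [Finset.prod_eq_zero (Finset.mem_univ v) (by simp [hp v (f v) hne]), zero_mul]
    choose g hg using hr
    have e : ι ∘ g = f := funext hg
    subst e
    refine ⟨g, Finset.mem_univ _, ?_, rfl⟩
    intro hz
    refine hf ?_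
    rw [← hz]
    congr 1
    refine (Finset.prod_of_injOn ι ι.injective.injOn (by simp) (fun o _ ho => ?_)
      (fun i _ => ?_)).symm
    · have : Finset.univ.filter (fun u => (ι ∘ g) u = o) = ∅ :=
        Finset.filter_eq_empty_iff.2 (fun u _ h => ho ⟨g u, by simp, h⟩)
      rw [this, Finset.empty_union, minorMat_empty, Matrix.det_one]
    · congr 3
      ext u
      simp
  · congr 1
    refine (Finset.prod_of_injOn ι ι.injective.injOn (by simp) (fun o _ ho => ?_) (fun i _ => ?_))
    · have : Finset.univ.filter (fun u => (ι ∘ f) u = o) = ∅ :=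
        Finset.filter_eq_empty_iff.2 (fun u _ h => ho ⟨f u, by simp, h⟩)
      rw [this, Finset.empty_union, minorMat_empty, Matrix.det_one]
    · congr 3
      ext u
      simp

/-- The two signed options of a colour. -/
def signedOpt (r : ℕ) : Fin (r * 2) ↪ Fin (r * 3) where
  toFun i := finProdFinEquiv ((finProdFinEquiv.symm i).1, ((finProdFinEquiv.symm i).2).castSucc)
  inj' i j h := by
    have h' := finProdFinEquiv.injective h
    simp only [Prod.mk.injEq] at h'
    exact finProdFinEquiv.symm.injective (Prod.ext h'.1 (Fin.castSucc_injective 2 h'.2))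

lemma signedOpt_mk (c : Fin r) (t : Fin 2) :
    signedOpt r (finProdFinEquiv (c, t)) = finProdFinEquiv (c, t.castSucc) :=
  congrArg finProdFinEquiv (by rw [Equiv.symm_apply_apply])

/-- The signed start has no roots above `3 / √r`. -/
theorem start_pos (hr : 2 ≤ r) {x : Matrix V V ℂ} (hx : NumBound x 1) (h0 : ∀ i, x i i = 0)
    {w : ℝ} (hw : 3 / Real.sqrt r ≤ w) :
    mix (tk r x) (claw fun _ : V => (none : Option (Fin r × Bool))) (fun _ _ => (w : ℂ))
      Finset.univ (fun _ => ∅) ≠ 0 := by
  classical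
  haveI : NeZero r := ⟨by omega⟩
  have hout : ∀ (v : V) o, o ∉ Set.range (signedOpt r) →
      claw (fun _ : V => (none : Option (Fin r × Bool))) v o = 0 := by
    intro v o ho
    obtain ⟨⟨c, t⟩, rfl⟩ := finProdFinEquiv.surjective o
    have ht : t = 2 := by
      fin_cases t
      · exact absurd ⟨finProdFinEquiv (c, (0 : Fin 2)), signedOpt_mk c 0⟩ ho
      · exact absurd ⟨finProdFinEquiv (c, (1 : Fin 2)), signedOpt_mk c 1⟩ ho
      · rfl
    subst ht
    simp [claw, markLaw, freeLaw, actLaw]
  rw [mix_options (signedOpt r) (tk r x) hout (fun _ => (w : ℂ))]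
  have e : (fun (v : V) i => claw (fun _ : V => (none : Option (Fin r × Bool))) v (signedOpt r i))
      = unif V (r * 2) := by
    funext v i
    obtain ⟨⟨c, t⟩, rfl⟩ := finProdFinEquiv.surjective i
    fin_cases t <;> simp [claw, markLaw, freeLaw, actLaw, signedOpt_mk, unif] <;> ring
  rw [e]
  have hw' : 3 / Real.sqrt ((r * 2 : ℕ) : ℝ) ≤ w := by
    refine le_trans ?_ hw
    have hr0 : (0 : ℝ) < r := by exact_mod_cast (by omega : 0 < r)
    refine div_le_div_of_nonneg_left (by norm_num) (Real.sqrt_pos.2 hr0)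
      (Real.sqrt_le_sqrt (by push_cast; linarith))
  have h := mix_pos_above_sqrt (r := r * 2) (by omega) (fun i => tk_bound (r := r) hx (signedOpt r i))
    (fun i v => by simp [tk, h0]) hw'
  intro hz
  rw [show (realVars fun (_ : Fin (r * 2)) (_ : V) => w) = fun _ _ => (w : ℂ) from rfl, hz] at h
  simp at h

omit [Fintype V] in
/-- Finished colours see the kernel `x / 2`. -/
theorem acoef_finished [NeZero r] (x : Matrix V V ℂ) (c : V → Fin r) (j : ℕ) (T : Finset V) :
    acoef (tk r x) (claw fun v => some (c v, true)) j T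
      = acoef (fun _ => (1 / 2 : ℂ) • x) (law fun v => some (c v)) j T := by
  classical
  unfold acoef ecoef
  split_ifs
  swap
  · rfl
  rw [show (0 : Fin (r * 3) → {v // v ∈ T} → ℂ) = fun _ => (0 : {v // v ∈ T} → ℂ) from rfl,
    show (0 : Fin r → {v // v ∈ T} → ℂ) = fun _ => (0 : {v // v ∈ T} → ℂ) from rfl,
    mix_eq_pinched, mix_eq_pinched]
  set W := {v // v ∈ T}
  set M := pinched (sub (fun _ : Fin r => x) (Subtype.val : W → V)) (fun v => c v.1) with hM
  rw [Finset.sum_eq_single (fun v : W => finProdFinEquiv (c v.1, (0 : Fin 3))),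
    Finset.sum_eq_single (fun v : W => c v.1)]
  · have e2 : minorMat (pinched (sub (fun _ : Fin r => (1 / 2 : ℂ) • x) (Subtype.val : W → V))
        (fun v => c v.1)) 0 Finset.univ = (1 / 2 : ℂ) • minorMat M 0 Finset.univ := by
      refine Matrix.ext (fun i l => ?_)
      by_cases hc : c i.1 = c l.1 <;> simp [minorMat, pinched, sub, M, hc]
    have e1 : minorMat (pinched (sub (tk r x) (Subtype.val : W → V))
        (fun v => finProdFinEquiv (c v.1, (0 : Fin 3)))) 0 Finset.univ = minorMat M 0 Finset.univ := by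
      refine Matrix.ext (fun i l => ?_)
      by_cases hc : c i.1 = c l.1 <;> simp [minorMat, pinched, sub, M, tk, sgn, hc]
    rw [e1, e2, Matrix.det_smul]
    simp [claw, markLaw, finLaw, law, W]
  · intro f _ hf
    obtain ⟨v, hv⟩ := Function.ne_iff.1 hf
    rw [Finset.prod_eq_zero (Finset.mem_univ v) (by simp [law, hv]), zero_mul]
  · simp
  · intro f _ hf
    obtain ⟨v, hv⟩ := Function.ne_iff.1 hf
    obtain ⟨⟨d, t⟩, ht⟩ := finProdFinEquiv.surjective (f v)
    by_cases hd : d = c v.1
    swap
    · rw [Finset.prod_eq_zero (Finset.mem_univ v) (by simp [← ht, claw, markLaw, finLaw, hd]),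
        zero_mul]
    subst hd
    fin_cases t
    · exact absurd ht.symm hv
    · rw [Finset.prod_eq_zero (Finset.mem_univ v) (by simp [← ht, claw, markLaw, finLaw]), zero_mul]
    · rw [Matrix.det_eq_zero_of_row_eq_zero (A := minorMat (pinched (sub (tk r x) (Subtype.val : W → V)) f)
        0 Finset.univ) v (fun l => by simp [minorMat, pinched, sub, tk, ← ht, sgn]), mul_zero]
  · simp

omit [Fintype V] in
/-- No finished vertex: negating the kernels changes the coefficients by a sign. -/
theorem acoef_neg [NeZero r] (x : Matrix V V ℂ) {m : V → Option (Fin r × Bool)}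
    (hm : ∀ v c, m v ≠ some (c, true)) (j : ℕ) (T : Finset V) :
    acoef (tk r x) (claw m) j T = (-1) ^ j * acoef (tk r x) (claw m) j T := by
  classical
  unfold acoef ecoef
  split_ifs with hj
  swap
  · simp
  simp only [mix]
  set W := {v // v ∈ T}
  let σ : Fin (r * 3) ≃ Fin (r * 3) :=
    (finProdFinEquiv.symm.trans ((Equiv.refl _).prodCongr (Equiv.swap 0 1))).trans finProdFinEquiv
  have hσs : ∀ o, sgn (okind (σ o)) = -sgn (okind o) := fun o => by
    obtain ⟨⟨d, t⟩, rfl⟩ := finProdFinEquiv.surjective o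
    fin_cases t <;> simp [σ, sgn, Equiv.swap_apply_def]
  have hσp : ∀ (v : W) o, claw m v.1 (σ o) = claw m v.1 o := fun v o => by
    obtain ⟨⟨d, t⟩, rfl⟩ := finProdFinEquiv.surjective o
    rcases hmv : m v.1 with _ | ⟨c, b⟩
    · fin_cases t <;> simp [σ, claw, markLaw, hmv, freeLaw, actLaw, Equiv.swap_apply_def]
    · cases b
      · fin_cases t <;> simp [σ, claw, markLaw, hmv, actLaw, Equiv.swap_apply_def]
      · exact absurd hmv (hm _ _)
  conv_lhs => rw [← (Equiv.arrowCongr (Equiv.refl W) σ).sum_comp]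
  rw [Finset.mul_sum]
  refine Finset.sum_congr rfl (fun f _ => ?_)
  simp only [Equiv.arrowCongr_apply, Equiv.coe_refl, Equiv.refl_symm, Function.comp_def, id_eq, hσp]
  rw [mul_left_comm]
  congr 1
  rw [← σ.prod_comp]
  have e : (-1 : ℂ) ^ j = ∏ o, (-1 : ℂ) ^ (Finset.univ.filter (fun u : W => f u = o)).card := by
    rw [Finset.prod_pow_eq_pow_sum,
      ← Finset.card_eq_sum_card_fiberwise (t := Finset.univ) (fun u _ => Finset.mem_univ (f u))]
    simp [W, hj]
  rw [e, ← Finset.prod_mul_distrib]
  refine Finset.prod_congr rfl (fun o _ => ?_)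
  simp only [Finset.empty_union, σ.injective.eq_iff]
  generalize Finset.univ.filter (fun u : W => f u = o) = S
  have hmat : minorMat (sub (tk r x) (Subtype.val : W → V) (σ o)) ((0 : Fin (r * 3) → W → ℂ) (σ o)) S
      = Matrix.diagonal (fun i => if i ∈ S then (-1 : ℂ) else 1)
        * minorMat (sub (tk r x) (Subtype.val : W → V) o) ((0 : Fin (r * 3) → W → ℂ) o) S := by
    refine Matrix.ext (fun i l => ?_)
    rw [Matrix.diagonal_mul]
    by_cases hi : i ∈ S <;> by_cases hl : l ∈ S <;> by_cases hil : i = l <;>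
      simp_all [minorMat, sub, tk]
  rw [hmat, Matrix.det_mul, Matrix.det_diagonal, Finset.prod_ite_mem, Finset.univ_inter,
    Finset.prod_const]

omit [Fintype V] in
/-- No finished vertex: the pointed cumulants of odd order are odd. -/
theorem pkap_neg [NeZero r] (x : Matrix V V ℂ) {m : V → Option (Fin r × Bool)}
    (hm : ∀ v c, m v ≠ some (c, true)) (ψ : V) (k : ℕ) (S : Finset V) :
    pkap (tk r x) (claw m) ψ k S = (-1) ^ k * pkap (tk r x) (claw m) ψ k S := by
  induction k using Nat.strong_induction_on generalizing S with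
  | h k ih =>
    conv_lhs => rw [pkap_eq]
    conv_rhs => rw [pkap_eq, mul_sub, Finset.mul_sum]
    congr 1
    · unfold bcoef
      split_ifs
      · exact acoef_neg x hm k _
      · simp
    refine Finset.sum_congr rfl (fun i hi => ?_)
    have hik : i ≤ k := (Finset.mem_range.1 hi).le
    simp only [uconv, Finset.mul_sum]
    refine Finset.sum_congr rfl (fun a _ => ?_)
    conv_lhs => rw [ih i (Finset.mem_range.1 hi) a.1, acoef_neg x hm (k - i) a.2]
    rw [show (-1 : ℂ) ^ k = (-1) ^ i * (-1) ^ (k - i) by rw [← pow_add]; congr 1; omega]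
    ring

end Vale.Agent.P078.Mss2
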